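import Mathlib

/-! Worst-case trace reconstruction: definitions. -/

namespace Vale.Agent.P321

/-- The trace of `x` when exactly the positions `i` with `r i = true` survive. -/
def traceOf {n : ℕ} (x r : Fin n → Bool) : List Bool := ((List.finRange n).filter r).map x

/-- The probability of the survival pattern `r`: each position is deleted independently with
probability `q`. -/
def maskWeight (q : ℝ) {n : ℕ} (r : Fin n → Bool) : ℝ := ∏ i, if r i then 1 - q else q

/-- The probability that the randomized estimator `est`, given `m` independent traces of `x`,
outputs `x`. -/
noncomputable def successProb (q : ℝ) {n m : ℕ}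
    (est : (Fin m → List Bool) → PMF (Fin n → Bool)) (x : Fin n → Bool) : ℝ :=
  ∑ ω : Fin m → Fin n → Bool,
    (∏ j, maskWeight q (ω j)) * (est (fun j => traceOf x (ω j)) x).toReal

/-- Some estimator succeeds from `m` traces with probability at least `2/3` on every string. -/
def Reconstructible (q : ℝ) (n m : ℕ) : Prop :=
  ∃ est : (Fin m → List Bool) → PMF (Fin n → Bool), ∀ x, 2 / 3 ≤ successProb q est x

/-- The worst-case sample complexity of trace reconstruction. -/
noncomputable def T (q : ℝ) (n : ℕ) : ℕ := sInf {m | Reconstructible q n m}

end Vale.Agent.P321
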