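import Mathlib

/-! A Poisson-Jensen type estimate for polynomials, a Gaussian conversion lemma and the
approximate character argument. -/

namespace Vale.Agent.P321

open Complex Metric Set MeasureTheory
open scoped ComplexConjugate

theorem exists_pow_factor (w : ℂ) (hw : ‖w‖ < 1) (p : ℝ) (hp : 0 < p) (a : ℂ) :
    ∃ f : ℂ → ℂ, DiffContOnCl ℂ f (ball 0 1) ∧ (∀ z, ‖z‖ = 1 → ‖f z‖ = ‖z - a‖ ^ p) ∧
      ‖w - a‖ ^ p ≤ ‖f w‖ := by
  obtain ⟨b, κ, hb, hκ, h1, h2⟩ : ∃ (b : ℂ) (κ : ℝ), ‖b‖ ≤ 1 ∧ 0 ≤ κ ∧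
      (∀ z : ℂ, ‖z‖ = 1 → ‖z - a‖ = κ * ‖1 - b * z‖) ∧ ‖w - a‖ ≤ κ * ‖1 - b * w‖ := by
    rcases le_or_gt ‖a‖ 1 with ha | ha
    · refine ⟨conj a, 1, by rwa [Complex.norm_conj], zero_le_one, fun z hz => ?_, ?_⟩
      · have : 1 - conj a * z = z * conj (z - a) := by
          rw [map_sub, mul_sub, Complex.mul_conj', hz]; simp; ring
        rw [this, norm_mul, hz, Complex.norm_conj]; ring
      · rw [one_mul]
        apply abs_le_of_sq_le_sq' _ (norm_nonneg _) |>.2
        have ha2 : ‖a‖ ^ 2 ≤ 1 := pow_le_one₀ (norm_nonneg _) ha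
        have hw2 : ‖w‖ ^ 2 ≤ 1 := pow_le_one₀ (norm_nonneg _) hw.le
        rw [Complex.sq_norm, Complex.normSq_apply] at ha2 hw2
        rw [Complex.sq_norm, Complex.sq_norm, Complex.normSq_apply, Complex.normSq_apply]
        simp only [sub_re, sub_im, one_re, one_im, mul_re, mul_im, conj_re, conj_im]
        nlinarith [mul_nonneg (sub_nonneg.2 ha2) (sub_nonneg.2 hw2)]
    · have ha0 : a ≠ 0 := by rintro rfl; norm_num at ha
      have key : ∀ z : ℂ, ‖z - a‖ = ‖a‖ * ‖1 - a⁻¹ * z‖ := fun z => by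
        rw [← norm_mul, norm_sub_rev]; congr 1; field_simp
      refine ⟨a⁻¹, ‖a‖, ?_, norm_nonneg _, fun z _ => key z, (key w).le⟩
      rw [norm_inv]; exact inv_le_one_of_one_le₀ ha.le
  have hre : ∀ z : ℂ, 1 - ‖z‖ ≤ (1 - b * z).re := fun z => by
    have : (b * z).re ≤ ‖z‖ := by
      refine (Complex.re_le_norm _).trans ?_
      rw [norm_mul]; nlinarith [norm_nonneg z, norm_nonneg b]
    simp only [sub_re, one_re]; linarith
  refine ⟨fun z => ((κ ^ p : ℝ) : ℂ) * (1 - b * z) ^ (p : ℂ), ⟨?_, ?_⟩, fun z hz => ?_, ?_⟩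
  · intro z hz
    rw [mem_ball_zero_iff] at hz
    refine DifferentiableAt.differentiableWithinAt (DifferentiableAt.const_mul ?_ _)
    refine DifferentiableAt.cpow_const (by fun_prop) ?_
    exact Or.inl (by linarith [hre z])
  · rw [closure_ball _ one_ne_zero]
    intro z hz
    rw [mem_closedBall_zero_iff] at hz
    refine ContinuousAt.continuousWithinAt (ContinuousAt.const_mul ?_ _)
    exact ContinuousAt.comp (f := fun z => 1 - b * z)
      (continuousAt_cpow_const_of_re_pos (Or.inl (by linarith [hre z])) (by simpa using hp))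
      (by fun_prop)
  · rw [norm_mul, norm_cpow_real, Complex.norm_real, Real.norm_eq_abs,
      abs_of_nonneg (Real.rpow_nonneg hκ _), h1 z hz, Real.mul_rpow hκ (norm_nonneg _)]
  · rw [norm_mul, norm_cpow_real, Complex.norm_real, Real.norm_eq_abs,
      abs_of_nonneg (Real.rpow_nonneg hκ _), ← Real.mul_rpow hκ (norm_nonneg _)]
    exact Real.rpow_le_rpow (norm_nonneg _) h2 hp.le

theorem exists_pow_poly (w : ℂ) (hw : ‖w‖ < 1) (p : ℝ) (hp : 0 < p) (P : Polynomial ℂ) :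
    ∃ f : ℂ → ℂ, DiffContOnCl ℂ f (ball 0 1) ∧ (∀ z, ‖z‖ = 1 → ‖f z‖ = ‖P.eval z‖ ^ p) ∧
      ‖P.eval w‖ ^ p ≤ ‖f w‖ := by
  have hm : ∀ s : Multiset ℂ, ∃ f : ℂ → ℂ, DiffContOnCl ℂ f (ball 0 1) ∧
      (∀ z, ‖z‖ = 1 → ‖f z‖ = ‖(s.map (z - ·)).prod‖ ^ p) ∧
      ‖(s.map (w - ·)).prod‖ ^ p ≤ ‖f w‖ := by
    intro s
    induction s using Multiset.induction_on with
    | empty => exact ⟨fun _ => 1, diffContOnCl_const, by simp, by simp⟩
    | cons a s ih =>
      obtain ⟨f, f1, f2, f3⟩ := ih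
      obtain ⟨g, g1, g2, g3⟩ := exists_pow_factor w hw p hp a
      refine ⟨fun z => g z * f z, ⟨g1.1.mul f1.1, g1.2.mul f1.2⟩, fun z hz => ?_, ?_⟩
      · rw [Multiset.map_cons, Multiset.prod_cons, norm_mul, norm_mul, f2 z hz, g2 z hz,
          Real.mul_rpow (norm_nonneg _) (norm_nonneg _)]
      · rw [Multiset.map_cons, Multiset.prod_cons, norm_mul, norm_mul,
          Real.mul_rpow (norm_nonneg _) (norm_nonneg _)]
        exact mul_le_mul g3 f3 (by positivity) (norm_nonneg _)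
  obtain ⟨f, f1, f2, f3⟩ := hm P.roots
  have hP : ∀ z, P.eval z = P.leadingCoeff * (P.roots.map (z - ·)).prod := fun z =>
    (IsAlgClosed.splits P).eval_eq_prod_roots z
  refine ⟨fun z => ((‖P.leadingCoeff‖ ^ p : ℝ) : ℂ) * f z, ⟨f1.1.const_mul _, f1.2.const_mul _⟩,
    fun z hz => ?_, ?_⟩
  · rw [hP, norm_mul, norm_mul, f2 z hz, Real.mul_rpow (norm_nonneg _) (norm_nonneg _),
      Complex.norm_real, Real.norm_eq_abs, abs_of_nonneg (by positivity)]
  · rw [hP, norm_mul, norm_mul, Real.mul_rpow (norm_nonneg _) (norm_nonneg _),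
      Complex.norm_real, Real.norm_eq_abs, abs_of_nonneg (by positivity)]
    gcongr

theorem poisson_integral {f : ℂ → ℂ} (hf : DiffContOnCl ℂ f (ball 0 1)) {w : ℂ} (hw : ‖w‖ < 1) :
    ∫ θ in (-Real.pi)..Real.pi, poissonKernel 0 w (exp (θ * I)) • f (exp (θ * I)) =
      (2 * Real.pi : ℝ) • f w := by
  have h := hf.circleAverage_poissonKernel_smul (w := w) (by simpa using hw)
  rw [Real.circleAverage_eq_integral_add (-Real.pi),
    intervalIntegral.integral_comp_add_right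
      (fun θ => (poissonKernel 0 w • f) (circleMap 0 1 θ))] at h
  rw [← h, smul_smul, mul_inv_cancel₀ (by positivity), one_smul]
  have : 2 * Real.pi + -Real.pi = Real.pi := by ring
  simp [this, circleMap]

theorem bad_set (P : Polynomial ℂ) (w : ℂ) (hw : ‖w‖ < 1) (E Λ L k₀ p : ℝ) (hE : 0 < E)
    (hp : 0 < p) (hL : L ≤ Real.pi) (hsup : ∀ θ : ℝ, ‖P.eval (exp (θ * I))‖ ≤ E)
    (hlow : E * Real.exp (-Λ) ≤ ‖P.eval w‖)
    (hk : ∀ θ ∈ Icc (-L) L, k₀ ≤ poissonKernel 0 w (exp (θ * I))) :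
    volume.real {θ : ℝ | θ ∈ Icc (-L) L ∧ ‖P.eval (exp (θ * I))‖ < E * Real.exp (-p⁻¹)} * k₀ ≤
      4 * Real.pi * (p * Λ) := by
  set B := {θ : ℝ | θ ∈ Icc (-L) L ∧ ‖P.eval (exp (θ * I))‖ < E * Real.exp (-p⁻¹)} with hB
  have hPc : Continuous fun θ : ℝ => ‖P.eval (exp (θ * I))‖ :=
    (P.continuous.comp (by fun_prop)).norm
  have hBm : MeasurableSet B :=
    measurableSet_Icc.inter (isOpen_lt hPc continuous_const).measurableSet
  have hne : ∀ θ : ℝ, exp (θ * I) - w ≠ 0 := fun θ h => by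
    rw [sub_eq_zero] at h
    rw [← h, norm_exp_ofReal_mul_I] at hw
    exact lt_irrefl _ hw
  set K : ℝ → ℝ := fun θ => poissonKernel 0 w (exp (θ * I)) with hK
  have hKc : Continuous K := by
    simp only [hK, poissonKernel_def, sub_zero]
    refine Continuous.div (by fun_prop) (by fun_prop) fun θ => ?_
    exact pow_ne_zero 2 (norm_ne_zero_iff.2 (hne θ))
  have hK0 : ∀ θ, 0 ≤ K θ := fun θ => by
    simp only [hK, poissonKernel_def, sub_zero, norm_exp_ofReal_mul_I]
    refine div_nonneg ?_ (by positivity)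
    nlinarith [norm_nonneg w]
  have hK1 : ∫ θ in (-Real.pi)..Real.pi, K θ = 2 * Real.pi := by
    have := poisson_integral (f := fun _ => (1 : ℂ)) diffContOnCl_const hw
    simp only [real_smul, mul_one] at this
    rw [intervalIntegral.integral_ofReal] at this
    exact_mod_cast this
  obtain ⟨f, f1, f2, f3⟩ := exists_pow_poly w hw p hp P
  have hpi : -Real.pi ≤ Real.pi := by linarith [Real.pi_pos]
  have hJ : 2 * Real.pi * ‖P.eval w‖ ^ p ≤
      ∫ θ in (-Real.pi)..Real.pi, K θ * ‖P.eval (exp (θ * I))‖ ^ p := by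
    calc 2 * Real.pi * ‖P.eval w‖ ^ p ≤ 2 * Real.pi * ‖f w‖ := by gcongr
      _ = ‖(2 * Real.pi : ℝ) • f w‖ := by
          rw [norm_smul, Real.norm_eq_abs, abs_of_pos (by positivity)]
      _ ≤ ∫ θ in (-Real.pi)..Real.pi, ‖K θ • f (exp (θ * I))‖ := by
          rw [← poisson_integral f1 hw]
          exact intervalIntegral.norm_integral_le_integral_norm hpi
      _ = _ := by
          congr 1
          ext θ
          rw [norm_smul, Real.norm_eq_abs, abs_of_nonneg (hK0 θ), f2 _ (norm_exp_ofReal_mul_I θ)]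
  have hEp : 0 < E ^ p := Real.rpow_pos_of_pos hE p
  have hBsub : B ⊆ Icc (-Real.pi) Real.pi := fun θ hθ =>
    ⟨by linarith [hθ.1.1], by linarith [hθ.1.2]⟩
  have hind : IntervalIntegrable (B.indicator fun _ => (1 : ℝ)) volume (-Real.pi) Real.pi := by
    rw [intervalIntegrable_iff_integrableOn_Icc_of_le hpi]
    exact (continuous_const.continuousOn.integrableOn_Icc).indicator hBm
  have hind2 : ∫ θ in (-Real.pi)..Real.pi, B.indicator (fun _ => (1 : ℝ)) θ = volume.real B := by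
    rw [intervalIntegral.integral_of_le hpi, ← integral_Icc_eq_integral_Ioc,
      setIntegral_indicator hBm, inter_eq_self_of_subset_right hBsub]
    simp
  have hU : ∫ θ in (-Real.pi)..Real.pi, K θ * ‖P.eval (exp (θ * I))‖ ^ p ≤
      E ^ p * (2 * Real.pi) - E ^ p / 2 * k₀ * volume.real B := by
    rw [← hK1, ← hind2, ← intervalIntegral.integral_const_mul,
      ← intervalIntegral.integral_const_mul, ← intervalIntegral.integral_sub
        ((hKc.intervalIntegrable _ _).const_mul _) (hind.const_mul _)]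
    refine intervalIntegral.integral_mono_on hpi
      ((hKc.mul (hPc.rpow_const fun _ => Or.inr hp.le)).intervalIntegrable _ _)
      (((hKc.intervalIntegrable _ _).const_mul _).sub (hind.const_mul _)) fun θ _ => ?_
    by_cases hθ : θ ∈ B
    · rw [indicator_of_mem hθ, mul_one]
      have h1 : ‖P.eval (exp (θ * I))‖ ^ p ≤ E ^ p / 2 := by
        calc _ ≤ (E * Real.exp (-p⁻¹)) ^ p := Real.rpow_le_rpow (norm_nonneg _) hθ.2.le hp.le
          _ = E ^ p * Real.exp (-1) := by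
              rw [Real.mul_rpow hE.le (Real.exp_pos _).le, ← Real.exp_mul, neg_mul,
                inv_mul_cancel₀ hp.ne']
          _ ≤ E ^ p / 2 := by nlinarith [Real.exp_neg_one_lt_d9]
      have h2 : k₀ ≤ K θ := hk θ hθ.1
      nlinarith [hK0 θ, mul_le_mul_of_nonneg_left h1 (hK0 θ)]
    · rw [indicator_of_notMem hθ, mul_zero, sub_zero, mul_comm]
      exact mul_le_mul_of_nonneg_right (Real.rpow_le_rpow (norm_nonneg _) (hsup θ) hp.le) (hK0 θ)
  have hL' : E ^ p * (1 - p * Λ) ≤ ‖P.eval w‖ ^ p := by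
    calc E ^ p * (1 - p * Λ) ≤ E ^ p * Real.exp (-Λ * p) := by
          gcongr
          have := Real.add_one_le_exp (-Λ * p)
          linarith
      _ = (E * Real.exp (-Λ)) ^ p := by
          rw [Real.mul_rpow hE.le (Real.exp_pos _).le, ← Real.exp_mul]
      _ ≤ _ := Real.rpow_le_rpow (by positivity) hlow hp.le
  have h3 : E ^ p * (volume.real B * k₀) ≤ E ^ p * (4 * Real.pi * (p * Λ)) := by
    nlinarith [Real.pi_pos]
  exact le_of_mul_le_mul_left h3 hEp

theorem gauss_convert {ι : Type*} (I : Finset ι) (t : ι → ℝ) (u : ι → ℂ) (s α R τ Bd : ℝ)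
    (hτ : 0 < τ) (hR : 0 ≤ R) (h1 : τ ≤ ‖∑ i ∈ I, ((Real.exp (-(s * t i) ^ 2) : ℝ) : ℂ) * u i‖)
    (h2 : ∑ i ∈ I, Real.exp (-(2 * α * s) * t i) * ‖u i‖ ≤ Bd)
    (h3 : 4 * Bd * Real.exp (-R ^ 2 / 2) ≤ τ * Real.exp (-α ^ 2)) :
    ∃ g : ℝ, |g| ≤ R ∧ τ * Real.exp (-α ^ 2) / 4 ≤
      ‖∑ i ∈ I, exp (-((2 * α * s : ℝ) + (2 * g * s : ℝ) * Complex.I) * t i) * u i‖ := by
  by_contra hcon
  push Not at hcon
  set Hf : ℝ → ℂ := fun g =>
    ∑ i ∈ I, exp (-((2 * α * s : ℝ) + (2 * g * s : ℝ) * Complex.I) * t i) * u i with hHf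
  have hb : (-1 : ℂ).re < 0 := by simp
  have hterm : ∀ (i : ι) (g : ℝ), exp (-1 * (g : ℂ) ^ 2 + (2 * Complex.I * (α - s * t i)) * g +
      (-(2 * α * s) * t i)) * u i = exp (-(g : ℂ) ^ 2 + 2 * Complex.I * α * g) *
        (exp (-((2 * α * s : ℝ) + (2 * g * s : ℝ) * Complex.I) * t i) * u i) := by
    intro i g
    rw [← mul_assoc, ← exp_add]
    congr 2
    push_cast; ring
  have hint : ∫ g : ℝ, exp (-(g : ℂ) ^ 2 + 2 * Complex.I * α * g) * Hf g =
      ((Real.sqrt Real.pi * Real.exp (-α ^ 2) : ℝ) : ℂ) *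
        ∑ i ∈ I, ((Real.exp (-(s * t i) ^ 2) : ℝ) : ℂ) * u i := by
    simp only [hHf, Finset.mul_sum, ← hterm]
    rw [integral_finsetSum _ fun i _ => (integrable_cexp_quadratic' hb _ _).mul_const _]
    refine Finset.sum_congr rfl fun i _ => ?_
    rw [integral_mul_const, integral_cexp_quadratic hb, ← mul_assoc]
    congr 1
    have e1 : ((Real.pi : ℂ) / - -1) ^ (1 / 2 : ℂ) = (Real.sqrt Real.pi : ℝ) := by
      rw [neg_neg, div_one, Real.sqrt_eq_rpow, Complex.ofReal_cpow Real.pi_pos.le]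
      norm_num
    rw [e1]
    push_cast
    rw [mul_assoc (_ : ℂ) (exp _) (exp _), ← exp_add]
    congr 2
    linear_combination ((α : ℂ) - s * t i) ^ 2 * Complex.I_sq
  have hBd : ∀ g, ‖Hf g‖ ≤ Bd := fun g => by
    refine (norm_sum_le _ _).trans (le_trans (le_of_eq ?_) h2)
    refine Finset.sum_congr rfl fun i _ => ?_
    rw [norm_mul, Complex.norm_exp]
    congr 2
    simp
  have hBd0 : 0 ≤ Bd := le_trans (norm_nonneg _) (hBd 0)
  set M := τ * Real.exp (-α ^ 2) / 4 with hM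
  have hM0 : 0 < M := by positivity
  have hpt : ∀ g : ℝ, ‖exp (-(g : ℂ) ^ 2 + 2 * Complex.I * α * g) * Hf g‖ ≤
      M * Real.exp (-1 * g ^ 2) + Bd * Real.exp (-R ^ 2 / 2) * Real.exp (-(1 / 2) * g ^ 2) := by
    intro g
    have e : ‖exp (-(g : ℂ) ^ 2 + 2 * Complex.I * α * g)‖ = Real.exp (-1 * g ^ 2) := by
      rw [Complex.norm_exp]
      congr 1
      simp [pow_two]
    rw [norm_mul, e]
    rcases le_or_gt |g| R with hg | hg
    · have := (hcon g hg).le
      have h0 : 0 ≤ Bd * Real.exp (-R ^ 2 / 2) * Real.exp (-(1 / 2) * g ^ 2) := by positivity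
      nlinarith [Real.exp_pos (-1 * g ^ 2)]
    · have h4 : R ^ 2 ≤ g ^ 2 := by rw [← sq_abs g]; gcongr
      have h5 : Real.exp (-1 * g ^ 2) ≤ Real.exp (-R ^ 2 / 2) * Real.exp (-(1 / 2) * g ^ 2) := by
        rw [← Real.exp_add]; exact Real.exp_le_exp.2 (by linarith)
      have h6 : 0 ≤ M * Real.exp (-1 * g ^ 2) := by positivity
      calc Real.exp (-1 * g ^ 2) * ‖Hf g‖ ≤
          (Real.exp (-R ^ 2 / 2) * Real.exp (-(1 / 2) * g ^ 2)) * Bd :=
            mul_le_mul h5 (hBd g) (norm_nonneg _) (by positivity)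
        _ ≤ _ := by linarith
  have hle := norm_integral_le_of_norm_le (μ := volume)
    (((integrable_exp_neg_mul_sq one_pos).const_mul M).add
      ((integrable_exp_neg_mul_sq (by norm_num : (0 : ℝ) < 1 / 2)).const_mul
        (Bd * Real.exp (-R ^ 2 / 2)))) (Filter.Eventually.of_forall hpt)
  simp only [Pi.add_apply] at hle
  rw [hint, integral_add ((integrable_exp_neg_mul_sq one_pos).const_mul M)
      ((integrable_exp_neg_mul_sq (by norm_num : (0 : ℝ) < 1 / 2)).const_mul _),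
    integral_const_mul, integral_const_mul, integral_gaussian, integral_gaussian, norm_mul,
    Complex.norm_real, Real.norm_eq_abs, abs_of_pos (by positivity), div_one] at hle
  have hsq : Real.sqrt (Real.pi / (1 / 2)) ≤ 2 * Real.sqrt Real.pi := by
    apply Real.sqrt_le_iff.2 ⟨by positivity, ?_⟩
    rw [mul_pow, Real.sq_sqrt Real.pi_pos.le]
    linarith [Real.pi_pos]
  have hπ : 0 < Real.sqrt Real.pi := Real.sqrt_pos.2 Real.pi_pos
  have h7 : Real.sqrt Real.pi * (4 * M) ≤ Real.sqrt Real.pi * (3 * M) := by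
    calc Real.sqrt Real.pi * (4 * M) = Real.sqrt Real.pi * Real.exp (-α ^ 2) * τ := by
          rw [hM]; ring
      _ ≤ _ := mul_le_mul_of_nonneg_left h1 (by positivity)
      _ ≤ _ := hle
      _ ≤ M * Real.sqrt Real.pi + Bd * Real.exp (-R ^ 2 / 2) * (2 * Real.sqrt Real.pi) := by
          gcongr
      _ ≤ _ := by
          have : Bd * Real.exp (-R ^ 2 / 2) ≤ M := by rw [hM]; linarith
          nlinarith
  nlinarith

/-- two complex numbers which are close have close phases -/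
theorem phase_close (X Y : ℂ) (m η : ℝ) (hm : 0 < m) (hY : m ≤ ‖Y‖) (h : ‖X - Y‖ ≤ η)
    (hX : X ≠ 0) : ‖X / ‖X‖ - Y / ‖Y‖‖ ≤ 2 * η / m := by
  have hY0 : 0 < ‖Y‖ := lt_of_lt_of_le hm hY
  have hX0 : 0 < ‖X‖ := norm_pos_iff.2 hX
  have hY' : (‖Y‖ : ℂ) ≠ 0 := by exact_mod_cast hY0.ne'
  have hX' : (‖X‖ : ℂ) ≠ 0 := by exact_mod_cast hX0.ne'
  have e : X / ‖X‖ - Y / ‖Y‖ = (X / ‖X‖ * ((‖Y‖ - ‖X‖ : ℝ) : ℂ) + (X - Y)) / ‖Y‖ := by
    push_cast; field_simp; ring
  have h1 : |‖Y‖ - ‖X‖| ≤ η := by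
    rw [abs_sub_comm]; exact (abs_norm_sub_norm_le X Y).trans h
  have hη : 0 ≤ η := le_trans (norm_nonneg _) h
  rw [e, norm_div, Complex.norm_real, Real.norm_eq_abs, abs_of_pos hY0]
  refine div_le_div₀ (by positivity) ?_ hm hY
  refine (norm_add_le _ _).trans ?_
  rw [norm_mul, norm_div, Complex.norm_real, Complex.norm_real, Real.norm_eq_abs,
    abs_of_pos hX0, div_self hX0.ne', one_mul, Real.norm_eq_abs]
  linarith

theorem exists_avoid (B : Set ℝ) (hB : volume B ≠ ⊤) (a L h₁ h₂ : ℝ) (hL : 3 * volume.real B < L) :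
    ∃ s ∈ Icc a (a + L), s ∉ B ∧ s + h₁ ∉ B ∧ s + h₂ ∉ B := by
  by_contra hcon
  push Not at hcon
  have hsub : Icc a (a + L) ⊆ (B ∪ (fun s => s + h₁) ⁻¹' B) ∪ (fun s => s + h₂) ⁻¹' B := by
    intro s hs
    by_cases h1 : s ∈ B
    · exact Or.inl (Or.inl h1)
    by_cases h2 : s + h₁ ∈ B
    · exact Or.inl (Or.inr h2)
    · exact Or.inr (hcon s hs h1 h2)
  have h1 : volume (Icc a (a + L)) ≤ volume B + volume B + volume B := by
    refine (measure_mono hsub).trans ((measure_union_le _ _).trans ?_)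
    rw [measure_preimage_add_right]
    gcongr
    refine (measure_union_le _ _).trans ?_
    rw [measure_preimage_add_right]
  rw [Real.volume_Icc, add_sub_cancel_left, ← ENNReal.ofReal_toReal hB,
    ← ENNReal.ofReal_add ENNReal.toReal_nonneg ENNReal.toReal_nonneg,
    ← ENNReal.ofReal_add (by positivity) ENNReal.toReal_nonneg,
    ENNReal.ofReal_le_ofReal_iff (by positivity)] at h1
  rw [Measure.real] at hL
  linarith

/-- An approximate unimodular character defined off a small set which is insensitive to small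
shifts is close to one somewhere. -/
theorem chain (χ : ℝ → ℂ) (B : Set ℝ) (hB : volume B ≠ ⊤) (L φ ε : ℝ) (N : ℕ) (hφ : 0 ≤ φ)
    (hL : 12 * volume.real B < L) (hN : L ≤ N * φ)
    (hχ : ∀ θ, |θ| ≤ L → θ ∉ B → ‖χ θ‖ = 1)
    (h3 : ∀ a b c, |a| ≤ L → |b| ≤ L → |c| ≤ L → a ∉ B → b ∉ B → c ∉ B → |c - a - b| ≤ φ →
      ‖χ a * χ b - χ c‖ ≤ ε) :
    ∃ θ, |θ| ≤ L ∧ θ ∉ B ∧ ‖χ θ - 1‖ ≤ (2 * N + 1) * ε := by
  have hL0 : 0 < L := lt_of_le_of_lt (by positivity) hL
  have key : ∀ (n : ℕ) (h v : ℝ), |h| ≤ n * φ → |h| ≤ L / 4 → |v| ≤ L / 4 → |v + h| ≤ L / 4 →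
      v ∉ B → v + h ∉ B → ‖χ (v + h) - χ v‖ ≤ 2 * n * ε := by
    intro n
    induction n with
    | zero =>
      intro h v h1 _ _ _ _ _
      have : h = 0 := by simpa using h1
      simp [this]
    | succ n ih =>
      intro h v h1 h2 h4 h5 h6 h7
      set h' := h * (n / (n + 1)) with hh'
      have hn1 : (0 : ℝ) < n + 1 := by positivity
      have hfrac : (n : ℝ) / (n + 1) ≤ 1 := by rw [div_le_one hn1]; linarith
      have hfrac0 : (0 : ℝ) ≤ n / (n + 1) := by positivity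
      push_cast at h1
      have a1 : |h'| ≤ n * φ := by
        rw [hh', abs_mul, abs_of_nonneg hfrac0]
        calc |h| * (n / (n + 1)) ≤ ((n + 1) * φ) * (n / (n + 1)) := by gcongr
          _ = n * φ := by field_simp
      have a2 : |h'| ≤ L / 4 := by
        rw [hh', abs_mul, abs_of_nonneg hfrac0]
        nlinarith [abs_nonneg h]
      have a3 : |h - h'| ≤ φ := by
        have : h - h' = h / (n + 1) := by rw [hh']; field_simp; ring
        rw [this, abs_div, abs_of_pos hn1, div_le_iff₀ hn1]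
        linarith
      obtain ⟨s, hs, s1, s2, s3⟩ := exists_avoid B hB (-(L / 8) - h' / 2) (L / 4) h' (v + h)
        (by linarith)
      have b1 := abs_le.1 a2
      have b2 := abs_le.1 h4
      have b3 := abs_le.1 h5
      have c1 : |s| ≤ L / 4 := abs_le.2 ⟨by linarith [hs.1], by linarith [hs.2]⟩
      have c2 : |s + h'| ≤ L / 4 := abs_le.2 ⟨by linarith [hs.1], by linarith [hs.2]⟩
      have c3 : |s + (v + h)| ≤ L := abs_le.2 ⟨by linarith [hs.1], by linarith [hs.2]⟩
      have d1 := h3 (v + h) s (s + (v + h)) (by linarith) (by linarith) c3 h7 s1 s3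
        (by simpa using hφ)
      have d2 := h3 v (s + h') (s + (v + h)) (by linarith) (by linarith) c3 h6 s2 s3
        (by convert a3 using 2; ring)
      have d3 := ih h' s a1 a2 c1 c2 s1 s2
      have u1 := hχ s (by linarith) s1
      have u2 := hχ v (by linarith) h6
      have e : (χ (v + h) - χ v) * χ s = (χ (v + h) * χ s - χ (s + (v + h)))
          - (χ v * χ (s + h') - χ (s + (v + h))) + χ v * (χ (s + h') - χ s) := by ring
      have := congrArg norm e
      rw [norm_mul, u1, mul_one] at this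
      rw [this]
      refine (norm_add_le _ _).trans ?_
      rw [norm_mul, u2, one_mul]
      have := norm_sub_le (χ (v + h) * χ s - χ (s + (v + h)))
        (χ v * χ (s + h') - χ (s + (v + h)))
      push_cast
      linarith
  obtain ⟨b, hb, b1, -, -⟩ := exists_avoid B hB (-(L / 8)) (L / 4) 0 0 (by linarith)
  obtain ⟨a, ha, a1, a2, -⟩ := exists_avoid B hB (-(L / 8)) (L / 4) b 0 (by linarith)
  have c1 : |b| ≤ L / 4 := abs_le.2 ⟨by linarith [hb.1], by linarith [hb.2]⟩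
  have c2 : |a| ≤ L / 4 := abs_le.2 ⟨by linarith [ha.1], by linarith [ha.2]⟩
  have c3 : |a + b| ≤ L / 4 :=
    abs_le.2 ⟨by linarith [ha.1, hb.1], by linarith [ha.2, hb.2]⟩
  refine ⟨b, by linarith, b1, ?_⟩
  have d1 := key N b a (by linarith) c1 c2 c3 a1 a2
  have d2 := h3 a b (a + b) (by linarith) (by linarith) (by linarith) a1 b1 a2 (by simpa using hφ)
  have u1 := hχ a (by linarith) a1
  have e : χ a * (χ b - 1) = (χ a * χ b - χ (a + b)) + (χ (a + b) - χ a) := by ring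
  have := congrArg norm e
  rw [norm_mul, u1, one_mul] at this
  rw [this]
  refine (norm_add_le _ _).trans ?_
  linarith

end Vale.Agent.P321
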