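import Mathlib

/-! Source-level statistics given by triangular weighted automata. -/

namespace Vale.Agent.P321

open Complex

/-- expectation of `f` on the trace of a word -/
noncomputable def Ex (q : ℝ) : (List Bool → ℂ) → List Bool → ℂ
  | f, [] => f []
  | f, b :: x => q * Ex q f x + (1 - q) * Ex q (fun t => f (b :: t)) x

theorem Ex_const (q : ℝ) (a : ℂ) (x : List Bool) : Ex q (fun _ => a) x = a := by
  induction x with
  | nil => rfl
  | cons b x ih => simp only [Ex, ih]; ring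

theorem Ex_lin (q : ℝ) (a c : ℂ) (f g : List Bool → ℂ) (x : List Bool) :
    Ex q (fun t => a * f t + c * g t) x = a * Ex q f x + c * Ex q g x := by
  induction x generalizing f g with
  | nil => rfl
  | cons b x ih => simp only [Ex, ih]; ring

inductive Obs (S : Set ℂ) : ℕ → ℝ → (List Bool → ℂ) → Prop
  | const (k : ℕ) (c : ℝ) (a : ℂ) (h : ‖a‖ ≤ c) : Obs S k c (fun _ => a)
  | add (k : ℕ) (c₁ c₂ : ℝ) (F₁ F₂ : List Bool → ℂ) (h₁ : Obs S k c₁ F₁) (h₂ : Obs S k c₂ F₂) :
      Obs S k (c₁ + c₂) (fun x => F₁ x + F₂ x)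
  | node (k : ℕ) (c : ℝ) (σ : ℂ) (hσ : σ ∈ S) (F : List Bool → ℂ) (G : Bool → List Bool → ℂ)
      (hG : ∀ b, Obs S k c (G b)) (h0 : ‖F []‖ ≤ c)
      (hF : ∀ b x, F (b :: x) = exp (-σ) * F x + G b x) : Obs S (k + 1) c F
  | mono (k k' : ℕ) (c c' : ℝ) (F : List Bool → ℂ) (h : Obs S k c F) (hk : k ≤ k')
      (hc : c ≤ c') : Obs S k' c' F

namespace Obs

variable {S S' : Set ℂ} {k : ℕ} {c : ℝ} {F : List Bool → ℂ}

theorem nonneg (h : Obs S k c F) : 0 ≤ c := by
  induction h with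
  | const k c a h => exact le_trans (norm_nonneg _) h
  | add k c₁ c₂ F₁ F₂ _ _ ih₁ ih₂ => linarith
  | node k c σ _ F G _ h0 _ _ => exact le_trans (norm_nonneg _) h0
  | mono k k' c c' F _ _ hc ih => linarith

theorem subset (h : Obs S k c F) (hS : S ⊆ S') : Obs S' k c F := by
  induction h with
  | const k c a h => exact const k c a h
  | add k c₁ c₂ F₁ F₂ _ _ ih₁ ih₂ => exact add k c₁ c₂ F₁ F₂ ih₁ ih₂
  | node k c σ hσ F G _ h0 hF ih => exact node k c σ (hS hσ) F G ih h0 hF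
  | mono k k' c c' F _ hk hc ih => exact mono k k' c c' F ih hk hc

theorem smul (h : Obs S k c F) (a : ℂ) : Obs S k (‖a‖ * c) (fun x => a * F x) := by
  induction h with
  | const k c b h => exact const k _ _ (by rw [norm_mul]; gcongr)
  | add k c₁ c₂ F₁ F₂ _ _ ih₁ ih₂ =>
    simp only [mul_add]
    exact add k _ _ _ _ ih₁ ih₂
  | node k c σ hσ F G _ h0 hF ih =>
    exact node k _ σ hσ _ (fun b x => a * G b x) ih (by rw [norm_mul]; gcongr)
      (fun b x => by rw [hF]; ring)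
  | mono k k' c c' F _ hk hc ih => exact mono k k' _ _ _ ih hk (by gcongr)

theorem smul_le (h : Obs S k c F) (a : ℂ) (ha : ‖a‖ ≤ 1) : Obs S k c (fun x => a * F x) :=
  mono k k _ _ _ (h.smul a) le_rfl (by nlinarith [h.nonneg, norm_nonneg a])

theorem conj (h : Obs S k c F) (hS : ∀ σ ∈ S, (starRingEnd ℂ) σ ∈ S) :
    Obs S k c (fun x => (starRingEnd ℂ) (F x)) := by
  induction h with
  | const k c b h => exact const k _ _ (by rwa [Complex.norm_conj])
  | add k c₁ c₂ F₁ F₂ _ _ ih₁ ih₂ =>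
    simp only [map_add]
    exact add k _ _ _ _ ih₁ ih₂
  | node k c σ hσ F G _ h0 hF ih =>
    exact node k _ _ (hS σ hσ) _ (fun b x => (starRingEnd ℂ) (G b x)) ih
      (by rwa [Complex.norm_conj])
      (fun b x => by rw [hF, map_add, map_mul, ← Complex.exp_conj, map_neg])
  | mono k k' c c' F _ hk hc ih => exact mono k k' _ _ _ ih hk hc

theorem norm_exp_neg_le {σ : ℂ} {μ : ℝ} (h : μ ≤ σ.re) : ‖exp (-σ)‖ ≤ Real.exp (-μ) := by
  rw [Complex.norm_exp, Complex.neg_re]
  exact Real.exp_le_exp.2 (by linarith)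

theorem norm_exp_neg_le_one {σ : ℂ} (h : 0 ≤ σ.re) : ‖exp (-σ)‖ ≤ 1 := by
  simpa using norm_exp_neg_le h

theorem mul {S₁ S₂ : Set ℂ} (h1 : S₁ ⊆ S) (h2 : S₂ ⊆ S)
    (h12 : ∀ σ ∈ S₁, ∀ τ ∈ S₂, σ + τ ∈ S) (hS : ∀ σ ∈ S, 0 ≤ σ.re)
    {k₁ : ℕ} {c₁ : ℝ} {F₁ : List Bool → ℂ} (hF₁ : Obs S₁ k₁ c₁ F₁) :
    ∀ {k₂ : ℕ} {c₂ : ℝ} {F₂ : List Bool → ℂ}, Obs S₂ k₂ c₂ F₂ →
      Obs S (k₁ + k₂) (3 ^ (k₁ + k₂) * (c₁ * c₂)) (fun x => F₁ x * F₂ x) := by
  induction hF₁ with
  | const k c a h =>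
    intro k₂ c₂ F₂ hF₂
    have := hF₂.nonneg
    have hc : 0 ≤ c := le_trans (norm_nonneg _) h
    refine mono k₂ _ _ _ _ ((hF₂.subset h2).smul a) (by omega) ?_
    calc ‖a‖ * c₂ ≤ c * c₂ := by gcongr
      _ ≤ _ := le_mul_of_one_le_left (by positivity) (one_le_pow₀ (by norm_num))
  | add k c c' F F' _ _ ih ih' =>
    intro k₂ c₂ F₂ hF₂
    simp only [add_mul, mul_add]
    exact add _ _ _ _ _ (ih hF₂) (ih' hF₂)
  | mono k k' c c' F hF hk hc ih =>
    intro k₂ c₂ F₂ hF₂
    have := hF₂.nonneg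
    have := hF.nonneg
    refine mono _ _ _ _ _ (ih hF₂) (by omega) ?_
    gcongr
    norm_num
  | node k c σ hσ F G hG h0 hF ih =>
    intro k₂ c₂ F₂ hF₂
    have hc : 0 ≤ c := le_trans (norm_nonneg _) h0
    have hnode : Obs S₁ (k + 1) c F := node k c σ hσ F G hG h0 hF
    induction hF₂ with
    | const k' c' a h =>
      have hc' : 0 ≤ c' := le_trans (norm_nonneg _) h
      simp only [mul_comm (F _) a]
      refine mono _ _ _ _ _ ((hnode.subset h1).smul a) (by omega) ?_
      calc ‖a‖ * c ≤ c' * c := by gcongr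
        _ = c * c' := mul_comm _ _
        _ ≤ _ := le_mul_of_one_le_left (by positivity) (one_le_pow₀ (by norm_num))
    | add k' d d' E E' _ _ jh jh' =>
      simp only [mul_add]
      exact add _ _ _ _ _ jh jh'
    | mono k' k'' d d' E hE hk hd jh =>
      have := hE.nonneg
      refine mono _ _ _ _ _ jh (by omega) ?_
      gcongr
      norm_num
    | node k' d τ hτ E D hD e0 hE jh =>
      have hd : 0 ≤ d := le_trans (norm_nonneg _) e0
      have hnode' : Obs S₂ (k' + 1) d E := node k' d τ hτ E D hD e0 hE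
      have hK : k + 1 + (k' + 1) = (k + k' + 1) + 1 := by omega
      rw [hK]
      refine node _ _ (σ + τ) (h12 σ hσ τ hτ) _
        (fun b x => exp (-σ) * (F x * D b x) + exp (-τ) * (G b x * E x) + G b x * D b x) ?_ ?_ ?_
      · intro b
        have a1 := (jh b).smul_le _ (norm_exp_neg_le_one (hS σ (h1 hσ)))
        have a2 := (ih b hnode').smul_le _ (norm_exp_neg_le_one (hS τ (h2 hτ)))
        have a3 := ih b (hD b)
        have b1 : k + 1 + k' = k + k' + 1 := by omega
        rw [b1] at a1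
        have a3' := mono _ (k + k' + 1) _ (3 ^ (k + k' + 1) * (c * d)) _ a3 (by omega)
          (mul_le_mul_of_nonneg_right (pow_le_pow_right₀ (by norm_num) (by omega))
            (by positivity))
        refine mono _ _ _ _ _ (add _ _ _ _ _ (add _ _ _ _ _ a1 a2) a3') le_rfl (le_of_eq ?_)
        rw [← add_assoc, pow_succ (3 : ℝ) (k + k' + 1)]
        ring
      · rw [norm_mul]
        calc ‖F []‖ * ‖E []‖ ≤ c * d := by gcongr
          _ ≤ _ := le_mul_of_one_le_left (by positivity) (one_le_pow₀ (by norm_num))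
      · intro b x
        rw [hF, hE, neg_add, exp_add]
        ring

theorem shift (h : Obs S k c F) (hS : ∀ σ ∈ S, 0 ≤ σ.re) (b : Bool) :
    Obs S k (2 * c) (fun x => F (b :: x)) := by
  induction h with
  | const k c a h => exact const k _ _ (by linarith [norm_nonneg a])
  | add k c₁ c₂ F₁ F₂ _ _ ih₁ ih₂ =>
    rw [mul_add]
    exact add k _ _ _ _ ih₁ ih₂
  | node k c σ hσ F G hG h0 hF ih =>
    simp only [hF, two_mul]
    exact add _ _ _ _ _ ((node k c σ hσ F G hG h0 hF).smul_le _ (norm_exp_neg_le_one (hS σ hσ)))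
      (mono _ _ _ _ _ (hG b) (by omega) le_rfl)
  | mono k k' c c' F _ hk hc ih => exact mono k k' _ _ _ ih hk (by linarith)

theorem sup (h : Obs S k c F) (hS : ∀ σ ∈ S, 0 ≤ σ.re) (x : List Bool) :
    ‖F x‖ ≤ c * (1 + x.length) ^ k := by
  induction h generalizing x with
  | const k c a h =>
    have hc : 0 ≤ c := le_trans (norm_nonneg _) h
    exact h.trans (le_mul_of_one_le_right hc (one_le_pow₀ (by linarith [Nat.cast_nonneg (α := ℝ) x.length])))
  | add k c₁ c₂ F₁ F₂ _ _ ih₁ ih₂ =>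
    rw [add_mul]
    exact (norm_add_le _ _).trans (add_le_add (ih₁ x) (ih₂ x))
  | node k c σ hσ F G hG h0 hF ih =>
    have hc : 0 ≤ c := le_trans (norm_nonneg _) h0
    induction x with
    | nil => simpa using h0
    | cons b x jh =>
      rw [hF]
      have h1 := norm_exp_neg_le_one (hS σ hσ)
      have h2 := ih b x
      have hx : (0 : ℝ) ≤ x.length := Nat.cast_nonneg _
      calc ‖exp (-σ) * F x + G b x‖ ≤ ‖exp (-σ)‖ * ‖F x‖ + ‖G b x‖ := by
            rw [← norm_mul]; exact norm_add_le _ _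
        _ ≤ 1 * (c * (1 + x.length) ^ (k + 1)) + c * (1 + x.length) ^ k := by gcongr
        _ = c * ((1 + x.length) ^ k * (1 + (x.length + 1))) := by ring
        _ ≤ c * ((1 + (x.length + 1)) ^ k * (1 + (x.length + 1))) := by gcongr; linarith
        _ = _ := by rw [List.length_cons]; push_cast; ring
  | mono k k' c c' F hF hk hc ih =>
    have := hF.nonneg
    refine (ih x).trans ?_
    have hx : (0 : ℝ) ≤ x.length := Nat.cast_nonneg _
    exact mul_le_mul hc (pow_le_pow_right₀ (by linarith) hk) (by positivity) (by linarith)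

theorem decay (h : Obs S k c F) {μ : ℝ} (hμ0 : 0 ≤ μ) (hμ1 : μ ≤ 1) (hS : ∀ σ ∈ S, μ ≤ σ.re)
    (n : ℕ) (x y : List Bool) (u : List Bool) (hx : (u ++ x).length ≤ n)
    (hy : (u ++ y).length ≤ n) :
    ‖F (u ++ x) - F (u ++ y)‖ ≤ 2 * c * (4 * (n + 1)) ^ k * Real.exp (-μ * u.length) := by
  have hS0 : ∀ σ ∈ S, 0 ≤ σ.re := fun σ hσ => hμ0.trans (hS σ hσ)
  have hn : (0 : ℝ) ≤ n := Nat.cast_nonneg _
  induction h generalizing u with
  | const k c a h =>
    have hc : 0 ≤ c := le_trans (norm_nonneg _) h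
    simp only [sub_self, norm_zero]
    positivity
  | add k c₁ c₂ F₁ F₂ _ _ ih₁ ih₂ =>
    have e : F₁ (u ++ x) + F₂ (u ++ x) - (F₁ (u ++ y) + F₂ (u ++ y)) =
      (F₁ (u ++ x) - F₁ (u ++ y)) + (F₂ (u ++ x) - F₂ (u ++ y)) := by ring
    simp only
    rw [e]
    refine (norm_add_le _ _).trans ((add_le_add (ih₁ u hx hy) (ih₂ u hx hy)).trans (le_of_eq ?_))
    ring
  | mono k k' c c' F hF hk hc ih =>
    have := hF.nonneg
    refine (ih u hx hy).trans ?_
    have : (4 * ((n : ℝ) + 1)) ^ k ≤ (4 * ((n : ℝ) + 1)) ^ k' :=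
      pow_le_pow_right₀ (by linarith) hk
    have hc' : 0 ≤ c' := by linarith
    gcongr
  | node k c σ hσ F G hG h0 hF ih =>
    have hc : 0 ≤ c := le_trans (norm_nonneg _) h0
    have hnode : Obs S (k + 1) c F := node k c σ hσ F G hG h0 hF
    set Hh : ℝ := 4 * ((n : ℝ) + 1) with hH
    have key : ‖F (u ++ x) - F (u ++ y)‖ ≤
        2 * c * Hh ^ k * ((1 + n) + 3 * u.length) * Real.exp (-μ * u.length) := by
      induction u with
      | nil =>
        simp only [List.nil_append, List.length_nil, Nat.cast_zero, mul_zero, add_zero,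
          Real.exp_zero, mul_one] at hx hy ⊢
        have b : ∀ z : List Bool, z.length ≤ n → ‖F z‖ ≤ c * Hh ^ k * (1 + n) := by
          intro z hz
          have hz' : (z.length : ℝ) ≤ n := by exact_mod_cast hz
          refine (hnode.sup hS0 z).trans ?_
          rw [pow_succ, mul_assoc]
          gcongr
          · linarith
        calc _ ≤ ‖F x‖ + ‖F y‖ := norm_sub_le _ _
          _ ≤ _ := by linarith [b x hx, b y hy]
      | cons b u jh =>
        simp only [List.cons_append, List.length_cons] at hx hy ⊢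
        have j1 := jh (by omega) (by omega)
        have j2 := ih b u (by omega) (by omega)
        rw [hF, hF]
        have e : exp (-σ) * F (u ++ x) + G b (u ++ x) - (exp (-σ) * F (u ++ y) + G b (u ++ y)) =
          exp (-σ) * (F (u ++ x) - F (u ++ y)) + (G b (u ++ x) - G b (u ++ y)) := by ring
        rw [e]
        have h1 := norm_exp_neg_le (hS σ hσ)
        have h3 : 1 ≤ 3 * Real.exp (-μ) := by
          have : Real.exp (-1) ≤ Real.exp (-μ) := Real.exp_le_exp.2 (by linarith)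
          have h4 := Real.exp_neg_one_gt_d9
          linarith
        have e2 : Real.exp (-μ * ((u.length + 1 : ℕ) : ℝ)) =
            Real.exp (-μ) * Real.exp (-μ * u.length) := by
          rw [← Real.exp_add]; push_cast; ring_nf
        rw [e2]
        have hA : 0 ≤ 2 * c * Hh ^ k * Real.exp (-μ * u.length) := by positivity
        calc _ ≤ ‖exp (-σ)‖ * ‖F (u ++ x) - F (u ++ y)‖ + ‖G b (u ++ x) - G b (u ++ y)‖ := by
              rw [← norm_mul]; exact norm_add_le _ _
          _ ≤ Real.exp (-μ) * (2 * c * Hh ^ k * ((1 + n) + 3 * u.length) *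
                Real.exp (-μ * u.length)) + 2 * c * Hh ^ k * Real.exp (-μ * u.length) := by
              gcongr
          _ ≤ _ := by push_cast; nlinarith
    refine key.trans ?_
    have hu : (u.length : ℝ) ≤ n := by
      have : u.length ≤ n := by simp at hx; omega
      exact_mod_cast this
    rw [pow_succ, ← mul_assoc]
    gcongr
    linarith

theorem trace (h : Obs S k c F) {q : ℝ} (hq0 : 0 ≤ q) (hq1 : q < 1)
    (hS : ∀ σ ∈ S, ‖exp (-σ) - q‖ ≤ 1 - q) :
    ∃ f : List Bool → ℂ, (∀ t, ‖f t‖ ≤ c * ((1 + t.length) / (1 - q)) ^ k) ∧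
      ∀ x, F x = Ex q f x := by
  have hp : 0 < 1 - q := by linarith
  have hge : ∀ t : List Bool, (1 : ℝ) ≤ (1 + t.length) / (1 - q) := fun t => by
    rw [le_div_iff₀ hp]; linarith [Nat.cast_nonneg (α := ℝ) t.length]
  induction h with
  | const k c a h =>
    have hc : 0 ≤ c := le_trans (norm_nonneg _) h
    exact ⟨fun _ => a, fun t => h.trans (le_mul_of_one_le_right hc (one_le_pow₀ (hge t))),
      fun x => (Ex_const q a x).symm⟩
  | add k c₁ c₂ F₁ F₂ _ _ ih₁ ih₂ =>
    obtain ⟨f₁, a₁, b₁⟩ := ih₁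
    obtain ⟨f₂, a₂, b₂⟩ := ih₂
    refine ⟨fun t => 1 * f₁ t + 1 * f₂ t, fun t => ?_, fun x => ?_⟩
    · simp only [add_mul, one_mul]
      exact (norm_add_le _ _).trans (add_le_add (a₁ t) (a₂ t))
    · rw [Ex_lin, ← b₁, ← b₂]; ring
  | mono k k' c c' F hF hk hc ih =>
    obtain ⟨f, a, b⟩ := ih
    have := hF.nonneg
    refine ⟨f, fun t => (a t).trans ?_, b⟩
    exact mul_le_mul hc (pow_le_pow_right₀ (hge t) hk) (by have := hge t; positivity) (by linarith)
  | node k c σ hσ F G hG h0 hF ih =>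
    have hc : 0 ≤ c := le_trans (norm_nonneg _) h0
    choose g ha hb using ih
    set ω : ℂ := (exp (-σ) - q) / (1 - q) with hω
    have hp' : ((1 : ℂ) - q) ≠ 0 := by exact_mod_cast hp.ne'
    have hnp : ‖(1 : ℂ) - q‖ = 1 - q := by
      rw [← Complex.ofReal_one, ← Complex.ofReal_sub, Complex.norm_real, Real.norm_eq_abs,
        abs_of_pos hp]
    have hω1 : ‖ω‖ ≤ 1 := by
      rw [hω, norm_div, hnp, div_le_one hp]; exact hS σ hσ
    let f : List Bool → ℂ := fun t =>
      List.rec (F []) (fun b t r => ω * r + (1 - q : ℂ)⁻¹ * g b t) t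
    have f0 : f [] = F [] := rfl
    have f1 : ∀ b t, f (b :: t) = ω * f t + (1 - q : ℂ)⁻¹ * g b t := fun _ _ => rfl
    refine ⟨f, fun t => ?_, fun x => ?_⟩
    · induction t with
      | nil => rw [f0]; exact h0.trans (le_mul_of_one_le_right hc (one_le_pow₀ (hge [])))
      | cons b t jh =>
        rw [f1]
        have ht : (0 : ℝ) ≤ t.length := Nat.cast_nonneg _
        have h2 := ha b t
        calc _ ≤ ‖ω‖ * ‖f t‖ + (1 - q)⁻¹ * ‖g b t‖ := by
              refine (norm_add_le _ _).trans (le_of_eq ?_)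
              rw [norm_mul, norm_mul, norm_inv, hnp]
          _ ≤ 1 * (c * ((1 + t.length) / (1 - q)) ^ (k + 1)) +
              (1 - q)⁻¹ * (c * ((1 + t.length) / (1 - q)) ^ k) := by gcongr
          _ = c * (((1 + t.length) / (1 - q)) ^ k * ((1 + (t.length + 1)) / (1 - q))) := by
              rw [pow_succ]; field_simp; ring
          _ ≤ c * (((1 + (t.length + 1)) / (1 - q)) ^ k * ((1 + (t.length + 1)) / (1 - q))) := by
              gcongr; linarith
          _ = _ := by rw [List.length_cons]; push_cast; ring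
    · induction x with
      | nil => rfl
      | cons b x jh =>
        rw [hF, Ex, ← jh]
        simp only [f1]
        rw [Ex_lin, ← jh, ← hb, hω]
        field_simp
        ring

end Obs

/-- statistics which become observable after reading one letter -/
def Pre (S : Set ℂ) (k : ℕ) (c : ℝ) (F : List Bool → ℂ) : Prop :=
  ‖F []‖ ≤ c ∧ ∀ b, Obs S k c (fun x => F (b :: x))

/-- the damped sum over all suffixes -/
noncomputable def Nsum (σ : ℂ) (F : List Bool → ℂ) : List Bool → ℂ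
  | [] => F []
  | b :: x => exp (-σ) * Nsum σ F x + F (b :: x)

/-- the damped sum over all suffixes (`s = 0`) or all proper suffixes (`s = 1`) -/
noncomputable def Ns (s : ℕ) (σ : ℂ) (F : List Bool → ℂ) (x : List Bool) : ℂ :=
  if s = 0 then Nsum σ F x else Nsum σ F x - F x

namespace Pre

variable {S S' : Set ℂ} {k : ℕ} {c : ℝ} {F : List Bool → ℂ}

theorem nonneg (h : Pre S k c F) : 0 ≤ c := le_trans (norm_nonneg _) h.1

theorem subset (h : Pre S k c F) (hS : S ⊆ S') : Pre S' k c F :=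
  ⟨h.1, fun b => (h.2 b).subset hS⟩

theorem mono (h : Pre S k c F) {k' : ℕ} {c' : ℝ} (hk : k ≤ k') (hc : c ≤ c') : Pre S k' c' F :=
  ⟨h.1.trans hc, fun b => Obs.mono _ _ _ _ _ (h.2 b) hk hc⟩

theorem conj (h : Pre S k c F) (hS : ∀ σ ∈ S, (starRingEnd ℂ) σ ∈ S) :
    Pre S k c (fun x => (starRingEnd ℂ) (F x)) :=
  ⟨by rw [Complex.norm_conj]; exact h.1, fun b => (h.2 b).conj hS⟩

theorem one (k : ℕ) {c : ℝ} (hc : 1 ≤ c) : Pre S k c (fun _ => 1) :=
  ⟨by simpa using hc, fun _ => Obs.const _ _ _ (by simpa using hc)⟩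

theorem mul {S₁ S₂ : Set ℂ} (h1 : S₁ ⊆ S) (h2 : S₂ ⊆ S)
    (h12 : ∀ σ ∈ S₁, ∀ τ ∈ S₂, σ + τ ∈ S) (hS : ∀ σ ∈ S, 0 ≤ σ.re)
    {k₁ k₂ : ℕ} {c₁ c₂ : ℝ} {F₁ F₂ : List Bool → ℂ} (hF₁ : Pre S₁ k₁ c₁ F₁)
    (hF₂ : Pre S₂ k₂ c₂ F₂) :
    Pre S (k₁ + k₂) (3 ^ (k₁ + k₂) * (c₁ * c₂)) (fun x => F₁ x * F₂ x) := by
  refine ⟨?_, fun b => Obs.mul h1 h2 h12 hS (hF₁.2 b) (hF₂.2 b)⟩
  have := hF₁.nonneg
  have := hF₂.nonneg
  rw [norm_mul]
  calc ‖F₁ []‖ * ‖F₂ []‖ ≤ c₁ * c₂ := mul_le_mul hF₁.1 hF₂.1 (norm_nonneg _) (by assumption)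
    _ ≤ _ := le_mul_of_one_le_left (by positivity) (one_le_pow₀ (by norm_num))

theorem nsum (h : Pre S k c F) {σ : ℂ} (hσ : σ ∈ S) : Obs S (k + 1) c (Nsum σ F) :=
  Obs.node k c σ hσ _ (fun b x => F (b :: x)) h.2 h.1 (fun _ _ => rfl)

theorem ns (h : Pre S k c F) {σ : ℂ} (hσ : σ ∈ S) (hS : ∀ σ ∈ S, 0 ≤ σ.re) (s : ℕ) :
    Pre S (k + 1) (2 * c) (Ns s σ F) := by
  have hc := h.nonneg
  by_cases hs : s = 0
  · refine ⟨?_, fun b => ?_⟩
    · simp only [Ns, hs, if_true, Nsum]; linarith [h.1]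
    · simp only [Ns, hs, if_true]
      exact (h.nsum hσ).shift hS b
  · refine ⟨?_, fun b => ?_⟩
    · simp only [Ns, hs, if_false, Nsum, sub_self, norm_zero]; linarith
    · simp only [Ns, hs, if_false, Nsum, add_sub_cancel_right]
      exact Obs.mono _ _ _ _ _ ((h.nsum hσ).smul_le _ (Obs.norm_exp_neg_le_one (hS σ hσ))) le_rfl
        (by linarith)

theorem sup (h : Pre S k c F) (hS : ∀ σ ∈ S, 0 ≤ σ.re) (n : ℕ) (x : List Bool)
    (hx : x.length ≤ n) : ‖F x‖ ≤ c * (4 * (n + 1)) ^ k := by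
  have hc := h.nonneg
  have hn : (0 : ℝ) ≤ n := Nat.cast_nonneg _
  cases x with
  | nil => exact h.1.trans (le_mul_of_one_le_right hc (one_le_pow₀ (by linarith)))
  | cons b x =>
    refine ((h.2 b).sup hS x).trans ?_
    have : (x.length : ℝ) ≤ n := by
      have : x.length ≤ n := by simp at hx; omega
      exact_mod_cast this
    gcongr
    linarith

theorem decay (h : Pre S k c F) {μ : ℝ} (hμ0 : 0 ≤ μ) (hμ1 : μ ≤ 1) (hS : ∀ σ ∈ S, μ ≤ σ.re)
    (n : ℕ) (x y : List Bool) (u : List Bool) (hx : (u ++ x).length ≤ n)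
    (hy : (u ++ y).length ≤ n) :
    ‖F (u ++ x) - F (u ++ y)‖ ≤ 6 * c * (4 * (n + 1)) ^ k * Real.exp (-μ * u.length) := by
  have hc := h.nonneg
  have hS0 : ∀ σ ∈ S, 0 ≤ σ.re := fun σ hσ => hμ0.trans (hS σ hσ)
  cases u with
  | nil =>
    simp only [List.nil_append, List.length_nil, Nat.cast_zero, mul_zero, Real.exp_zero,
      mul_one] at hx hy ⊢
    have h1 := h.sup hS0 n x hx
    have h2 := h.sup hS0 n y hy
    have : 0 ≤ c * (4 * ((n : ℝ) + 1)) ^ k := by positivity
    calc _ ≤ ‖F x‖ + ‖F y‖ := norm_sub_le _ _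
      _ ≤ _ := by linarith
  | cons b u =>
    simp only [List.cons_append, List.length_cons] at hx hy ⊢
    refine ((h.2 b).decay hμ0 hμ1 hS n x y u (by omega) (by omega)).trans ?_
    have h3 : 1 ≤ 3 * Real.exp (-μ) := by
      have : Real.exp (-1) ≤ Real.exp (-μ) := Real.exp_le_exp.2 (by linarith)
      have h4 := Real.exp_neg_one_gt_d9
      linarith
    have e2 : Real.exp (-μ * ((u.length + 1 : ℕ) : ℝ)) =
        Real.exp (-μ) * Real.exp (-μ * u.length) := by
      rw [← Real.exp_add]; push_cast; ring_nf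
    rw [e2]
    have hA : 0 ≤ 2 * c * (4 * ((n : ℝ) + 1)) ^ k * Real.exp (-μ * u.length) := by positivity
    nlinarith

end Pre

theorem Nsum_eq (σ : ℂ) (F : List Bool → ℂ) (x : List Bool) :
    Nsum σ F x = ∑ j ∈ Finset.range (x.length + 1), exp (-σ * j) * F (x.drop j) := by
  induction x with
  | nil => simp [Nsum]
  | cons b x ih =>
    rw [Nsum, ih, List.length_cons, Finset.sum_range_succ' _ (x.length + 1), Finset.mul_sum]
    congr 1
    · refine Finset.sum_congr rfl fun j _ => ?_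
      rw [List.drop_succ_cons, ← mul_assoc, ← exp_add]
      congr 2; push_cast; ring
    · simp

theorem Ns_drop (s : ℕ) (hs : s ≤ 1) (σ : ℂ) (F : List Bool → ℂ) (x : List Bool) (j : ℕ)
    (hj : j ≤ x.length) :
    Ns s σ F (x.drop j) = ∑ i ∈ Finset.range (x.length + 1),
      if j + s ≤ i then exp (-σ * ((i : ℂ) - j)) * F (x.drop i) else 0 := by
  have h0 : Nsum σ F (x.drop j) = ∑ i ∈ Finset.range (x.length + 1),
      if j ≤ i then exp (-σ * ((i : ℂ) - j)) * F (x.drop i) else 0 := by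
    rw [Nsum_eq, ← Finset.sum_filter]
    refine Finset.sum_bij' (fun i _ => j + i) (fun i _ => i - j) ?_ ?_ ?_ ?_ ?_
    · intro i hi
      simp only [List.length_drop, Finset.mem_range, Finset.mem_filter] at hi ⊢
      omega
    · intro i hi
      simp only [List.length_drop, Finset.mem_range, Finset.mem_filter] at hi ⊢
      omega
    · intro i _; simp
    · intro i hi
      simp only [Finset.mem_range, Finset.mem_filter] at hi ⊢
      omega
    · intro i _
      rw [List.drop_drop]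
      congr 2
      push_cast; ring
  by_cases h : s = 0
  · simp only [Ns, h, if_true, add_zero, h0]
  · have h1 : s = 1 := by omega
    simp only [Ns, h1, one_ne_zero, if_false, h0]
    have h2 : F (x.drop j) = ∑ i ∈ Finset.range (x.length + 1),
        if i = j then F (x.drop i) else 0 := by
      rw [Finset.sum_ite_eq']
      simp [Nat.lt_succ_of_le hj]
    rw [h2, ← Finset.sum_sub_distrib]
    refine Finset.sum_congr rfl fun i _ => ?_
    by_cases hij : i = j
    · subst hij; simp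
    · by_cases hle : j ≤ i
      · have : j + 1 ≤ i := by omega
        simp [hij, hle, this]
      · have : ¬ j + 1 ≤ i := by omega
        simp [hij, hle, this]

end Vale.Agent.P321
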