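import Mathlib
import Vale.Agent.P321.Obs
import Vale.Agent.P321.Jensen

/-! From one large value to many large values, and the failure of a triple relation. -/

namespace Vale.Agent.P321

open Complex Set MeasureTheory
open scoped ComplexConjugate

theorem good_set (n d : ℕ) (δ : ℕ → ℂ) (a Λ : ℝ) (ha0 : 0 < a) (ha1 : 320000 * a ≤ 1)
    (hΛ : 1 ≤ Λ) (b : ℝ) (hb : (n + 1) * b ≤ Real.exp Λ)
    (hδ : ∀ j ∈ Finset.range (n + 1),
      ‖δ j‖ ≤ b * Real.exp (-(320000 * a) * max 0 ((d : ℝ) - j)))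
    (σ : ℂ) (hre : σ.re = a) (him : |σ.im| ≤ 9 * a)
    (hlow : Real.exp (-Λ) ≤ ‖∑ j ∈ Finset.range (n + 1), exp (-σ * ((j : ℂ) - d)) * δ j‖) :
    ∃ B : Set ℝ, volume B ≠ ⊤ ∧ 12 * volume.real B < a ∧ ∀ θ : ℝ, |θ| ≤ a → θ ∉ B →
      Real.exp (-640001 * Λ) ≤
        ‖∑ j ∈ Finset.range (n + 1), exp (θ * I * ((j : ℂ) - d)) * δ j‖ := by
  have hb0 : 0 ≤ b := by
    have := hδ 0 (by simp)
    exact nonneg_of_mul_nonneg_left (le_trans (norm_nonneg _) this) (Real.exp_pos _)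
  set W : ℕ := ⌈(2 * Λ + 2) / a⌉₊ with hW
  have hW1 : 2 * Λ + 2 ≤ a * W := by
    have := Nat.le_ceil ((2 * Λ + 2) / a)
    rw [div_le_iff₀ ha0] at this; linarith
  have hW2 : a * W ≤ 2 * Λ + 3 := by
    have := Nat.ceil_lt_add_one (show 0 ≤ (2 * Λ + 2) / a by positivity)
    have h2 : a * (W : ℝ) ≤ a * ((2 * Λ + 2) / a + 1) := by gcongr
    rw [mul_add, mul_div_cancel₀ _ ha0.ne'] at h2
    linarith
  set P : Polynomial ℂ := ∑ j ∈ (Finset.range (n + 1)).filter (fun j => d ≤ j + W),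
    Polynomial.monomial (j + W - d) (δ j) with hP
  have hev : ∀ s : ℂ, P.eval (exp (-s)) = exp (-s * W) *
      ∑ j ∈ (Finset.range (n + 1)).filter (fun j => d ≤ j + W), exp (-s * ((j : ℂ) - d)) * δ j := by
    intro s
    rw [hP, Polynomial.eval_finsetSum, Finset.mul_sum]
    refine Finset.sum_congr rfl fun j hj => ?_
    rw [Finset.mem_filter] at hj
    rw [Polynomial.eval_monomial, ← exp_nat_mul, ← mul_assoc, ← exp_add, mul_comm (δ j)]
    congr 2
    push_cast [Nat.cast_sub hj.2]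
    ring
  have htail : ∀ s : ℂ, 0 ≤ s.re → s.re ≤ a →
      ‖∑ j ∈ (Finset.range (n + 1)).filter (fun j => ¬ d ≤ j + W),
        exp (-s * ((j : ℂ) - d)) * δ j‖ ≤ Real.exp Λ * Real.exp (-(320000 * a - s.re) * W) := by
    intro s hs0 hs1
    refine (norm_sum_le _ _).trans ?_
    have h1 : ∀ j ∈ (Finset.range (n + 1)).filter (fun j => ¬ d ≤ j + W),
        ‖exp (-s * ((j : ℂ) - d)) * δ j‖ ≤ b * Real.exp (-(320000 * a - s.re) * W) := by
      intro j hj
      rw [Finset.mem_filter] at hj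
      have hj2 : (j : ℝ) + W ≤ d := by exact_mod_cast (not_le.1 hj.2).le
      have hW0 : (0 : ℝ) ≤ W := Nat.cast_nonneg _
      rw [norm_mul, Complex.norm_exp]
      have e : (-s * ((j : ℂ) - d)).re = s.re * (d - j) := by simp; ring
      rw [e]
      calc _ ≤ Real.exp (s.re * (d - j)) *
            (b * Real.exp (-(320000 * a) * max 0 ((d : ℝ) - j))) := by gcongr; exact hδ j hj.1
        _ = b * Real.exp (-(320000 * a - s.re) * (d - j)) := by
            rw [max_eq_right (by linarith), mul_left_comm, ← Real.exp_add]; congr 2; ring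
        _ ≤ _ := by
            gcongr b * Real.exp ?_
            nlinarith
    refine (Finset.sum_le_card_nsmul _ _ _ h1).trans ?_
    rw [nsmul_eq_mul, ← mul_assoc]
    gcongr
    refine le_trans ?_ hb
    gcongr
    exact_mod_cast (Finset.card_filter_le _ _).trans (Finset.card_range _).le
  have hsplit : ∀ s : ℂ, ∑ j ∈ (Finset.range (n + 1)).filter (fun j => d ≤ j + W),
      exp (-s * ((j : ℂ) - d)) * δ j = ∑ j ∈ Finset.range (n + 1), exp (-s * ((j : ℂ) - d)) * δ j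
      - ∑ j ∈ (Finset.range (n + 1)).filter (fun j => ¬ d ≤ j + W),
        exp (-s * ((j : ℂ) - d)) * δ j := by
    intro s
    rw [← Finset.sum_filter_add_sum_filter_not (Finset.range (n + 1)) (fun j => d ≤ j + W)]
    ring
  have hcirc : ∀ θ : ℝ, exp (θ * I) = exp (-(-(θ * I))) := fun θ => by rw [neg_neg]
  have hn1 : ∀ θ : ℝ, ‖exp (-(-(θ * I)) * W)‖ = 1 := fun θ => by
    rw [Complex.norm_exp]; simp
  have hsup : ∀ θ : ℝ, ‖P.eval (exp (θ * I))‖ ≤ Real.exp Λ := by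
    intro θ
    rw [hcirc, hev, norm_mul, hn1, one_mul]
    refine (norm_sum_le _ _).trans ?_
    have h1 : ∀ j ∈ (Finset.range (n + 1)).filter (fun j => d ≤ j + W),
        ‖exp (-(-(θ * I)) * ((j : ℂ) - d)) * δ j‖ ≤ b := by
      intro j hj
      rw [Finset.mem_filter] at hj
      rw [norm_mul, Complex.norm_exp]
      have e : (-(-(θ * I)) * ((j : ℂ) - d)).re = 0 := by simp
      rw [e, Real.exp_zero, one_mul]
      refine (hδ j hj.1).trans (mul_le_of_le_one_right hb0 ?_)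
      rw [Real.exp_le_one_iff]
      have := le_max_left 0 ((d : ℝ) - j)
      nlinarith
    refine (Finset.sum_le_card_nsmul _ _ _ h1).trans ?_
    rw [nsmul_eq_mul]
    refine le_trans ?_ hb
    gcongr
    exact_mod_cast (Finset.card_filter_le _ _).trans (Finset.card_range _).le
  have hw : ‖exp (-σ)‖ = Real.exp (-a) := by rw [Complex.norm_exp, neg_re, hre]
  have hw1 : ‖exp (-σ)‖ < 1 := by rw [hw, Real.exp_lt_one_iff]; linarith
  have hhalf : Real.exp (-1) ≤ 1 / 2 := by linarith [Real.exp_neg_one_lt_d9]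
  have hlow' : Real.exp Λ * Real.exp (-(8 * Λ)) ≤ ‖P.eval (exp (-σ))‖ := by
    rw [hev, norm_mul, hsplit, Complex.norm_exp]
    have e : (-σ * W).re = -(a * W) := by simp [hre]
    rw [e]
    have h1 := htail σ (by linarith) hre.le
    have h2 : Real.exp Λ * Real.exp (-(320000 * a - σ.re) * W) ≤ Real.exp (-Λ) / 2 := by
      calc _ ≤ Real.exp (-Λ) * Real.exp (-1) := by
            rw [← Real.exp_add, ← Real.exp_add, Real.exp_le_exp, hre]
            nlinarith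
        _ ≤ _ := by nlinarith [Real.exp_pos (-Λ)]
    have h3 := norm_sub_norm_le
      (∑ j ∈ Finset.range (n + 1), exp (-σ * ((j : ℂ) - d)) * δ j)
      (∑ j ∈ (Finset.range (n + 1)).filter (fun j => ¬ d ≤ j + W),
        exp (-σ * ((j : ℂ) - d)) * δ j)
    calc Real.exp Λ * Real.exp (-(8 * Λ)) ≤
          Real.exp (-(a * W)) * (Real.exp (-Λ) * Real.exp (-1)) := by
          rw [← Real.exp_add, ← Real.exp_add, ← Real.exp_add, Real.exp_le_exp]
          linarith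
      _ ≤ Real.exp (-(a * W)) * (Real.exp (-Λ) / 2) := by
          gcongr; nlinarith [Real.exp_pos (-Λ)]
      _ ≤ _ := by gcongr; linarith
  have hk : ∀ θ ∈ Icc (-a) a, (484 * a)⁻¹ ≤ poissonKernel 0 (exp (-σ)) (exp (θ * I)) := by
    intro θ hθ
    rw [poissonKernel_def, sub_zero, sub_zero, norm_exp_ofReal_mul_I, hw]
    have h1 : a ≤ 1 ^ 2 - Real.exp (-a) ^ 2 := by
      have h := Real.add_one_le_exp (2 * a)
      have e : Real.exp (-a) ^ 2 * Real.exp (2 * a) = 1 := by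
        rw [← Real.exp_nat_mul, ← Real.exp_add]; simp
      have : Real.exp (-a) ^ 2 * (2 * a + 1) ≤ 1 :=
        (mul_le_mul_of_nonneg_left h (by positivity)).trans e.le
      nlinarith [sq_nonneg (Real.exp (-a))]
    have h2 : ‖exp (θ * I) - exp (-σ)‖ ≤ 22 * a := by
      have e : exp (θ * I) - exp (-σ) = -(exp (θ * I) * (exp (-σ - θ * I) - 1)) := by
        rw [mul_sub, ← exp_add]; ring_nf
      have h3 : ‖-σ - θ * I‖ ≤ 11 * a := by
        refine (norm_le_abs_re_add_abs_im _).trans ?_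
        have h4 := abs_le.1 him
        simp only [sub_re, neg_re, mul_re, ofReal_re, I_re, mul_zero, ofReal_im, I_im, mul_one,
          sub_self, sub_zero, sub_im, neg_im, mul_im, add_zero, hre, abs_neg, abs_of_pos ha0]
        have : |-σ.im - θ| ≤ 10 * a := abs_le.2 ⟨by linarith [hθ.2], by linarith [hθ.1]⟩
        linarith
      rw [e, norm_neg, norm_mul, norm_exp_ofReal_mul_I, one_mul]
      linarith [norm_exp_sub_one_le (h3.trans (by linarith : 11 * a ≤ 1))]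
    have h5 : 0 < ‖exp (θ * I) - exp (-σ)‖ := by
      rw [norm_pos_iff, sub_ne_zero]
      intro h
      rw [← h, norm_exp_ofReal_mul_I] at hw1
      exact lt_irrefl _ hw1
    calc (484 * a)⁻¹ = a / (22 * a) ^ 2 := by field_simp; norm_num
      _ ≤ _ := by gcongr; linarith
  have hbad := bad_set P (exp (-σ)) hw1 (Real.exp Λ) (8 * Λ) a (484 * a)⁻¹ (640000 * Λ)⁻¹
    (Real.exp_pos _) (by positivity) (by linarith [Real.pi_gt_three]) hsup hlow' hk
  refine ⟨{θ : ℝ | θ ∈ Icc (-a) a ∧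
    ‖P.eval (exp (θ * I))‖ < Real.exp Λ * Real.exp (-(640000 * Λ)⁻¹⁻¹)}, ?_, ?_,
    fun θ hθ hθB => ?_⟩
  rotate_left
  · rw [← div_eq_mul_inv, div_le_iff₀ (by positivity)] at hbad
    have e : (640000 * Λ)⁻¹ * (8 * Λ) = 1 / 80000 := by field_simp; norm_num
    rw [e] at hbad
    exact lt_of_le_of_lt (mul_le_mul_of_nonneg_left hbad (by norm_num))
      (by nlinarith [Real.pi_lt_d2])
  · simp only [mem_ofPred_eq, not_and, not_lt] at hθB
    have h1 := hθB (abs_le.1 hθ)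
    rw [hcirc, hev, norm_mul, hn1, one_mul, hsplit, inv_inv] at h1
    have h2 := htail (-(θ * I)) (by simp) (by simp [ha0.le])
    have e : (-(θ * I)).re = 0 := by simp
    rw [e, sub_zero] at h2
    have h3 := norm_sub_le
      (∑ j ∈ Finset.range (n + 1), exp (-(-(θ * I)) * ((j : ℂ) - d)) * δ j)
      (∑ j ∈ (Finset.range (n + 1)).filter (fun j => ¬ d ≤ j + W),
        exp (-(-(θ * I)) * ((j : ℂ) - d)) * δ j)
    simp only [neg_neg] at h1 h2 h3
    have h4 : Real.exp (-(320000 * a) * W) ≤ Real.exp (-(640000 * Λ)) * Real.exp (-1) := by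
      rw [← Real.exp_add, Real.exp_le_exp]; nlinarith
    have h5 : Real.exp (-640001 * Λ) ≤ Real.exp (-(640000 * Λ)) * Real.exp (-1) := by
      rw [← Real.exp_add, Real.exp_le_exp]; nlinarith
    have h6 : 1 ≤ Real.exp Λ := Real.one_le_exp (by linarith)
    have h7 := Real.exp_pos (-(640000 * Λ))
    have h8 : Real.exp Λ * Real.exp (-(320000 * a) * W) ≤
        Real.exp Λ * (Real.exp (-(640000 * Λ)) / 2) := by
      gcongr; nlinarith
    nlinarith
  · exact ne_top_of_le_ne_top (measure_Icc_lt_top (a := -a) (b := a)).ne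
      (measure_mono fun θ hθ => hθ.1)

theorem triple_fails (A B : ℝ → ℂ) (a φ Λ : ℝ) (N : ℕ) (hΛ : 1 ≤ Λ) (hφ : 0 ≤ φ)
    (hN : a ≤ N * φ) (hN2 : (N : ℝ) ≤ Real.exp (12 * Λ)) (S : Set ℝ) (hS : volume S ≠ ⊤)
    (hS2 : 12 * volume.real S < a)
    (hgood : ∀ θ, |θ| ≤ a → θ ∉ S → Real.exp (-640001 * Λ) ≤ ‖A θ - B θ‖)
    (hB : ∀ θ, ‖B θ‖ ≤ Real.exp Λ)
    (h2 : ∀ θ, |θ| ≤ a → ‖A θ * conj (A θ) - B θ * conj (B θ)‖ ≤ Real.exp (-2600000 * Λ))
    (h3 : ∀ x y z, |x| ≤ a → |y| ≤ a → |z| ≤ a → |z - x - y| ≤ φ →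
      ‖A x * A y * conj (A z) - B x * B y * conj (B z)‖ ≤ Real.exp (-2600000 * Λ)) : False := by
  set t := Real.exp (-640001 * Λ) with ht
  set η := Real.exp (-2600000 * Λ) with hη
  have ht0 : 0 < t := Real.exp_pos _
  have hη0 : 0 < η := Real.exp_pos _
  have ht1 : t ≤ 1 := by rw [ht, Real.exp_le_one_iff]; linarith
  have hmain : Real.exp (20 * Λ) * η < t ^ 4 := by
    rw [ht, hη, ← Real.exp_nat_mul, ← Real.exp_add, Real.exp_lt_exp]; push_cast; linarith
  have he7 : 1000 ≤ Real.exp (7 * Λ) := by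
    have h1 : Real.exp 7 ≤ Real.exp (7 * Λ) := Real.exp_le_exp.2 (by linarith)
    have h2 : Real.exp 7 = Real.exp 1 ^ 7 := by rw [← Real.exp_nat_mul]; norm_num
    have h3 : (2.7 : ℝ) ^ 7 ≤ Real.exp 1 ^ 7 := by gcongr; linarith [Real.exp_one_gt_d9]
    norm_num at h3
    linarith
  have he13 : 1 ≤ Real.exp (13 * Λ) := Real.one_le_exp (by linarith)
  have he20 : Real.exp (20 * Λ) = Real.exp (7 * Λ) * Real.exp (13 * Λ) := by
    rw [← Real.exp_add]; ring_nf
  have ht42 : t ^ 4 ≤ t ^ 2 := pow_le_pow_of_le_one ht0.le ht1 (by norm_num)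
  have h13 : 1000 * (Real.exp (13 * Λ) * η) ≤ Real.exp (20 * Λ) * η := by
    rw [he20, mul_assoc]; gcongr
  have h14 : η ≤ Real.exp (13 * Λ) * η := le_mul_of_one_le_left hη0.le he13
  have hηt : 1000 * η ≤ t ^ 2 := by linarith
  have hsq : ∀ θ, |θ| ≤ a → |‖A θ‖ ^ 2 - ‖B θ‖ ^ 2| ≤ η := by
    intro θ hθ
    have := h2 θ hθ
    rw [Complex.mul_conj', Complex.mul_conj', ← ofReal_pow, ← ofReal_pow, ← ofReal_sub,
      Complex.norm_real, Real.norm_eq_abs] at this
    exact this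
  have hlow : ∀ θ, |θ| ≤ a → θ ∉ S → t / 4 ≤ ‖A θ‖ ∧ t / 4 ≤ ‖B θ‖ := by
    intro θ hθ hθS
    have h1 := (hgood θ hθ hθS).trans (norm_sub_le _ _)
    have h4 := abs_le.1 (hsq θ hθ)
    have h5 := norm_nonneg (A θ)
    have h6 := norm_nonneg (B θ)
    constructor
    · by_contra hc; push Not at hc; nlinarith
    · by_contra hc; push Not at hc; nlinarith
  have hph : ∀ X : ℂ, t / 4 ≤ ‖X‖ → ‖X / ‖X‖‖ = 1 := fun X hX => by
    have : 0 < ‖X‖ := by linarith
    rw [norm_div, Complex.norm_real, Real.norm_eq_abs, abs_of_pos this, div_self this.ne']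
  have hph2 : ∀ X : ℂ, t / 4 ≤ ‖X‖ → X / ‖X‖ * conj (X / ‖X‖) = 1 := fun X hX => by
    rw [Complex.mul_conj', hph X hX]; simp
  obtain ⟨θ, hθ, hθS, hfin⟩ := chain (fun θ => A θ / ‖A θ‖ * conj (B θ / ‖B θ‖)) S hS a φ
    (2 * η / (t / 4) ^ 3) N hφ hS2 hN
    (fun θ hθ hθS => by
      rw [norm_mul, Complex.norm_conj, hph _ (hlow θ hθ hθS).1, hph _ (hlow θ hθ hθS).2, one_mul])
    (fun x y z hx hy hz sx sy sz hxyz => by
      obtain ⟨ax, bx⟩ := hlow x hx sx
      obtain ⟨ay, by'⟩ := hlow y hy sy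
      obtain ⟨az, bz⟩ := hlow z hz sz
      have hne : ∀ X : ℂ, t / 4 ≤ ‖X‖ → X ≠ 0 := fun X hX => norm_pos_iff.1 (by linarith)
      have h4 := phase_close (A x * A y * conj (A z)) (B x * B y * conj (B z)) ((t / 4) ^ 3) η
        (by positivity)
        (by
          rw [norm_mul, norm_mul, Complex.norm_conj, pow_succ, pow_two]
          gcongr)
        (h3 x y z hx hy hz hxyz)
        (mul_ne_zero (mul_ne_zero (hne _ ax) (hne _ ay)) ((map_ne_zero _).2 (hne _ az)))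
      have e1 : ∀ X Y Z : ℂ, X * Y * conj Z / (‖X * Y * conj Z‖ : ℝ) =
          X / ‖X‖ * (Y / ‖Y‖) * conj (Z / ‖Z‖) := fun X Y Z => by
        rw [norm_mul, norm_mul, Complex.norm_conj, map_div₀, Complex.conj_ofReal]
        push_cast
        rw [div_mul_div_comm, div_mul_div_comm]
      rw [e1, e1] at h4
      have e2 : A x / ‖A x‖ * conj (B x / ‖B x‖) * (A y / ‖A y‖ * conj (B y / ‖B y‖)) -
          A z / ‖A z‖ * conj (B z / ‖B z‖) =
          (A x / ‖A x‖ * (A y / ‖A y‖) * conj (A z / ‖A z‖) -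
            B x / ‖B x‖ * (B y / ‖B y‖) * conj (B z / ‖B z‖)) *
          (A z / ‖A z‖ * conj (B x / ‖B x‖) * conj (B y / ‖B y‖)) := by
        linear_combination (-(A x / ‖A x‖ * (A y / ‖A y‖) * conj (B x / ‖B x‖) *
            conj (B y / ‖B y‖))) * hph2 _ az +
          (A z / ‖A z‖ * conj (B z / ‖B z‖) * (B y / ‖B y‖ * conj (B y / ‖B y‖))) * hph2 _ bx +
          (A z / ‖A z‖ * conj (B z / ‖B z‖)) * hph2 _ by'
      rw [e2, norm_mul, norm_mul, norm_mul, Complex.norm_conj, Complex.norm_conj, hph _ az,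
        hph _ bx, hph _ by']
      simpa using h4)
  obtain ⟨aθ, bθ⟩ := hlow θ hθ hθS
  have h4 : ‖A θ / ‖A θ‖ - B θ / ‖B θ‖‖ ≤ (2 * N + 1) * (2 * η / (t / 4) ^ 3) := by
    have e : A θ / ‖A θ‖ - B θ / ‖B θ‖ =
        (A θ / ‖A θ‖ * conj (B θ / ‖B θ‖) - 1) * (B θ / ‖B θ‖) := by
      linear_combination (-(A θ / ‖A θ‖)) * hph2 _ bθ
    rw [e, norm_mul, hph _ bθ, mul_one]
    exact hfin
  have h5 : |‖A θ‖ - ‖B θ‖| ≤ 2 * η / t := by
    rw [le_div_iff₀ ht0]
    have h6 := hsq θ hθ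
    rw [sq_sub_sq, abs_mul, abs_of_pos (by linarith)] at h6
    nlinarith [abs_nonneg (‖A θ‖ - ‖B θ‖)]
  have h7 : A θ - B θ = A θ / ‖A θ‖ * ((‖A θ‖ - ‖B θ‖ : ℝ) : ℂ) +
      (‖B θ‖ : ℝ) * (A θ / ‖A θ‖ - B θ / ‖B θ‖) := by
    have hA' : (‖A θ‖ : ℂ) ≠ 0 := by exact_mod_cast (by linarith : 0 < ‖A θ‖).ne'
    have hB' : (‖B θ‖ : ℂ) ≠ 0 := by exact_mod_cast (by linarith : 0 < ‖B θ‖).ne'
    push_cast; field_simp; ring
  have h8 := hgood θ hθ hθS
  rw [h7] at h8
  have h9 := h8.trans (norm_add_le _ _)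
  rw [norm_mul, norm_mul, hph _ aθ, one_mul, Complex.norm_real, Complex.norm_real,
    Real.norm_eq_abs, norm_norm] at h9
  have h10 : ‖B θ‖ * ‖A θ / ‖A θ‖ - B θ / ‖B θ‖‖ ≤
      Real.exp Λ * ((3 * Real.exp (12 * Λ)) * (2 * η / (t / 4) ^ 3)) := by
    have : 1 ≤ Real.exp (12 * Λ) := Real.one_le_exp (by linarith)
    refine mul_le_mul (hB θ) (h4.trans ?_) (norm_nonneg _) (Real.exp_pos _).le
    gcongr
    linarith
  have e13 : Real.exp Λ * Real.exp (12 * Λ) = Real.exp (13 * Λ) := by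
    rw [← Real.exp_add]; ring_nf
  have h11 : t ≤ 2 * η / t + 384 * Real.exp (13 * Λ) * η / t ^ 3 := by
    refine h9.trans (add_le_add h5 (h10.trans (le_of_eq ?_)))
    rw [← e13]; field_simp; norm_num
  have h12 : t ^ 4 ≤ 2 * η * t ^ 2 + 384 * Real.exp (13 * Λ) * η := by
    have := mul_le_mul_of_nonneg_right h11 (pow_pos ht0 3).le
    calc t ^ 4 = t * t ^ 3 := by ring
      _ ≤ _ := this
      _ = _ := by field_simp
  have ht2 : t ^ 2 ≤ 1 := pow_le_one₀ ht0.le ht1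
  nlinarith

end Vale.Agent.P321
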