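import Mathlib
import Vale.Agent.P321.Step1

/-! Converting Gaussian weights into exponentials. -/

namespace Vale.Agent.P321

open Complex Set MeasureTheory
open scoped ComplexConjugate

theorem gc {ι : Type*} (I : Finset ι) (t : ι → ℝ) (z v : ι → ℂ) (β r X Y Z : ℝ) (hβ : 0 < β)
    (h1 : Real.exp (-X) ≤ ‖∑ i ∈ I, exp (((-(β * t i ^ 2) : ℝ) : ℂ) + z i) * v i‖)
    (h2 : ∑ i ∈ I, Real.exp (-r * t i + (z i).re) * ‖v i‖ ≤ Real.exp Y)
    (h3 : r ^ 2 ≤ 4 * β * Z) (h4 : 0 ≤ X + Y + Z + 2) :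
    ∃ ω : ℝ, ω ^ 2 ≤ 8 * β * (X + Y + Z + 2) ∧ Real.exp (-(X + Z + 2)) ≤
      ‖∑ i ∈ I, exp (-((r : ℂ) + ω * Complex.I) * t i + z i) * v i‖ := by
  set s := Real.sqrt β with hs
  have hs0 : 0 < s := Real.sqrt_pos.2 hβ
  have hs2 : s ^ 2 = β := Real.sq_sqrt hβ.le
  have hr : 2 * (r / (2 * s)) * s = r := by field_simp
  have hα : (r / (2 * s)) ^ 2 ≤ Z := by
    rw [div_pow, mul_pow, hs2, div_le_iff₀ (by positivity)]; linarith
  have he2 : 4 * Real.exp (-2) ≤ 1 := by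
    have : Real.exp (-2) = Real.exp (-1) ^ 2 := by rw [← Real.exp_nat_mul]; norm_num
    rw [this]; nlinarith [Real.exp_neg_one_lt_d9, Real.exp_pos (-1)]
  have hZ : Real.exp (-Z) ≤ Real.exp (-(r / (2 * s)) ^ 2) := Real.exp_le_exp.2 (by linarith)
  obtain ⟨g, hg1, hg2⟩ := gauss_convert I t (fun i => exp (z i) * v i) s (r / (2 * s))
    (Real.sqrt (2 * (X + Y + Z + 2))) (Real.exp (-X)) (Real.exp Y) (Real.exp_pos _)
    (Real.sqrt_nonneg _)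
    (by
      refine h1.trans (le_of_eq ?_)
      congr 1
      refine Finset.sum_congr rfl fun i _ => ?_
      rw [exp_add, mul_pow, hs2, ofReal_exp, mul_assoc])
    (by
      refine le_trans (le_of_eq ?_) h2
      refine Finset.sum_congr rfl fun i _ => ?_
      rw [hr, norm_mul, Complex.norm_exp, Real.exp_add, mul_assoc])
    (by
      rw [Real.sq_sqrt (by linarith)]
      calc _ = (4 * Real.exp (-2)) * (Real.exp (-X) * Real.exp (-Z)) := by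
            rw [mul_assoc, mul_assoc, ← Real.exp_add, ← Real.exp_add, ← Real.exp_add]
            congr 2; ring
        _ ≤ 1 * (Real.exp (-X) * Real.exp (-(r / (2 * s)) ^ 2)) := by gcongr
        _ = _ := one_mul _)
  refine ⟨2 * g * s, ?_, ?_⟩
  · have : g ^ 2 ≤ 2 * (X + Y + Z + 2) := by
      rw [← sq_abs g, ← Real.sq_sqrt (by linarith : 0 ≤ 2 * (X + Y + Z + 2))]; gcongr
    rw [mul_pow, mul_pow, hs2]
    nlinarith
  · refine le_trans ?_ (hg2.trans (le_of_eq ?_))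
    · calc Real.exp (-(X + Z + 2)) = Real.exp (-X) * Real.exp (-Z) * Real.exp (-2) := by
            rw [← Real.exp_add, ← Real.exp_add]; congr 1; ring
        _ ≤ Real.exp (-X) * Real.exp (-(r / (2 * s)) ^ 2) * (1 / 4) := by gcongr; linarith
        _ = _ := by ring
    · congr 1
      refine Finset.sum_congr rfl fun i _ => ?_
      rw [hr, exp_add, mul_assoc (exp _) (exp _)]

set_option maxHeartbeats 1000000 in
theorem four_steps {ι : Type*} (I : Finset ι) (τ e₁ e₂ : ι → ℝ) (z₀ v : ι → ℂ)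
    (γ γ' a T μ b : ℝ) (he₁ : ∀ i ∈ I, 0 ≤ e₁ i) (he₂ : ∀ i ∈ I, 0 ≤ e₂ i)
    (hz : ∀ i ∈ I, (z₀ i).re ≤ 0) (hγ : 0 < γ) (hγ0 : 0 ≤ γ') (hγ1 : γ' ≤ γ / 2)
    (ha : 0 < a) (hT : 2 ≤ T) (haT : a ^ 2 = 12 * γ * T) (hμ : a ≤ μ) (hb0 : 0 ≤ b)
    (hv : ∀ i ∈ I, ‖v i‖ ≤ b * Real.exp (-μ * max 0 (-(τ i + e₁ i + e₂ i))))
    (hb : I.card * b ≤ Real.exp T)
    (h : Real.exp (-T) ≤ ‖∑ i ∈ I, exp (((-((γ - γ') * τ i ^ 2 + γ * (τ i + e₁ i) ^ 2 +
      γ * (τ i + e₁ i + e₂ i) ^ 2) : ℝ) : ℂ) + z₀ i) * v i‖) :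
    ∃ σ₁ σ₂ σ₃ : ℂ, σ₁.re = a ∧ |σ₁.im| ≤ 7 * a ∧
      320000 * a ≤ σ₂.re ∧ σ₂.re ≤ 320001 * a ∧ |σ₂.im| ≤ 2880000 * a ∧
      320000 * a ≤ σ₃.re ∧ σ₃.re ≤ 320001 * a ∧ |σ₃.im| ≤ 2880000 * a ∧
      Real.exp (-(20 * 320000 ^ 2 * T)) ≤
        ‖∑ i ∈ I, exp (-σ₁ * τ i - σ₂ * e₁ i - σ₃ * e₂ i + z₀ i) * v i‖ := by
  obtain ⟨P, hP⟩ : ∃ P, P = 3 * γ - γ' := ⟨_, rfl⟩
  have hP0 : 0 < P := by linarith
  obtain ⟨l₁, hl₁⟩ : ∃ l₁, l₁ = 2 * γ / P := ⟨_, rfl⟩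
  obtain ⟨l₂, hl₂⟩ : ∃ l₂, l₂ = γ / P := ⟨_, rfl⟩
  obtain ⟨βu, hβu⟩ : ∃ βu, βu = (γ - γ') * γ / P := ⟨_, rfl⟩
  obtain ⟨β₂, hβ₂⟩ : ∃ β₂, β₂ = γ * γ / P := ⟨_, rfl⟩
  have l₁0 : 0 ≤ l₁ := by rw [hl₁]; positivity
  have l₂0 : 0 ≤ l₂ := by rw [hl₂]; positivity
  have l₁1 : l₁ ≤ 1 := by rw [hl₁, div_le_one hP0]; linarith
  have l₂1 : l₂ ≤ 1 := by rw [hl₂, div_le_one hP0]; linarith
  have βu0 : γ / 6 ≤ βu := by rw [hβu, le_div_iff₀ hP0]; nlinarith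
  have βu1 : βu ≤ γ := by rw [hβu, div_le_iff₀ hP0]; nlinarith
  have β₂0 : 0 < β₂ := by rw [hβ₂]; positivity
  have β₂1 : β₂ ≤ γ := by rw [hβ₂, div_le_iff₀ hP0]; nlinarith
  have βu0' : 0 < βu := by linarith
  obtain ⟨c, hc⟩ : ∃ c : ι → ℝ, c = fun i => τ i + l₁ * e₁ i + l₂ * e₂ i := ⟨_, rfl⟩
  have hdec : ∀ i, (γ - γ') * τ i ^ 2 + γ * (τ i + e₁ i) ^ 2 + γ * (τ i + e₁ i + e₂ i) ^ 2 =
      P * c i ^ 2 + βu * (e₁ i + e₂ i) ^ 2 + βu * e₁ i ^ 2 + β₂ * e₂ i ^ 2 := by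
    intro i
    simp only [hc, hl₁, hl₂, hβu, hβ₂]
    field_simp
    rw [hP]; ring
  -- the basic termwise bound
  have hterm : ∀ (w : ι → ℝ) (Y : ℝ), (∀ i ∈ I, w i ≤ -a * c i - a * (e₁ i + e₂ i) + Y) →
      ∑ i ∈ I, Real.exp (w i) * ‖v i‖ ≤ Real.exp (T + Y) := by
    intro w Y hw
    have h1 : ∀ i ∈ I, Real.exp (w i) * ‖v i‖ ≤ b * Real.exp Y := by
      intro i hi
      calc _ ≤ Real.exp (w i) * (b * Real.exp (-μ * max 0 (-(τ i + e₁ i + e₂ i)))) := by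
            gcongr; exact hv i hi
        _ = b * Real.exp (w i + -μ * max 0 (-(τ i + e₁ i + e₂ i))) := by
            rw [Real.exp_add]; ring
        _ ≤ _ := by
            gcongr b * Real.exp ?_
            have h2 := hw i hi
            have h3 := le_max_left 0 (-(τ i + e₁ i + e₂ i))
            have h4 := le_max_right 0 (-(τ i + e₁ i + e₂ i))
            have h5 : 0 ≤ l₁ * e₁ i := mul_nonneg l₁0 (he₁ i hi)
            have h6 : 0 ≤ l₂ * e₂ i := mul_nonneg l₂0 (he₂ i hi)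
            simp only [hc] at h2
            have h7 := mul_le_mul_of_nonneg_right hμ h3
            have h8 := mul_le_mul_of_nonneg_left h4 ha.le
            have h9 := mul_nonneg ha.le h5
            have h10 := mul_nonneg ha.le h6
            linarith
    refine (Finset.sum_le_card_nsmul _ _ _ h1).trans ?_
    rw [nsmul_eq_mul, ← mul_assoc, Real.exp_add]
    gcongr
  have hγT : 0 < γ * T := by positivity
  -- first conversion
  obtain ⟨ω₁, hω₁, k₁⟩ := gc I c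
    (fun i => ((-(βu * (e₁ i + e₂ i) ^ 2 + βu * e₁ i ^ 2 + β₂ * e₂ i ^ 2) : ℝ) : ℂ) + z₀ i) v
    P a T (T + 18 * T) (2 * T) hP0
    (by
      refine h.trans (le_of_eq ?_)
      congr 1
      refine Finset.sum_congr rfl fun i _ => ?_
      rw [hdec]; congr 2; push_cast; ring)
    (by
      refine hterm _ _ fun i hi => ?_
      have h1 := hz i hi
      simp only [add_re, ofReal_re]
      have h2 : a * (e₁ i + e₂ i) - βu * (e₁ i + e₂ i) ^ 2 ≤ 18 * T := by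
        have h3 : 0 ≤ γ * (γ / 6 * (e₁ i + e₂ i) ^ 2 - a * (e₁ i + e₂ i) + 18 * T) := by
          nlinarith [sq_nonneg (γ * (e₁ i + e₂ i) - 3 * a)]
        have h4 := nonneg_of_mul_nonneg_right h3 hγ
        have h5 := mul_le_mul_of_nonneg_right βu0 (sq_nonneg (e₁ i + e₂ i))
        linarith
      linarith [mul_nonneg βu0'.le (sq_nonneg (e₁ i)), mul_nonneg β₂0.le (sq_nonneg (e₂ i))])
    (by nlinarith) (by linarith)
  have k₁' : Real.exp (-(4 * T)) ≤ _ := le_trans (Real.exp_le_exp.2 (by linarith)) k₁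
  -- second conversion
  obtain ⟨ω₂, hω₂, k₂⟩ := gc I (fun i => e₁ i + e₂ i)
    (fun i => ((-(βu * e₁ i ^ 2 + β₂ * e₂ i ^ 2) : ℝ) : ℂ) +
      (-((a : ℂ) + ω₁ * Complex.I) * c i + z₀ i)) v
    βu (320000 * a) (4 * T) (T + 0) (18 * 320000 ^ 2 * T) βu0'
    (by
      refine k₁'.trans (le_of_eq ?_)
      congr 1
      refine Finset.sum_congr rfl fun i _ => ?_
      congr 2; push_cast; ring)
    (by
      refine hterm _ _ fun i hi => ?_
      have h1 := hz i hi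
      simp only [add_re, ofReal_re, neg_mul, neg_re, mul_re, ofReal_im, I_re, I_im, mul_zero,
        sub_zero, mul_one, sub_self, add_zero]
      linarith [mul_nonneg βu0'.le (sq_nonneg (e₁ i)), mul_nonneg β₂0.le (sq_nonneg (e₂ i)),
        mul_nonneg ha.le (add_nonneg (he₁ i hi) (he₂ i hi))])
    (by rw [mul_pow, haT]; nlinarith) (by linarith)
  have k₂' : Real.exp (-(19 * 320000 ^ 2 * T)) ≤ _ :=
    le_trans (Real.exp_le_exp.2 (by linarith)) k₂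
  -- third conversion
  obtain ⟨ω₃, hω₃, k₃⟩ := gc I e₁
    (fun i => ((-(β₂ * e₂ i ^ 2) : ℝ) : ℂ) +
      (-(((320000 * a : ℝ) : ℂ) + ω₂ * Complex.I) * (e₁ i + e₂ i : ℝ) +
      (-((a : ℂ) + ω₁ * Complex.I) * c i + z₀ i))) v
    βu 0 (19 * 320000 ^ 2 * T) (T + 0) 0 βu0'
    (by
      refine k₂'.trans (le_of_eq ?_)
      congr 1
      refine Finset.sum_congr rfl fun i _ => ?_
      congr 2; push_cast; ring)
    (by
      refine hterm _ _ fun i hi => ?_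
      have h1 := hz i hi
      simp only [add_re, ofReal_re, neg_mul, neg_re, mul_re, ofReal_im, I_re, I_im, mul_zero,
        sub_zero, mul_one, sub_self, add_zero]
      linarith [mul_nonneg β₂0.le (sq_nonneg (e₂ i)),
        mul_nonneg ha.le (add_nonneg (he₁ i hi) (he₂ i hi))])
    (by simp) (by linarith)
  -- fourth conversion
  obtain ⟨ω₄, hω₄, k₄⟩ := gc I e₂
    (fun i => -(((0 : ℝ) : ℂ) + ω₃ * Complex.I) * e₁ i +
      (-(((320000 * a : ℝ) : ℂ) + ω₂ * Complex.I) * (e₁ i + e₂ i : ℝ) +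
      (-((a : ℂ) + ω₁ * Complex.I) * c i + z₀ i))) v
    β₂ 0 (19 * 320000 ^ 2 * T + 0 + 2) (T + 0) 0 β₂0
    (by
      refine k₃.trans (le_of_eq ?_)
      congr 1
      refine Finset.sum_congr rfl fun i _ => ?_
      congr 2; push_cast; ring)
    (by
      refine hterm _ _ fun i hi => ?_
      have h1 := hz i hi
      simp only [add_re, ofReal_re, neg_mul, neg_re, mul_re, ofReal_im, I_re, I_im, mul_zero,
        sub_zero, mul_one, sub_self, add_zero]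
      linarith [mul_nonneg ha.le (add_nonneg (he₁ i hi) (he₂ i hi))])
    (by simp) (by linarith)
  have b₁ : |ω₁| ≤ 7 * a := by
    apply abs_le_of_sq_le_sq' _ (by positivity) |> abs_le.2
    have : 8 * P * (T + (T + 18 * T) + 2 * T + 2) ≤ 8 * (3 * γ) * (23 * T) := by
      gcongr <;> linarith
    nlinarith
  have bb : ∀ ω β X : ℝ, 0 < β → β ≤ γ → 0 ≤ X → X ≤ 20 * 320000 ^ 2 * T → ω ^ 2 ≤ 8 * β * X →
      |ω| ≤ 1280000 * a := by
    intro ω β X h1 h2 h3 h4 h5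
    apply abs_le_of_sq_le_sq' _ (by positivity) |> abs_le.2
    have : 8 * β * X ≤ 8 * γ * (20 * 320000 ^ 2 * T) := by gcongr
    rw [mul_pow, haT]
    nlinarith
  have b₂ := abs_le.1 (bb ω₂ βu _ βu0' βu1 (by linarith) (by linarith) hω₂)
  have b₃ := abs_le.1 (bb ω₃ βu _ βu0' βu1 (by linarith) (by linarith) hω₃)
  have b₄ := abs_le.1 (bb ω₄ β₂ _ β₂0 β₂1 (by linarith) (by linarith) hω₄)
  have b₁' := abs_le.1 b₁
  have b₅ : ∀ l : ℝ, 0 ≤ l → l ≤ 1 → |l * ω₁| ≤ 7 * a := fun l h0 h1 => by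
    rw [abs_mul, abs_of_nonneg h0]
    exact (mul_le_of_le_one_left (abs_nonneg _) h1).trans b₁
  have b₆ := abs_le.1 (b₅ l₁ l₁0 l₁1)
  have b₇ := abs_le.1 (b₅ l₂ l₂0 l₂1)
  have b₈ := mul_nonneg l₁0 ha.le
  have b₉ := mul_nonneg l₂0 ha.le
  have b₁₀ := mul_le_of_le_one_left ha.le l₁1
  have b₁₁ := mul_le_of_le_one_left ha.le l₂1
  refine ⟨a + ω₁ * Complex.I,
    ((l₁ * a + 320000 * a : ℝ) : ℂ) + ((l₁ * ω₁ + ω₂ + ω₃ : ℝ) : ℂ) * Complex.I,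
    ((l₂ * a + 320000 * a : ℝ) : ℂ) + ((l₂ * ω₁ + ω₂ + ω₄ : ℝ) : ℂ) * Complex.I,
    by simp, by simpa using b₁, ?_, ?_, ?_, ?_, ?_, ?_, ?_⟩
  iterate 2
    · simp only [add_re, ofReal_re, mul_re, ofReal_im, I_re, I_im, mul_zero, mul_one, sub_self,
        add_zero]
      linarith
  · simp only [add_im, ofReal_re, mul_im, ofReal_im, I_re, I_im, mul_zero, mul_one, add_zero,
      zero_add]
    exact abs_le.2 ⟨by linarith, by linarith⟩
  iterate 2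
    · simp only [add_re, ofReal_re, mul_re, ofReal_im, I_re, I_im, mul_zero, mul_one, sub_self,
        add_zero]
      linarith
  · simp only [add_im, ofReal_re, mul_im, ofReal_im, I_re, I_im, mul_zero, mul_one, add_zero,
      zero_add]
    exact abs_le.2 ⟨by linarith, by linarith⟩
  · refine le_trans (Real.exp_le_exp.2 (by linarith)) (k₄.trans (le_of_eq ?_))
    congr 1
    refine Finset.sum_congr rfl fun i _ => ?_
    congr 2
    simp only [hc]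
    push_cast; ring

/-- ordered triple sums -/
noncomputable def Osum (n s₁ s₂ : ℕ) (g₁ g₂ g₃ : ℕ → ℂ) : ℂ :=
  ∑ i ∈ Finset.range n, ∑ j ∈ Finset.range n, ∑ k ∈ Finset.range n,
    if i + s₁ ≤ j ∧ j + s₂ ≤ k then g₁ i * g₂ j * g₃ k else 0

theorem prod_eq_Osum (n : ℕ) (g₁ g₂ g₃ : ℕ → ℂ) :
    (∑ i ∈ Finset.range n, g₁ i) * (∑ i ∈ Finset.range n, g₂ i) * (∑ i ∈ Finset.range n, g₃ i) =
      Osum n 0 0 g₁ g₂ g₃ + Osum n 0 1 g₁ g₃ g₂ + Osum n 1 0 g₂ g₁ g₃ + Osum n 0 1 g₂ g₃ g₁ +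
        Osum n 1 0 g₃ g₁ g₂ + Osum n 1 1 g₃ g₂ g₁ := by
  have c23 : ∀ f : ℕ → ℕ → ℕ → ℂ, ∑ i ∈ Finset.range n, ∑ j ∈ Finset.range n,
      ∑ k ∈ Finset.range n, f i j k = ∑ i ∈ Finset.range n, ∑ j ∈ Finset.range n,
      ∑ k ∈ Finset.range n, f i k j := fun f =>
    Finset.sum_congr rfl fun i _ => Finset.sum_comm
  have c12 : ∀ f : ℕ → ℕ → ℕ → ℂ, ∑ i ∈ Finset.range n, ∑ j ∈ Finset.range n,
      ∑ k ∈ Finset.range n, f i j k = ∑ i ∈ Finset.range n, ∑ j ∈ Finset.range n,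
      ∑ k ∈ Finset.range n, f j i k := fun f => Finset.sum_comm
  have e2 : Osum n 0 1 g₁ g₃ g₂ = ∑ i ∈ Finset.range n, ∑ j ∈ Finset.range n,
      ∑ k ∈ Finset.range n, if i + 0 ≤ k ∧ k + 1 ≤ j then g₁ i * g₃ k * g₂ j else 0 := c23 _
  have e3 : Osum n 1 0 g₂ g₁ g₃ = ∑ i ∈ Finset.range n, ∑ j ∈ Finset.range n,
      ∑ k ∈ Finset.range n, if j + 1 ≤ i ∧ i + 0 ≤ k then g₂ j * g₁ i * g₃ k else 0 := c12 _
  have e4 : Osum n 0 1 g₂ g₃ g₁ = ∑ i ∈ Finset.range n, ∑ j ∈ Finset.range n,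
      ∑ k ∈ Finset.range n, if j + 0 ≤ k ∧ k + 1 ≤ i then g₂ j * g₃ k * g₁ i else 0 :=
    (c23 _).trans (c12 _)
  have e5 : Osum n 1 0 g₃ g₁ g₂ = ∑ i ∈ Finset.range n, ∑ j ∈ Finset.range n,
      ∑ k ∈ Finset.range n, if k + 1 ≤ i ∧ i + 0 ≤ j then g₃ k * g₁ i * g₂ j else 0 :=
    (c12 _).trans (c23 _)
  have e6 : Osum n 1 1 g₃ g₂ g₁ = ∑ i ∈ Finset.range n, ∑ j ∈ Finset.range n,
      ∑ k ∈ Finset.range n, if k + 1 ≤ j ∧ j + 1 ≤ i then g₃ k * g₂ j * g₁ i else 0 :=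
    ((c12 _).trans (c23 _)).trans (c12 _)
  rw [e2, e3, e4, e5, e6, Osum, Finset.sum_mul_sum, Finset.sum_mul]
  simp only [← Finset.sum_add_distrib, Finset.sum_mul]
  refine Finset.sum_congr rfl fun i _ => Finset.sum_congr rfl fun j _ => ?_
  rw [Finset.mul_sum]
  refine Finset.sum_congr rfl fun k _ => ?_
  split_ifs <;> first | omega | ring

end Vale.Agent.P321
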