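import Mathlib
import Vale.Agent.P321.Step2

/-! The inductive step from scale `a` to scale `a'`. -/

namespace Vale.Agent.P321

open Complex Set MeasureTheory
open scoped ComplexConjugate

def Reg (μ m A : ℝ) : Set ℂ := {σ | μ ≤ σ.re ∧ σ.re ≤ A ∧ m * σ.im ^ 2 ≤ σ.re}

noncomputable def wt (γ : ℝ) (σ : ℂ) (d j : ℕ) : ℂ :=
  exp (((-(γ * ((j : ℝ) - d) ^ 2) : ℝ) : ℂ) - σ * (((j : ℝ) - d : ℝ) : ℂ))

def Inv (x y : List Bool) (n d : ℕ) (m A a γ Λ : ℝ) : Prop :=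
  ∃ (k : ℕ) (c : ℝ) (F : List Bool → ℂ) (σ : ℂ), Pre (Reg (320000 * a) m A) k c F ∧ 1 ≤ c ∧
    6 * (n + 1) * (c * (4 * (n + 1)) ^ k) ≤ Real.exp Λ ∧ σ.re = a ∧ |σ.im| ≤ 9 * a ∧
    Real.exp (-Λ) ≤ ‖∑ j ∈ Finset.range (n + 1), wt γ σ d j * (F (x.drop j) - F (y.drop j))‖

theorem Reg_mono {μ m A μ' m' A' : ℝ} (h1 : μ' ≤ μ) (h2 : m' ≤ m) (h3 : A ≤ A') :
    Reg μ m A ⊆ Reg μ' m' A' := fun σ h =>
  ⟨h1.trans h.1, h.2.1.trans h3,
    (mul_le_mul_of_nonneg_right h2 (sq_nonneg _)).trans h.2.2⟩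

theorem Reg_add {μ m A : ℝ} (hμ : 0 ≤ μ) (hm : 0 ≤ m) {σ τ : ℂ} (h1 : σ ∈ Reg μ m A)
    (h2 : τ ∈ Reg μ m A) : σ + τ ∈ Reg μ (m / 2) (2 * A) := by
  obtain ⟨a1, a2, a3⟩ := h1
  obtain ⟨b1, b2, b3⟩ := h2
  refine ⟨?_, ?_, ?_⟩ <;> simp only [add_re, add_im]
  · linarith
  · linarith
  · nlinarith [mul_nonneg hm (sq_nonneg (σ.im - τ.im))]

theorem Pre.mul_reg {μ m A : ℝ} (hμ : 0 ≤ μ) (hm : 0 ≤ m) (hA : 0 ≤ A)
    {k₁ k₂ : ℕ} {c₁ c₂ : ℝ} {F₁ F₂ : List Bool → ℂ} (hF₁ : Pre (Reg μ m A) k₁ c₁ F₁)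
    (hF₂ : Pre (Reg μ m A) k₂ c₂ F₂) :
    Pre (Reg μ (m / 2) (2 * A)) (k₁ + k₂) (3 ^ (k₁ + k₂) * (c₁ * c₂)) (fun x => F₁ x * F₂ x) :=
  Pre.mul (Reg_mono le_rfl (by linarith) (by linarith))
    (Reg_mono le_rfl (by linarith) (by linarith)) (fun _ h1 _ h2 => Reg_add hμ hm h1 h2)
    (fun _ h => hμ.trans h.1) hF₁ hF₂

theorem decay_drop {S : Set ℂ} {k : ℕ} {c : ℝ} {F : List Bool → ℂ} (h : Pre S k c F) {μ : ℝ}
    (hμ0 : 0 ≤ μ) (hμ1 : μ ≤ 1) (hS : ∀ σ ∈ S, μ ≤ σ.re) (n : ℕ) (u x y : List Bool)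
    (hx : (u ++ x).length = n) (hy : (u ++ y).length = n) (j : ℕ) :
    ‖F ((u ++ x).drop j) - F ((u ++ y).drop j)‖ ≤
      6 * (c * (4 * (n + 1)) ^ k) * Real.exp (-μ * max 0 ((u.length : ℝ) - j)) := by
  rw [← mul_assoc]
  rcases le_or_gt j u.length with hj | hj
  · rw [List.drop_append_of_le_length hj, List.drop_append_of_le_length hj]
    have := h.decay hμ0 hμ1 hS n x y (u.drop j)
      (by simp only [List.length_append, List.length_drop] at hx ⊢; omega)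
      (by simp only [List.length_append, List.length_drop] at hy ⊢; omega)
    rw [List.length_drop, Nat.cast_sub hj] at this
    rwa [max_eq_right (by rw [sub_nonneg]; exact_mod_cast hj)]
  · have := h.decay hμ0 hμ1 hS n ((u ++ x).drop j) ((u ++ y).drop j) []
      (by simp only [List.nil_append, List.length_drop]; omega)
      (by simp only [List.nil_append, List.length_drop]; omega)
    rw [max_eq_left (by rw [sub_nonpos]; exact_mod_cast hj.le)]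
    simpa using this

theorem nested_eq (n d s₁ s₂ : ℕ) (hs₁ : s₁ ≤ 1) (hs₂ : s₂ ≤ 1) (γ : ℝ) (σ₁ σ₂ σ₃ : ℂ)
    (F₁ F₂ F₃ : List Bool → ℂ) (z : List Bool) (hz : z.length = n) :
    ∑ j ∈ Finset.range (n + 1), wt γ σ₁ d j *
      (F₁ (z.drop j) * Ns s₁ σ₂ (fun w => F₂ w * Ns s₂ σ₃ F₃ w) (z.drop j)) =
    ∑ i ∈ (Finset.range (n + 1) ×ˢ Finset.range (n + 1) ×ˢ Finset.range (n + 1)).filter
        (fun i => i.1 + s₁ ≤ i.2.1 ∧ i.2.1 + s₂ ≤ i.2.2),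
      (wt γ σ₁ d i.1 * exp (-σ₂ * ((i.2.1 : ℂ) - i.1)) * exp (-σ₃ * ((i.2.2 : ℂ) - i.2.1))) *
        (F₁ (z.drop i.1) * F₂ (z.drop i.2.1) * F₃ (z.drop i.2.2)) := by
  rw [Finset.sum_filter, Finset.sum_product]
  refine Finset.sum_congr rfl fun i hi => ?_
  rw [Finset.mem_range] at hi
  rw [Ns_drop s₁ hs₁ _ _ z i (by omega), hz, Finset.sum_product, Finset.mul_sum, Finset.mul_sum]
  refine Finset.sum_congr rfl fun j hj => ?_
  rw [Finset.mem_range] at hj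
  rw [Ns_drop s₂ hs₂ _ _ z j (by omega), hz]
  by_cases h1 : i + s₁ ≤ j
  · simp only [h1, if_true, true_and, Finset.mul_sum]
    refine Finset.sum_congr rfl fun k _ => ?_
    split_ifs <;> ring
  · simp [h1]

theorem Osum_eq (n s₁ s₂ : ℕ) (g₁ g₂ g₃ : ℕ → ℂ) : Osum n s₁ s₂ g₁ g₂ g₃ =
    ∑ i ∈ (Finset.range n ×ˢ Finset.range n ×ˢ Finset.range n).filter
        (fun i => i.1 + s₁ ≤ i.2.1 ∧ i.2.1 + s₂ ≤ i.2.2), g₁ i.1 * g₂ i.2.1 * g₃ i.2.2 := by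
  rw [Finset.sum_filter, Finset.sum_product, Osum]
  refine Finset.sum_congr rfl fun i _ => ?_
  rw [Finset.sum_product]

set_option maxHeartbeats 2000000 in
theorem region (u x y : List Bool) (n : ℕ) (hx : (u ++ x).length = n) (hy : (u ++ y).length = n)
    (m A a a' γ γ' Λ : ℝ) (hΛ : 1 ≤ Λ) (hm : 0 ≤ m) (ha' : 0 < a') (haa : 2880000 * a' ≤ a)
    (ha1 : 320000 * a ≤ 1) (haA : 320000 * a ≤ A) (hma : 9 * m * a ^ 2 ≤ 320000 * a')
    (hγ : 0 < γ) (hγ0 : 0 ≤ γ') (hγ1 : γ' ≤ γ / 2) (haT : a' ^ 2 = 12 * γ * (2700000 * Λ))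
    (k : ℕ) (c : ℝ) (hc : 1 ≤ c) (hE : 6 * (n + 1) * (c * (4 * (n + 1)) ^ k) ≤ Real.exp Λ)
    (F₁ F₂ F₃ : List Bool → ℂ) (h₁ : Pre (Reg (320000 * a) m A) k c F₁)
    (h₂ : Pre (Reg (320000 * a) m A) k c F₂) (h₃ : Pre (Reg (320000 * a) m A) k c F₃)
    (θ₁ θ₂ θ₃ : ℝ) (t₂ : |θ₂| ≤ a) (t₃ : |θ₃| ≤ a) (t₀ : |θ₁ + θ₂ + θ₃| ≤ a')
    (s₁ s₂ : ℕ) (hs₁ : s₁ ≤ 1) (hs₂ : s₂ ≤ 1)
    (h : Real.exp (-(2700000 * Λ)) ≤
      ‖Osum (n + 1) s₁ s₂ (fun j => wt γ (-(θ₁ * I)) u.length j * F₁ ((u ++ x).drop j))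
          (fun j => wt γ (-(θ₂ * I)) u.length j * F₂ ((u ++ x).drop j))
          (fun j => wt γ (-(θ₃ * I)) u.length j * F₃ ((u ++ x).drop j)) -
        Osum (n + 1) s₁ s₂ (fun j => wt γ (-(θ₁ * I)) u.length j * F₁ ((u ++ y).drop j))
          (fun j => wt γ (-(θ₂ * I)) u.length j * F₂ ((u ++ y).drop j))
          (fun j => wt γ (-(θ₃ * I)) u.length j * F₃ ((u ++ y).drop j))‖) :
    Inv (u ++ x) (u ++ y) n u.length (m / 4) (4 * A) a' γ' (2 ^ 63 * Λ) := by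
  obtain ⟨d, hd⟩ : ∃ d, d = u.length := ⟨_, rfl⟩
  obtain ⟨K, hK⟩ : ∃ K, K = c * (4 * ((n : ℝ) + 1)) ^ k := ⟨_, rfl⟩
  rw [← hK] at hE
  have hn : (0 : ℝ) ≤ n := Nat.cast_nonneg _
  have hH : (1 : ℝ) ≤ (4 * ((n : ℝ) + 1)) ^ k := one_le_pow₀ (by linarith)
  have hK1 : 1 ≤ K := by rw [hK]; nlinarith
  have ha : 0 < a := by linarith
  have hS : ∀ σ ∈ Reg (320000 * a) m A, 320000 * a ≤ σ.re := fun σ h => h.1
  have hS0 : ∀ σ ∈ Reg (320000 * a) m A, 0 ≤ σ.re := fun σ h => le_trans (by positivity) h.1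
  have hsup : ∀ {F}, Pre (Reg (320000 * a) m A) k c F → ∀ z : List Bool, z.length = n → ∀ j,
      ‖F (z.drop j)‖ ≤ K := fun hF z hz j =>
    hK ▸ hF.sup hS0 n _ (by rw [List.length_drop]; omega)
  have hdec : ∀ {F}, Pre (Reg (320000 * a) m A) k c F → ∀ j j' : ℕ, j ≤ j' →
      ‖F ((u ++ x).drop j) - F ((u ++ y).drop j)‖ ≤
        6 * K * Real.exp (-(320000 * a) * max 0 ((d : ℝ) - j')) := by
    intro F hF j j' hj
    refine (decay_drop hF (by positivity) ha1 hS n u x y hx hy j).trans ?_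
    rw [← hK, ← hd]
    gcongr 6 * K * Real.exp ?_
    have : (j : ℝ) ≤ j' := by exact_mod_cast hj
    have : max 0 ((d : ℝ) - j') ≤ max 0 ((d : ℝ) - j) := max_le_max le_rfl (by linarith)
    nlinarith
  rw [← hd] at h ⊢
  rw [Osum_eq, Osum_eq, ← Finset.sum_sub_distrib] at h
  obtain ⟨σ₁, σ₂, σ₃, r1, r2, r3, r4, r5, r6, r7, r8, r9⟩ := four_steps
    ((Finset.range (n + 1) ×ˢ Finset.range (n + 1) ×ˢ Finset.range (n + 1)).filter
        (fun i => i.1 + s₁ ≤ i.2.1 ∧ i.2.1 + s₂ ≤ i.2.2))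
    (fun i => (i.1 : ℝ) - d) (fun i => (i.2.1 : ℝ) - i.1) (fun i => (i.2.2 : ℝ) - i.2.1)
    (fun i => ((-(γ' * ((i.1 : ℝ) - d) ^ 2) : ℝ) : ℂ) + ((θ₁ * ((i.1 : ℝ) - d) +
      θ₂ * ((i.2.1 : ℝ) - d) + θ₃ * ((i.2.2 : ℝ) - d) : ℝ) : ℂ) * I)
    (fun i => F₁ ((u ++ x).drop i.1) * F₂ ((u ++ x).drop i.2.1) * F₃ ((u ++ x).drop i.2.2) -
      F₁ ((u ++ y).drop i.1) * F₂ ((u ++ y).drop i.2.1) * F₃ ((u ++ y).drop i.2.2))
    γ γ' a' (2700000 * Λ) (320000 * a) (18 * K ^ 3)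
    (fun i hi => by
      have : i.1 ≤ i.2.1 := by have := (Finset.mem_filter.1 hi).2; omega
      simp only [sub_nonneg]; exact_mod_cast this)
    (fun i hi => by
      have : i.2.1 ≤ i.2.2 := by have := (Finset.mem_filter.1 hi).2; omega
      simp only [sub_nonneg]; exact_mod_cast this)
    (fun i _ => by
      simp only [add_re, ofReal_re, mul_re, I_re, I_im, ofReal_im, mul_zero, mul_one, sub_self,
        add_zero, neg_nonpos]
      positivity)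
    hγ hγ0 hγ1 ha' (by linarith) haT (by linarith) (by positivity)
    (fun i hi => by
      have i1 : i.1 ≤ i.2.2 := by have := (Finset.mem_filter.1 hi).2; omega
      have i2 : i.2.1 ≤ i.2.2 := by have := (Finset.mem_filter.1 hi).2; omega
      have e0 : -((i.1 : ℝ) - d + ((i.2.1 : ℝ) - i.1) + ((i.2.2 : ℝ) - i.2.1)) = d - i.2.2 := by
        ring
      rw [e0]
      have d1 := hdec h₁ _ _ i1
      have d2 := hdec h₂ _ _ i2
      have d3 := hdec h₃ _ _ (le_refl i.2.2)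
      have e : ∀ a b c a' b' c' : ℂ, a * b * c - a' * b' * c' =
        (a - a') * b * c + a' * (b - b') * c + a' * b' * (c - c') := by intros; ring
      rw [e]
      have u1 := hsup h₁ _ hy i.1
      have u2 := hsup h₂ _ hx i.2.1
      have u2' := hsup h₂ _ hy i.2.1
      have u3 := hsup h₃ _ hx i.2.2
      obtain ⟨D, hD⟩ : ∃ D, D = Real.exp (-(320000 * a) * max 0 ((d : ℝ) - i.2.2)) := ⟨_, rfl⟩
      have hD0 : 0 < D := hD ▸ Real.exp_pos _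
      rw [← hD] at d1 d2 d3 ⊢
      refine (norm_add₃_le).trans ?_
      simp only [norm_mul]
      calc _ ≤ 6 * K * D * K * K + K * (6 * K * D) * K + K * K * (6 * K * D) := by gcongr
        _ = _ := by ring)
    (by
      have hcard : (((Finset.range (n + 1) ×ˢ Finset.range (n + 1) ×ˢ Finset.range (n + 1)).filter
          (fun i => i.1 + s₁ ≤ i.2.1 ∧ i.2.1 + s₂ ≤ i.2.2)).card : ℝ) ≤ (n + 1) ^ 3 := by
        have := Finset.card_filter_le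
          (Finset.range (n + 1) ×ˢ Finset.range (n + 1) ×ˢ Finset.range (n + 1))
          (fun i => i.1 + s₁ ≤ i.2.1 ∧ i.2.1 + s₂ ≤ i.2.2)
        simp only [Finset.card_product, Finset.card_range] at this
        calc _ ≤ (((n + 1) * ((n + 1) * (n + 1)) : ℕ) : ℝ) := by exact_mod_cast this
          _ = _ := by push_cast; ring
      calc _ ≤ ((n : ℝ) + 1) ^ 3 * (216 * K ^ 3) := by gcongr; norm_num
        _ = (6 * (n + 1) * K) ^ 3 := by ring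
        _ ≤ Real.exp Λ ^ 3 := by gcongr
        _ ≤ _ := by rw [← Real.exp_nat_mul, Real.exp_le_exp]; push_cast; linarith)
    (by
      refine h.trans (le_of_eq ?_)
      congr 1
      refine Finset.sum_congr rfl fun i _ => ?_
      have e : wt γ (-(θ₁ * I)) d i.1 * wt γ (-(θ₂ * I)) d i.2.1 * wt γ (-(θ₃ * I)) d i.2.2 =
          exp (((-((γ - γ') * ((i.1 : ℝ) - d) ^ 2 + γ * ((i.1 : ℝ) - d + ((i.2.1 : ℝ) - i.1)) ^ 2 +
            γ * ((i.1 : ℝ) - d + ((i.2.1 : ℝ) - i.1) + ((i.2.2 : ℝ) - i.2.1)) ^ 2) : ℝ) : ℂ) +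
            (((-(γ' * ((i.1 : ℝ) - d) ^ 2) : ℝ) : ℂ) + ((θ₁ * ((i.1 : ℝ) - d) +
              θ₂ * ((i.2.1 : ℝ) - d) + θ₃ * ((i.2.2 : ℝ) - d) : ℝ) : ℂ) * I)) := by
        simp only [wt, ← exp_add]
        congr 1; push_cast; ring
      rw [← e]; ring)
  have t₂' := abs_le.1 t₂
  have t₃' := abs_le.1 t₃
  have t₀' := abs_le.1 t₀
  have r2' := abs_le.1 r2
  have r5' := abs_le.1 r5
  have r8' := abs_le.1 r8
  have hA : 0 ≤ A := by linarith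
  have hmem : ∀ (σ : ℂ) (θ : ℝ), 320000 * a' ≤ σ.re → σ.re ≤ 320001 * a' →
      |σ.im| ≤ 2880000 * a' → |θ| ≤ 2 * a → σ - θ * I ∈ Reg (320000 * a') m A := by
    intro σ θ p1 p2 p3 p4
    have p3' := abs_le.1 p3
    have p4' := abs_le.1 p4
    refine ⟨?_, ?_, ?_⟩ <;> simp only [sub_re, sub_im, mul_re, mul_im, ofReal_re, ofReal_im,
      I_re, I_im, mul_zero, mul_one, sub_self, sub_zero, add_zero]
    · exact p1
    · linarith
    · have : (σ.im - θ) ^ 2 ≤ (3 * a) ^ 2 := sq_le_sq' (by linarith) (by linarith)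
      nlinarith [mul_le_mul_of_nonneg_left this hm]
  have m₂ := hmem σ₂ (θ₂ + θ₃) r3 r4 r5 (abs_le.2 ⟨by linarith, by linarith⟩)
  have m₃ := hmem σ₃ θ₃ r6 r7 r8 (abs_le.2 ⟨by linarith, by linarith⟩)
  have hsub : Reg (320000 * a) m A ⊆ Reg (320000 * a') m A :=
    Reg_mono (by linarith) le_rfl le_rfl
  have hsub2 : Reg (320000 * a') m A ⊆ Reg (320000 * a') (m / 2) (2 * A) :=
    Reg_mono le_rfl (by linarith) (by linarith)
  have p₃ := (h₃.subset hsub).ns m₃ (fun σ h => le_trans (by positivity) h.1) s₂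
  have p₂ := (h₂.subset hsub).mul_reg (by positivity) hm hA p₃
  have p₂' := p₂.ns (hsub2 m₂) (fun σ h => le_trans (by positivity) h.1) s₁
  have p₁ := ((h₁.subset hsub).subset hsub2).mul_reg (by positivity) (by linarith) (by linarith) p₂'
  have em : m / 2 / 2 = m / 4 := by ring
  have eA : 2 * (2 * A) = 4 * A := by ring
  rw [em, eA] at p₁
  refine ⟨_, _, _, σ₁ - ((θ₁ + θ₂ + θ₃ : ℝ) : ℂ) * I, p₁, ?_, ?_, by simpa using r1, ?_, ?_⟩
  · have q1 : (1 : ℝ) ≤ 3 ^ (k + (k + 1)) := one_le_pow₀ (by norm_num)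
    have q2 : (1 : ℝ) ≤ 3 ^ (k + (k + (k + 1) + 1)) := one_le_pow₀ (by norm_num)
    refine one_le_mul_of_one_le_of_one_le q2 (one_le_mul_of_one_le_of_one_le hc
      (one_le_mul_of_one_le_of_one_le (by norm_num) (one_le_mul_of_one_le_of_one_le q1
        (one_le_mul_of_one_le_of_one_le hc (by linarith)))))
  · obtain ⟨e, he⟩ : ∃ e, e = Real.exp Λ := ⟨_, rfl⟩
    rw [← he] at hE
    have q0 : 6 * ((n : ℝ) + 1) ≤ e :=
      le_trans (le_mul_of_one_le_right (by positivity) hK1) hE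
    have q1 : K ≤ e := le_trans (le_mul_of_one_le_left (by positivity) (by linarith)) hE
    have q2 : (3 : ℝ) ^ k ≤ e := by
      have z1 : (3 : ℝ) ^ k ≤ (4 * ((n : ℝ) + 1)) ^ k := by gcongr; linarith
      have z2 : (4 * ((n : ℝ) + 1)) ^ k ≤ K := by
        rw [hK]; exact le_mul_of_one_le_left (by positivity) hc
      exact z1.trans (z2.trans q1)
    have q3 : 4 * ((n : ℝ) + 1) ≤ e := by linarith
    have q4 : (108 : ℝ) ≤ e ^ 3 := by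
      have : (6 : ℝ) ^ 3 ≤ e ^ 3 := by gcongr; linarith
      linarith
    have he0 : 0 ≤ e := by linarith
    calc _ = 6 * ((n : ℝ) + 1) * 108 * ((3 : ℝ) ^ k) ^ 5 * K ^ 3 * (4 * ((n : ℝ) + 1)) ^ 2 := by
          rw [hK]; ring
      _ ≤ e * e ^ 3 * e ^ 5 * e ^ 3 * e ^ 2 := by gcongr
      _ = Real.exp (14 * Λ) := by
          rw [he, show (14 : ℝ) = (14 : ℕ) by norm_num, Real.exp_nat_mul]; ring
      _ ≤ _ := Real.exp_le_exp.2 (by linarith)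
  · simp only [sub_im, mul_im, ofReal_re, ofReal_im, I_re, I_im, mul_zero, mul_one, add_zero]
    exact abs_le.2 ⟨by linarith, by linarith⟩
  · simp only [mul_sub, Finset.sum_sub_distrib]
    rw [nested_eq n d s₁ s₂ hs₁ hs₂ _ _ _ _ _ _ _ _ hx, nested_eq n d s₁ s₂ hs₁ hs₂ _ _ _ _ _ _ _ _ hy,
      ← Finset.sum_sub_distrib]
    refine le_trans (Real.exp_le_exp.2 (by linarith)) (r9.trans (le_of_eq ?_))
    congr 1
    refine Finset.sum_congr rfl fun i _ => ?_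
    rw [← mul_sub]
    congr 1
    simp only [wt, ← exp_add]
    congr 1; push_cast; ring

set_option maxHeartbeats 2000000 in
theorem step (u x y : List Bool) (n : ℕ) (hx : (u ++ x).length = n) (hy : (u ++ y).length = n)
    (m A a a' γ γ' Λ : ℝ) (hΛ : 1 ≤ Λ) (hm : 0 ≤ m) (ha' : 0 < a') (haa : 2880000 * a' ≤ a)
    (ha1 : 320000 * a ≤ 1) (haA : 320000 * a ≤ A) (hma : 9 * m * a ^ 2 ≤ 320000 * a')
    (hγ : 0 < γ) (hγ0 : 0 ≤ γ') (hγ1 : γ' ≤ γ / 2) (haT : a' ^ 2 = 12 * γ * (2700000 * Λ))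
    (han : 1 ≤ n * a') (h : Inv (u ++ x) (u ++ y) n u.length m A a γ Λ) :
    Inv (u ++ x) (u ++ y) n u.length (m / 4) (4 * A) a' γ' (2 ^ 63 * Λ) := by
  obtain ⟨k, c, F, σ, hF, hc, hE, hre, him, hlow⟩ := h
  by_contra hcon
  have ha : 0 < a := by linarith
  have hn : (0 : ℝ) ≤ n := Nat.cast_nonneg _
  have hS : ∀ σ ∈ Reg (320000 * a) m A, 320000 * a ≤ σ.re := fun σ h => h.1
  have hS0 : ∀ σ ∈ Reg (320000 * a) m A, 0 ≤ σ.re := fun σ h => le_trans (by positivity) h.1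
  -- all triple products are close
  have htri : ∀ F₁ F₂ F₃ : List Bool → ℂ, Pre (Reg (320000 * a) m A) k c F₁ →
      Pre (Reg (320000 * a) m A) k c F₂ → Pre (Reg (320000 * a) m A) k c F₃ →
      ∀ θ₁ θ₂ θ₃ : ℝ, |θ₁| ≤ a → |θ₂| ≤ a → |θ₃| ≤ a → |θ₁ + θ₂ + θ₃| ≤ a' →
      ‖(∑ j ∈ Finset.range (n + 1), wt γ (-(θ₁ * I)) u.length j * F₁ ((u ++ x).drop j)) *
        (∑ j ∈ Finset.range (n + 1), wt γ (-(θ₂ * I)) u.length j * F₂ ((u ++ x).drop j)) *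
        (∑ j ∈ Finset.range (n + 1), wt γ (-(θ₃ * I)) u.length j * F₃ ((u ++ x).drop j)) -
        (∑ j ∈ Finset.range (n + 1), wt γ (-(θ₁ * I)) u.length j * F₁ ((u ++ y).drop j)) *
        (∑ j ∈ Finset.range (n + 1), wt γ (-(θ₂ * I)) u.length j * F₂ ((u ++ y).drop j)) *
        (∑ j ∈ Finset.range (n + 1), wt γ (-(θ₃ * I)) u.length j * F₃ ((u ++ y).drop j))‖ ≤
        Real.exp (-2600000 * Λ) := by
    intro F₁ F₂ F₃ h₁ h₂ h₃ θ₁ θ₂ θ₃ t₁ t₂ t₃ t₀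
    have R := fun F₁ F₂ F₃ h₁ h₂ h₃ θ₁ θ₂ θ₃ t₂ t₃ t₀ s₁ s₂ hs₁ hs₂ =>
      not_le.1 (mt (region u x y n hx hy m A a a' γ γ' Λ hΛ hm ha' haa ha1 haA hma hγ hγ0 hγ1 haT
        k c hc hE F₁ F₂ F₃ h₁ h₂ h₃ θ₁ θ₂ θ₃ t₂ t₃ t₀ s₁ s₂ hs₁ hs₂) hcon)
    have R1 := R F₁ F₂ F₃ h₁ h₂ h₃ θ₁ θ₂ θ₃ t₂ t₃ t₀ 0 0 (by omega) (by omega)
    have R2 := R F₁ F₃ F₂ h₁ h₃ h₂ θ₁ θ₃ θ₂ t₃ t₂ (by convert t₀ using 2; ring) 0 1
      (by omega) (by omega)
    have R3 := R F₂ F₁ F₃ h₂ h₁ h₃ θ₂ θ₁ θ₃ t₁ t₃ (by convert t₀ using 2; ring) 1 0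
      (by omega) (by omega)
    have R4 := R F₂ F₃ F₁ h₂ h₃ h₁ θ₂ θ₃ θ₁ t₃ t₁ (by convert t₀ using 2; ring) 0 1
      (by omega) (by omega)
    have R5 := R F₃ F₁ F₂ h₃ h₁ h₂ θ₃ θ₁ θ₂ t₁ t₂ (by convert t₀ using 2; ring) 1 0
      (by omega) (by omega)
    have R6 := R F₃ F₂ F₁ h₃ h₂ h₁ θ₃ θ₂ θ₁ t₂ t₁ (by convert t₀ using 2; ring) 1 1
      (by omega) (by omega)
    rw [prod_eq_Osum, prod_eq_Osum]
    have key : ∀ a₁ a₂ a₃ a₄ a₅ a₆ b₁ b₂ b₃ b₄ b₅ b₆ : ℂ, ∀ e : ℝ, ‖a₁ - b₁‖ < e → ‖a₂ - b₂‖ < e →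
        ‖a₃ - b₃‖ < e → ‖a₄ - b₄‖ < e → ‖a₅ - b₅‖ < e → ‖a₆ - b₆‖ < e →
        ‖a₁ + a₂ + a₃ + a₄ + a₅ + a₆ - (b₁ + b₂ + b₃ + b₄ + b₅ + b₆)‖ ≤ 6 * e := by
      intro a₁ a₂ a₃ a₄ a₅ a₆ b₁ b₂ b₃ b₄ b₅ b₆ e h1 h2 h3 h4 h5 h6
      have : a₁ + a₂ + a₃ + a₄ + a₅ + a₆ - (b₁ + b₂ + b₃ + b₄ + b₅ + b₆) =
        ((a₁ - b₁) + (a₂ - b₂) + (a₃ - b₃)) + ((a₄ - b₄) + (a₅ - b₅) + (a₆ - b₆)) := by ring
      rw [this]
      refine (norm_add_le _ _).trans ((add_le_add norm_add₃_le norm_add₃_le).trans ?_)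
      linarith
    refine (key _ _ _ _ _ _ _ _ _ _ _ _ _ R1 R2 R3 R4 R5 R6).trans ?_
    have : (6 : ℝ) ≤ Real.exp (100000 * Λ) := by
      linarith [Real.add_one_le_exp (100000 * Λ)]
    calc 6 * Real.exp (-(2700000 * Λ)) ≤ Real.exp (100000 * Λ) * Real.exp (-(2700000 * Λ)) := by
          gcongr
      _ = _ := by rw [← Real.exp_add]; congr 1; ring
  have hwt : ∀ (s : ℂ) (j : ℕ), wt γ s u.length j =
      exp (-s * ((j : ℂ) - u.length)) * (Real.exp (-(γ * ((j : ℝ) - u.length) ^ 2)) : ℝ) := by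
    intro s j
    rw [wt, ofReal_exp, ← exp_add]
    congr 1; push_cast; ring
  have hg1 : ∀ j : ℕ, Real.exp (-(γ * ((j : ℝ) - u.length) ^ 2)) ≤ 1 := fun j => by
    rw [Real.exp_le_one_iff, neg_nonpos]; positivity
  obtain ⟨S, hS1, hS2, hgood⟩ := good_set n u.length
    (fun j => (Real.exp (-(γ * ((j : ℝ) - u.length) ^ 2)) : ℝ) *
      (F ((u ++ x).drop j) - F ((u ++ y).drop j))) a Λ ha ha1 hΛ
    (6 * (c * (4 * (n + 1)) ^ k)) (by linarith)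
    (fun j _ => by
      rw [norm_mul, Complex.norm_real, Real.norm_eq_abs, abs_of_pos (Real.exp_pos _)]
      exact (mul_le_of_le_one_left (norm_nonneg _) (hg1 j)).trans
        (decay_drop hF (by positivity) ha1 hS n u x y hx hy j))
    σ hre him (by simpa only [hwt, mul_assoc] using hlow)
  have hγa : Real.sqrt γ ≤ a' := by
    apply Real.sqrt_le_iff.2 ⟨ha'.le, ?_⟩
    rw [haT]; nlinarith
  have hsγ : 0 < Real.sqrt γ := Real.sqrt_pos.2 hγ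
  have hconj : ∀ (θ : ℝ) (z : List Bool),
      conj (∑ j ∈ Finset.range (n + 1), wt γ (-(θ * I)) u.length j * F (z.drop j)) =
      ∑ j ∈ Finset.range (n + 1), wt γ (-((-θ : ℝ) * I)) u.length j * conj (F (z.drop j)) := by
    intro θ z
    rw [map_sum]
    refine Finset.sum_congr rfl fun j _ => ?_
    rw [map_mul, wt, wt, ← exp_conj]
    congr 2
    simp only [map_sub, map_mul, map_neg, conj_ofReal, conj_I]
    push_cast; ring
  have hFc := hF.conj (fun σ h => by simpa [Reg] using h)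
  refine triple_fails
    (fun θ => ∑ j ∈ Finset.range (n + 1), wt γ (-(θ * I)) u.length j * F ((u ++ x).drop j))
    (fun θ => ∑ j ∈ Finset.range (n + 1), wt γ (-(θ * I)) u.length j * F ((u ++ y).drop j))
    a (Real.sqrt γ) Λ ⌈a / Real.sqrt γ⌉₊ hΛ hsγ.le ?_ ?_ S hS1 hS2 ?_ ?_ ?_ ?_
  · rw [← div_le_iff₀ hsγ]; exact Nat.le_ceil _
  · have h1 := (Nat.ceil_lt_add_one (show 0 ≤ a / Real.sqrt γ by positivity)).le
    have hH : (1 : ℝ) ≤ c * (4 * ((n : ℝ) + 1)) ^ k :=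
      one_le_mul_of_one_le_of_one_le hc (one_le_pow₀ (by linarith))
    have q0 : 6 * ((n : ℝ) + 1) ≤ Real.exp Λ := by nlinarith
    have q1 : Λ ≤ Real.exp Λ := by linarith [Real.add_one_le_exp Λ]
    have h2 : a' ≤ 6000 * Λ * Real.sqrt γ := by
      apply abs_le_of_sq_le_sq' _ (by positivity) |>.2
      rw [mul_pow, Real.sq_sqrt hγ.le, haT]
      nlinarith [mul_pos hγ (by linarith : 0 < Λ)]
    have h3 : a / Real.sqrt γ ≤ 6000 * Λ * n := by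
      rw [div_le_iff₀ hsγ]
      nlinarith [mul_le_mul_of_nonneg_left h2 hn]
    obtain ⟨e, he⟩ : ∃ e, e = Real.exp Λ := ⟨_, rfl⟩
    rw [← he] at q0 q1
    have h4 : Real.exp (12 * Λ) = e ^ 12 := by
      rw [he, ← Real.exp_nat_mul]; norm_num
    have h5 : (6 : ℝ) ^ 10 ≤ e ^ 10 := by gcongr; linarith
    have h6 : Λ * n ≤ e * e := by gcongr <;> linarith
    rw [h4]
    nlinarith
  · intro θ hθ hθS
    refine (hgood θ hθ hθS).trans (le_of_eq ?_)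
    congr 1
    rw [← Finset.sum_sub_distrib]
    refine Finset.sum_congr rfl fun j _ => ?_
    rw [hwt, neg_neg]; ring
  · intro θ
    refine (norm_sum_le _ _).trans ?_
    have h1 : ∀ j ∈ Finset.range (n + 1),
        ‖wt γ (-(θ * I)) u.length j * F ((u ++ y).drop j)‖ ≤ c * (4 * (n + 1)) ^ k := by
      intro j _
      rw [hwt, norm_mul, norm_mul, Complex.norm_real, Real.norm_eq_abs,
        abs_of_pos (Real.exp_pos _), Complex.norm_exp]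
      have e : (- -(θ * I) * ((j : ℂ) - u.length)).re = 0 := by simp
      rw [e, Real.exp_zero, one_mul]
      exact (mul_le_of_le_one_left (norm_nonneg _) (hg1 j)).trans
        (hF.sup hS0 n _ (by rw [List.length_drop]; omega))
    refine (Finset.sum_le_card_nsmul _ _ _ h1).trans ?_
    rw [nsmul_eq_mul, Finset.card_range]
    push_cast
    have : 0 ≤ ((n : ℝ) + 1) * (c * (4 * ((n : ℝ) + 1)) ^ k) := by positivity
    linarith
  · intro θ hθ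
    have h1 := htri F (fun z => conj (F z)) (fun _ => 1) hF hFc (Pre.one k hc) θ (-θ) 0 hθ
      (by rwa [abs_neg]) (by simpa using ha.le) (by simpa using ha'.le)
    rw [← sub_mul, norm_mul, ← hconj, ← hconj] at h1
    refine le_trans (le_mul_of_one_le_right (norm_nonneg _) ?_) h1
    have e : ∑ j ∈ Finset.range (n + 1), wt γ (-((0 : ℝ) * I)) u.length j * 1 =
        ((∑ j ∈ Finset.range (n + 1), Real.exp (-(γ * ((j : ℝ) - u.length) ^ 2)) : ℝ) : ℂ) := by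
      rw [ofReal_sum]
      refine Finset.sum_congr rfl fun j _ => ?_
      rw [hwt]; simp
    rw [e, Complex.norm_real, Real.norm_eq_abs]
    refine le_trans ?_ (le_abs_self _)
    have := Finset.single_le_sum (f := fun j : ℕ => Real.exp (-(γ * ((j : ℝ) - u.length) ^ 2)))
      (fun j _ => (Real.exp_pos _).le) (a := u.length) (s := Finset.range (n + 1))
      (by rw [Finset.mem_range]; simp at hx; omega)
    simpa using this
  · intro θ₁ θ₂ θ₃ t₁ t₂ t₃ t₀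
    have h1 := htri F F (fun z => conj (F z)) hF hF hFc θ₁ θ₂ (-θ₃) t₁ t₂ (by rwa [abs_neg])
      (by
        refine le_trans (le_of_eq ?_) (t₀.trans hγa)
        rw [← abs_neg]; congr 1; ring)
    rwa [← hconj, ← hconj] at h1

end Vale.Agent.P321
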