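import Mathlib
import Vale.Agent.P321.Step3

/-! The base case, the iteration over scales and the resulting separation of traces. -/

namespace Vale.Agent.P321

open Complex Set MeasureTheory

def hd : List Bool → ℂ
  | [] => 0
  | b :: _ => if b then 1 else 0

theorem norm_hd_sub (x y : List Bool) : ‖hd x - hd y‖ ≤ 1 := by
  rcases x with _ | ⟨_ | _, _⟩ <;> rcases y with _ | ⟨_ | _, _⟩ <;> simp [hd]

theorem base (u x y : List Bool) (b b' : Bool) (hb : b ≠ b') (n : ℕ)
    (hx : (u ++ b :: x).length = n) (m A a γ Λ : ℝ) (ha0 : 0 < a) (ha1 : a ≤ 1) (hγ : 0 ≤ γ)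
    (hΛ : 1 ≤ Λ) (hn : (n : ℝ) + 1 ≤ Real.exp Λ) :
    Inv (u ++ b :: x) (u ++ b' :: y) n u.length m A a γ (32 * Λ / a) := by
  obtain ⟨d, hd'⟩ : ∃ d, d = u.length := ⟨_, rfl⟩
  have hdn : d < n + 1 := by simp at hx; omega
  obtain ⟨δ, hδ⟩ : ∃ δ : ℕ → ℂ, δ = fun j => hd ((u ++ b :: x).drop j) - hd ((u ++ b' :: y).drop j) :=
    ⟨_, rfl⟩
  have hδ0 : ∀ j, j < d → δ j = 0 := by
    intro j hj
    rw [hδ]
    simp only
    rw [List.drop_append_of_le_length (by omega), List.drop_append_of_le_length (by omega)]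
    cases h : u.drop j with
    | nil => simp at h; omega
    | cons c v => simp [hd]
  have hδd : ‖δ d‖ = 1 := by
    rw [hδ, hd']
    simp only [List.drop_left]
    cases b <;> cases b' <;> simp_all [hd]
  have hδ1 : ∀ j, ‖δ j‖ ≤ 1 := fun j => hδ ▸ norm_hd_sub _ _
  set P : Polynomial ℂ := ∑ j ∈ (Finset.range (n + 1)).filter (fun j => d ≤ j),
    Polynomial.monomial (j - d) (wt γ a d j * δ j) with hP
  have hev : ∀ θ : ℝ, P.eval (exp (θ * I)) =
      ∑ j ∈ Finset.range (n + 1), wt γ (a - θ * I) d j * δ j := by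
    intro θ
    rw [hP, Polynomial.eval_finsetSum, Finset.sum_filter]
    refine Finset.sum_congr rfl fun j _ => ?_
    split_ifs with hj
    · rw [Polynomial.eval_monomial, ← exp_nat_mul, mul_right_comm, wt, wt, ← exp_add]
      congr 2
      push_cast [Nat.cast_sub hj]
      ring
    · rw [hδ0 j (by omega), mul_zero]
  have hsup : ∀ θ : ℝ, ‖P.eval (exp (θ * I))‖ ≤ Real.exp Λ := by
    intro θ
    rw [hev]
    refine (norm_sum_le _ _).trans ?_
    have h1 : ∀ j ∈ Finset.range (n + 1), ‖wt γ (a - θ * I) d j * δ j‖ ≤ 1 := by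
      intro j _
      rcases lt_or_ge j d with hj | hj
      · rw [hδ0 j hj]; simp
      · rw [norm_mul]
        refine mul_le_one₀ ?_ (norm_nonneg _) (hδ1 j)
        rw [wt, Complex.norm_exp, Real.exp_le_one_iff]
        have hj' : (0 : ℝ) ≤ (j : ℝ) - d := by rw [sub_nonneg]; exact_mod_cast hj
        simp only [sub_re, ofReal_re, mul_re, I_re, I_im, ofReal_im, mul_zero, sub_zero]
        have := mul_nonneg ha0.le hj'
        have := mul_nonneg hγ (sq_nonneg ((j : ℝ) - d))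
        linarith
    refine (Finset.sum_le_card_nsmul _ _ _ h1).trans ?_
    simpa using hn
  have hlow : Real.exp Λ * Real.exp (-Λ) ≤ ‖P.eval 0‖ := by
    rw [← Real.exp_add, add_neg_cancel, Real.exp_zero, hP, Polynomial.eval_finsetSum,
      Finset.sum_eq_single d]
    · simp [wt, hδd]
    · intro j hj hjd
      rw [Finset.mem_filter] at hj
      rw [Polynomial.eval_monomial, zero_pow (by omega), mul_zero]
    · intro h; exact absurd (by simp [hdn]) h
  have hbad := bad_set P 0 (by simp) (Real.exp Λ) Λ a 1 (32 * Λ / a)⁻¹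
    (Real.exp_pos _) (by positivity) (by linarith [Real.pi_gt_three]) hsup hlow
    (fun θ _ => by simp [poissonKernel_def, norm_exp_ofReal_mul_I])
  obtain ⟨θ, hθ, hθB, -⟩ := exists_avoid {θ : ℝ | θ ∈ Icc (-a) a ∧
      ‖P.eval (exp (θ * I))‖ < Real.exp Λ * Real.exp (-(32 * Λ / a)⁻¹⁻¹)}
    (ne_top_of_le_ne_top (by simp) (measure_mono (fun θ h => h.1))) (-a) (2 * a) 0 0
    (by
      have e : (32 * Λ / a)⁻¹ * Λ = a / 32 := by field_simp
      rw [e, mul_one] at hbad
      nlinarith [Real.pi_lt_d2])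
  have hθ' : θ ∈ Icc (-a) a := ⟨hθ.1, by linarith [hθ.2]⟩
  simp only [mem_ofPred_eq, not_and, not_lt, inv_inv] at hθB
  have h1 := hθB hθ'
  rw [hev] at h1
  refine ⟨0, 1, hd, a - θ * I, ⟨by simp [hd], fun c => Obs.const _ _ (if c then 1 else 0) (by cases c <;> simp)⟩,
    le_rfl, ?_, by simp, ?_, ?_⟩
  · have h2 : 32 * Λ ≤ 32 * Λ / a := by rw [le_div_iff₀ ha0]; nlinarith
    have h3 : (6 : ℝ) ≤ Real.exp (31 * Λ) := by linarith [Real.add_one_le_exp (31 * Λ)]
    calc 6 * ((n : ℝ) + 1) * (1 * (4 * (n + 1)) ^ 0) = 6 * (n + 1) := by ring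
      _ ≤ Real.exp (31 * Λ) * Real.exp Λ := by gcongr
      _ ≤ _ := by rw [← Real.exp_add, Real.exp_le_exp]; linarith
  · simp only [sub_im, ofReal_im, mul_im, ofReal_re, I_im, I_re, mul_one, mul_zero, add_zero,
      zero_sub, abs_neg]
    exact abs_le.2 ⟨by linarith [hθ'.1], by linarith [hθ'.2]⟩
  · rw [← hd']
    refine le_trans (le_mul_of_one_le_left (Real.exp_pos _).le
      (Real.one_le_exp (by linarith))) (h1.trans (le_of_eq ?_))
    rw [hδ]

theorem iterate (u x y : List Bool) (b b' : Bool) (hb : b ≠ b') (n : ℕ)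
    (hx : (u ++ b :: x).length = n) (hy : (u ++ b' :: y).length = n) (p τ Λ : ℝ) (J : ℕ)
    (hp0 : 0 < p) (hp1 : p ≤ 1) (hτ : 16 ≤ τ) (hΛ : 1 ≤ Λ) (hn : (n : ℝ) + 1 ≤ Real.exp Λ)
    (hJ : n * (Real.exp (-(τ * 2 ^ J)) / (2 / p * 4 ^ J)) = 1) :
    Inv (u ++ b :: x) (u ++ b' :: y) n u.length (2 / p) p (1 / n) 0
      ((2 ^ 63) ^ J * (32 * Λ * (2 / p * 4 ^ J) * Real.exp τ)) := by
  obtain ⟨M, hM⟩ : ∃ M : ℝ, M = 2 / p * 4 ^ J := ⟨_, rfl⟩
  rw [← hM] at hJ ⊢
  have h4J : (1 : ℝ) ≤ 4 ^ J := one_le_pow₀ (by norm_num)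
  have h2p : 2 ≤ 2 / p := by rw [le_div_iff₀ hp0]; linarith
  have hM1 : 1 ≤ M := by rw [hM]; nlinarith
  obtain ⟨a, ha⟩ : ∃ a : ℕ → ℝ, a = fun l => Real.exp (-(τ * 2 ^ l)) / M := ⟨_, rfl⟩
  obtain ⟨L, hL⟩ : ∃ L : ℕ → ℝ, L = fun l => (2 ^ 63) ^ l * (32 * Λ / a 0) := ⟨_, rfl⟩
  obtain ⟨γ, hγ⟩ : ∃ γ : ℕ → ℝ, γ = fun l =>
    if l < J then a (l + 1) ^ 2 / (12 * (2700000 * L l)) else 0 := ⟨_, rfl⟩
  have ha0 : ∀ l, 0 < a l := fun l => by rw [ha]; positivity
  have hsmall : ∀ l : ℕ, Real.exp (-(τ * 2 ^ l)) ≤ 1 / 2880000 := by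
    intro l
    have h1 : (1 : ℝ) ≤ 2 ^ l := one_le_pow₀ (by norm_num)
    have h2 : Real.exp (-(τ * 2 ^ l)) ≤ Real.exp (-1) ^ 16 := by
      rw [← Real.exp_nat_mul, Real.exp_le_exp]; push_cast; nlinarith
    have h3 : Real.exp (-1) ^ 16 ≤ 0.3678794412 ^ 16 := by
      gcongr; exact Real.exp_neg_one_lt_d9.le
    exact h2.trans (h3.trans (by norm_num))
  have hsq : ∀ l, a (l + 1) = M * a l ^ 2 := by
    intro l
    rw [ha]
    simp only
    rw [div_pow, ← Real.exp_nat_mul]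
    field_simp
    congr 1; push_cast; ring
  have hMa : ∀ l, M * a l ≤ 1 / 2880000 := fun l => by
    rw [ha]; simp only; rw [mul_div_cancel₀ _ (by linarith)]; exact hsmall l
  have hdec : ∀ l, 2880000 * a (l + 1) ≤ a l := fun l => by
    rw [hsq]; nlinarith [hMa l, ha0 l]
  have ha1 : ∀ l, 320000 * a l ≤ 1 := fun l => by nlinarith [hMa l, ha0 l]
  have hanti : Antitone a := antitone_nat_of_succ_le fun l => by linarith [hdec l, ha0 (l + 1)]
  have hL0 : 1 ≤ 32 * Λ / a 0 := by rw [le_div_iff₀ (ha0 0)]; linarith [ha1 0, ha0 0]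
  have hL1 : ∀ l, 1 ≤ L l := fun l => by
    rw [hL]; exact one_le_mul_of_one_le_of_one_le (one_le_pow₀ (by norm_num)) hL0
  have hLs : ∀ l, L (l + 1) = 2 ^ 63 * L l := fun l => by rw [hL]; simp only; ring
  have hγ0 : ∀ l, 0 ≤ γ l := fun l => by
    rw [hγ]; simp only; have := hL1 l; split_ifs <;> positivity
  have haJ : a J = 1 / n := by
    have : (n : ℝ) ≠ 0 := by rintro h; rw [h] at hJ; simp at hJ
    rw [ha, eq_div_iff this, mul_comm]; exact hJ
  have key : ∀ l, l ≤ J → Inv (u ++ b :: x) (u ++ b' :: y) n u.length (M / 4 ^ l)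
      (4 ^ l * (p / 4 ^ J)) (a l) (γ l) (L l) := by
    intro l
    induction l with
    | zero =>
      intro _
      have := base u x y b b' hb n hx (M / 4 ^ 0) (4 ^ 0 * (p / 4 ^ J)) (a 0) (γ 0) Λ (ha0 0)
        (by linarith [ha1 0, ha0 0]) (hγ0 0) hΛ hn
      simpa only [hL, pow_zero, one_mul] using this
    | succ l ih =>
      intro hl
      have hl' : l < J := by omega
      have h4 : (1 : ℝ) ≤ 4 ^ l := one_le_pow₀ (by norm_num)
      have hγl : γ l = a (l + 1) ^ 2 / (12 * (2700000 * L l)) := by rw [hγ]; simp [hl']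
      have hLl := hL1 l
      have := step u (b :: x) (b' :: y) n hx hy _ _ _ (a (l + 1)) _ (γ (l + 1)) _ hLl
        (by positivity) (ha0 _) (hdec l) (ha1 l) ?_ ?_ (by rw [hγl]; have := ha0 (l + 1); positivity)
        (hγ0 _) ?_ (by rw [hγl]; field_simp) ?_ (ih hl'.le)
      · rw [hLs, pow_succ (4 : ℝ), ← div_div]
        convert this using 1; ring
      · have h5 : M * (p / 4 ^ J) = 2 := by rw [hM]; field_simp
        have h6 : 320000 * a l ≤ p / 4 ^ J := by
          refine le_of_mul_le_mul_left ?_ (by linarith : 0 < M)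
          rw [h5]; nlinarith [hMa l]
        exact h6.trans (le_mul_of_one_le_left (by positivity) h4)
      · rw [hsq]
        have : M / 4 ^ l ≤ M := div_le_self (by linarith) h4
        nlinarith [mul_le_mul_of_nonneg_right this (sq_nonneg (a l)),
          mul_nonneg (by linarith : 0 ≤ M) (sq_nonneg (a l))]
      · rw [hγl, hγ]
        simp only
        split_ifs
        · rw [hLs, div_div]
          have := hanti (Nat.le_succ (l + 1))
          have := ha0 (l + 1 + 1)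
          exact div_le_div₀ (by positivity) (by gcongr) (by positivity) (by linarith)
        · positivity
      · have h5 := hanti hl
        rw [haJ] at h5
        have : (0 : ℝ) < n := by
          have := ha0 J
          rw [haJ] at this; simpa using this
        rw [div_le_iff₀ this] at h5
        linarith
  have := key J le_rfl
  rw [haJ] at this
  convert this using 1
  · rw [hM]; field_simp
  · field_simp
  · rw [hγ]; simp
  · rw [hL, ha]; simp only [pow_zero, mul_one, Real.exp_neg]; field_simp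

theorem reg_trace {p : ℝ} (hp0 : 0 < p) (hp1 : p ≤ 1) {σ : ℂ} (h : σ ∈ Reg 0 (2 / p) p) :
    ‖exp (-σ) - ((1 - p : ℝ) : ℂ)‖ ≤ p := by
  obtain ⟨h1, h2, h3⟩ := h
  obtain ⟨r, hr⟩ : ∃ r, r = Real.exp (-σ.re) := ⟨_, rfl⟩
  have r1 : 1 - p ≤ r := by rw [hr]; linarith [Real.add_one_le_exp (-σ.re)]
  have r2 : r * (1 + σ.re) ≤ 1 := by
    rw [hr, Real.exp_neg, inv_mul_le_iff₀ (Real.exp_pos _)]; linarith [Real.add_one_le_exp σ.re]
  have r0 : 0 < r := hr ▸ Real.exp_pos _
  have r3 : r ≤ 1 := by nlinarith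
  have r4 : σ.re / 2 ≤ 1 - r := by nlinarith
  have t1 : 2 * σ.im ^ 2 ≤ p * σ.re := by
    rw [div_mul_eq_mul_div, div_le_iff₀ hp0] at h3; linarith
  have c1 := Real.one_sub_sq_div_two_le_cos (x := σ.im)
  have c2 := Real.sin_sq_add_cos_sq σ.im
  apply abs_le_of_sq_le_sq' _ hp0.le |>.2
  rw [Complex.sq_norm, normSq_apply]
  simp only [sub_re, sub_im, exp_re, exp_im, neg_re, neg_im, ofReal_re, ofReal_im, sub_zero,
    Real.cos_neg, Real.sin_neg, ← hr]
  have e : (r * Real.cos σ.im - (1 - p)) * (r * Real.cos σ.im - (1 - p)) +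
      r * -Real.sin σ.im * (r * -Real.sin σ.im) =
      (r - (1 - p)) ^ 2 + 2 * (r * (1 - p)) * (1 - Real.cos σ.im) := by
    linear_combination r ^ 2 * c2
  rw [e]
  have q1 : r * (1 - p) ≤ 1 := mul_le_one₀ r3 (by linarith) (by linarith)
  have q2 : 2 * (r * (1 - p)) * (1 - Real.cos σ.im) ≤ 2 * 1 * (σ.im ^ 2 / 2) := by
    have := Real.cos_le_one σ.im
    gcongr; linarith
  have q3 : σ.re / 2 * p ≤ (1 - r) * (p + (r - (1 - p))) := by gcongr; linarith
  nlinarith

theorem final (x y : List Bool) (n d : ℕ) (hd : d ≤ n) (hx : x.length = n) (hy : y.length = n)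
    (p Λ : ℝ) (hp0 : 0 < p) (hp1 : p ≤ 1) (hn : 162 ≤ p * n)
    (h : Inv x y n d (2 / p) p (1 / n) 0 Λ) :
    ∃ f : List Bool → ℂ, (∀ t : List Bool, t.length ≤ n → ‖f t‖ ≤ 1) ∧
      Real.exp (-(5 * Λ / p)) ≤ ‖Ex (1 - p) f x - Ex (1 - p) f y‖ := by
  obtain ⟨k, c, F, σ, hF, hc, hE, hre, him, hlow⟩ := h
  have hn0 : (0 : ℝ) < n := by nlinarith
  have hσ : σ ∈ Reg 0 (2 / p) p := by
    refine ⟨by rw [hre]; positivity, by rw [hre, div_le_iff₀ hn0]; linarith, ?_⟩
    have h1 : σ.im ^ 2 ≤ (9 * (1 / n)) ^ 2 := sq_le_sq' (abs_le.1 him).1 (abs_le.1 him).2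
    rw [hre]
    calc _ ≤ 2 / p * (9 * (1 / n)) ^ 2 := by gcongr
      _ = 162 / (p * n) * (1 / n) := by field_simp; norm_num
      _ ≤ _ := mul_le_of_le_one_left (by positivity) (by rw [div_le_one (by positivity)]; exact hn)
  obtain ⟨f, hf1, hf2⟩ := ((hF.subset (Reg_mono (by positivity) le_rfl le_rfl)).nsum hσ).trace
    (q := 1 - p) (by linarith) (by linarith)
    (fun σ h => by simpa only [sub_sub_cancel] using reg_trace hp0 hp1 h)
  rw [sub_sub_cancel] at hf1
  have hK : (1 : ℝ) ≤ (4 * (n + 1)) ^ k := one_le_pow₀ (by linarith)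
  have hcK : 1 ≤ c * (4 * ((n : ℝ) + 1)) ^ k := one_le_mul_of_one_le_of_one_le hc hK
  have hk : (k : ℝ) + 1 ≤ Λ := by
    rw [← Real.exp_le_exp]
    refine le_trans ?_ hE
    have h1 : Real.exp (k + 1) = Real.exp 1 * Real.exp 1 ^ k := by
      rw [← Real.exp_nat_mul, ← Real.exp_add]; congr 1; ring
    have h2 := Real.exp_one_lt_d9
    rw [h1]
    refine mul_le_mul (by linarith) (le_trans ?_ (le_mul_of_one_le_left (by positivity) hc))
      (by positivity) (by positivity)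
    gcongr; linarith
  have hΛ : 1 ≤ Λ := by linarith [Nat.cast_nonneg (α := ℝ) k]
  have hΛp : Λ ≤ Λ / p := by rw [le_div_iff₀ hp0]; nlinarith
  refine ⟨fun t => (Real.exp (-(2 * Λ / p)) : ℝ) * f t + 0 * f t, fun t ht => ?_, ?_⟩
  · simp only [zero_mul, add_zero, norm_mul, Complex.norm_real, Real.norm_eq_abs,
      abs_of_pos (Real.exp_pos _)]
    rw [Real.exp_neg, inv_mul_le_iff₀ (Real.exp_pos _), mul_one]
    refine (hf1 t).trans ?_
    have ht' : (t.length : ℝ) ≤ n := by exact_mod_cast ht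
    have h1 : 1 / p ≤ Real.exp (1 / p) := by linarith [Real.add_one_le_exp (1 / p)]
    calc c * ((1 + t.length) / p) ^ (k + 1) ≤ c * ((n + 1) * Real.exp (1 / p)) ^ (k + 1) := by
          gcongr
          rw [div_eq_mul_one_div]
          exact mul_le_mul (by linarith) h1 (by positivity) (by positivity)
      _ = (n + 1) * (c * (n + 1) ^ k) * Real.exp ((k + 1) / p) := by
          rw [mul_pow, ← Real.exp_nat_mul]; push_cast; ring_nf
      _ ≤ 6 * (n + 1) * (c * (4 * (n + 1)) ^ k) * Real.exp (Λ / p) := by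
          have z1 : (n : ℝ) + 1 ≤ 6 * (n + 1) := by linarith
          have z2 : (n : ℝ) + 1 ≤ 4 * (n + 1) := by linarith
          gcongr
      _ ≤ Real.exp (Λ / p) * Real.exp (Λ / p) := by
          gcongr; exact hE.trans (Real.exp_le_exp.2 hΛp)
      _ = _ := by rw [← Real.exp_add]; congr 1; ring
  · rw [Ex_lin, Ex_lin, ← hf2, ← hf2, zero_mul, zero_mul, add_zero, add_zero, ← mul_sub, norm_mul,
      Complex.norm_real, Real.norm_eq_abs, abs_of_pos (Real.exp_pos _), Nsum_eq, Nsum_eq, hx, hy,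
      ← Finset.sum_sub_distrib]
    have e : ∑ j ∈ Finset.range (n + 1), wt 0 σ d j * (F (x.drop j) - F (y.drop j)) =
        exp (σ * d) * ∑ j ∈ Finset.range (n + 1),
          (exp (-σ * j) * F (x.drop j) - exp (-σ * j) * F (y.drop j)) := by
      rw [Finset.mul_sum]
      refine Finset.sum_congr rfl fun j _ => ?_
      rw [← mul_sub, ← mul_assoc, wt, ← exp_add]
      congr 2; push_cast; ring
    rw [e, norm_mul, Complex.norm_exp] at hlow
    have h1 : (σ * d).re ≤ 1 := by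
      have : (d : ℝ) ≤ n := by exact_mod_cast hd
      simp only [mul_re, natCast_re, natCast_im, mul_zero, sub_zero, hre]
      rw [div_mul_eq_mul_div, div_le_one hn0]; linarith
    rw [← inv_mul_le_iff₀ (Real.exp_pos _), ← Real.exp_neg, ← Real.exp_add] at hlow
    refine le_trans ?_ (mul_le_mul_of_nonneg_left hlow (Real.exp_pos _).le)
    rw [← Real.exp_add, Real.exp_le_exp]
    have : 5 * Λ / p = 2 * Λ / p + 3 * (Λ / p) := by ring
    linarith

end Vale.Agent.P321
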