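import Mathlib

/-! The ordered monoid algebra of finitely supported signed measures on binary words. -/

namespace Vale.Agent.P321.LB

open MonoidAlgebra

abbrev W := FreeMonoid Bool
abbrev A := MonoidAlgebra ℝ W

noncomputable instance : Lattice A := MonoidAlgebra.coeffEquiv.lattice

theorem le_def {a b : A} : a ≤ b ↔ ∀ t, a.coeff t ≤ b.coeff t := Iff.rfl

theorem coeff_sup (a b : A) (t : W) : (a ⊔ b).coeff t = max (a.coeff t) (b.coeff t) :=
  Finsupp.sup_apply _ _ _

theorem coeff_inf (a b : A) (t : W) : (a ⊓ b).coeff t = min (a.coeff t) (b.coeff t) :=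
  Finsupp.inf_apply _ _ _

theorem coeff_abs (a : A) (t : W) : |a|.coeff t = |a.coeff t| := by
  rw [abs, coeff_sup]; rfl

instance : IsOrderedAddMonoid A where
  add_le_add_left a b h c := le_def.2 fun t => by
    simpa using le_def.1 h t

instance : ZeroLEOneClass A where
  zero_le_one := le_def.2 fun t => by
    classical
    simp only [coeff_zero, one_def, coeff_single, Finsupp.coe_zero, Pi.zero_apply,
      Finsupp.single_apply]
    split_ifs <;> simp

theorem sum_mul_nonneg {ι : Type*} (s : Finset ι) (a b : ι → A)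
    (h : ∀ x y, 0 ≤ ∑ l ∈ s, (a l).coeff x * (b l).coeff y) : 0 ≤ ∑ l ∈ s, a l * b l := by
  classical
  refine le_def.2 fun w => ?_
  set S := s.biUnion fun l => (a l).coeff.support
  set T := s.biUnion fun l => (b l).coeff.support
  have h1 : ∀ l ∈ s, (a l * b l).coeff w =
      ∑ x ∈ S, ∑ y ∈ T, if x * y = w then (a l).coeff x * (b l).coeff y else 0 := by
    intro l hl
    rw [coeff_mul, Finsupp.sum_of_support_subset _
      (Finset.subset_biUnion_of_mem (fun l => (a l).coeff.support) hl) _ (by simp)]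
    refine Finset.sum_congr rfl fun x _ => ?_
    rw [Finsupp.sum_of_support_subset _
      (Finset.subset_biUnion_of_mem (fun l => (b l).coeff.support) hl) _ (by simp)]
  simp only [coeff_zero, Finsupp.coe_zero, Pi.zero_apply, coeff_sum, Finsupp.coe_finsetSum,
    Finset.sum_apply]
  rw [Finset.sum_congr rfl h1, Finset.sum_comm]
  refine Finset.sum_nonneg fun x _ => ?_
  rw [Finset.sum_comm]
  refine Finset.sum_nonneg fun y _ => ?_
  split_ifs
  · exact h x y
  · simp

instance : IsOrderedRing A := IsOrderedRing.of_mul_nonneg fun a b ha hb => by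
  simpa using sum_mul_nonneg {()} (fun _ => a) (fun _ => b) fun x y => by
    simpa using mul_nonneg (le_def.1 ha x) (le_def.1 hb y)

instance : PosSMulMono ℝ A where
  smul_le_smul_of_nonneg_left _ hc _ _ h := le_def.2 fun t =>
    mul_le_mul_of_nonneg_left (le_def.1 h t) hc

instance : SMulPosMono ℝ A where
  smul_le_smul_of_nonneg_right _ ha _ _ h := le_def.2 fun t =>
    mul_le_mul_of_nonneg_right h (le_def.1 ha t)

theorem abs_smul' (c : ℝ) (a : A) : |c • a| = |c| • |a| := by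
  ext t; simp [coeff_abs, abs_mul]

theorem abs_mul_le' (a b : A) : |a * b| ≤ |a| * |b| := by
  have h : ∀ a b : A, a * b ≤ |a| * |b| := fun a b => by
    have h1 := mul_nonneg (sub_nonneg.2 (le_abs_self a)) (sub_nonneg.2 (neg_le_abs b))
    have h2 := mul_nonneg (sub_nonneg.2 (neg_le_abs a)) (sub_nonneg.2 (le_abs_self b))
    have h3 := smul_nonneg (by norm_num : (0 : ℝ) ≤ 1 / 2) (add_nonneg h1 h2)
    rw [← sub_nonneg]
    convert h3 using 1
    simp only [sub_mul, mul_sub, neg_mul, mul_neg]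
    module
  refine abs_le'.2 ⟨h a b, ?_⟩
  simpa using h (-a) b

/-- total mass -/
noncomputable def ms : A →ₐ[ℝ] ℝ := MonoidAlgebra.lift ℝ ℝ W 1

theorem ms_eq (a : A) : ms a = a.coeff.sum fun _ c => c := by
  simp [ms, lift_apply]

theorem ms_nonneg {a : A} (h : 0 ≤ a) : 0 ≤ ms a := by
  rw [ms_eq]; exact Finset.sum_nonneg fun t _ => le_def.1 h t

theorem ms_mono {a b : A} (h : a ≤ b) : ms a ≤ ms b := by
  have := ms_nonneg (sub_nonneg.2 h)
  rwa [map_sub, sub_nonneg] at this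

/-- total variation norm -/
noncomputable def nr (a : A) : ℝ := ms |a|

theorem nr_nonneg (a : A) : 0 ≤ nr a := ms_nonneg (abs_nonneg a)
theorem nr_le {a b : A} (h : |a| ≤ b) : nr a ≤ ms b := ms_mono h
theorem nr_of_nonneg {a : A} (h : 0 ≤ a) : nr a = ms a := by rw [nr, abs_of_nonneg h]
theorem nr_zero : nr 0 = 0 := by simp [nr]
theorem nr_neg (a : A) : nr (-a) = nr a := by simp [nr]
theorem nr_sub_comm (a b : A) : nr (a - b) = nr (b - a) := by rw [nr, nr, abs_sub_comm]
theorem nr_add_le (a b : A) : nr (a + b) ≤ nr a + nr b := by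
  simpa only [map_add, nr] using nr_le (abs_add_le a b)
theorem nr_sub_le (a b : A) : nr (a - b) ≤ nr a + nr b := by
  simpa only [sub_eq_add_neg, nr_neg] using nr_add_le a (-b)
theorem nr_mul_le (a b : A) : nr (a * b) ≤ nr a * nr b := by
  simpa only [map_mul, nr] using nr_le (abs_mul_le' a b)
theorem nr_smul (c : ℝ) (a : A) : nr (c • a) = |c| * nr a := by
  rw [nr, abs_smul', map_smul, smul_eq_mul, nr]
theorem abs_ms_le (a : A) : |ms a| ≤ nr a :=
  abs_le'.2 ⟨ms_mono (le_abs_self a), by simpa [nr] using ms_mono (neg_le_abs a)⟩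
theorem abs_sum_le {ι : Type*} (s : Finset ι) (a : ι → A) : |∑ i ∈ s, a i| ≤ ∑ i ∈ s, |a i| :=
  abs_le'.2 ⟨Finset.sum_le_sum fun _ _ => le_abs_self _, by
    rw [← Finset.sum_neg_distrib]; exact Finset.sum_le_sum fun _ _ => neg_le_abs _⟩
theorem nr_sum_le {ι : Type*} (s : Finset ι) (a : ι → A) :
    nr (∑ i ∈ s, a i) ≤ ∑ i ∈ s, nr (a i) := by
  simpa only [map_sum, nr] using nr_le (abs_sum_le s a)

/-- probability elements -/
structure Pb (P : A) : Prop where
  nn : 0 ≤ P
  ms : ms P = 1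

theorem Pb.one : Pb 1 := ⟨zero_le_one, map_one _⟩
theorem Pb.mul {P Q : A} (h : Pb P) (h' : Pb Q) : Pb (P * Q) :=
  ⟨mul_nonneg h.nn h'.nn, by rw [map_mul, h.ms, h'.ms, mul_one]⟩
theorem Pb.pow {P : A} (h : Pb P) (n : ℕ) : Pb (P ^ n) :=
  ⟨pow_nonneg h.nn n, by rw [map_pow, h.ms, one_pow]⟩
theorem Pb.nr {P : A} (h : Pb P) : nr P = 1 := by rw [nr_of_nonneg h.nn, h.ms]
theorem Pb.ms_smul {P : A} (h : Pb P) (c : ℝ) : LB.ms (c • P) = c := by
  rw [map_smul, h.ms, smul_eq_mul, mul_one]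
theorem Pb.nr_mul_le {P : A} (h : Pb P) (a : A) : LB.nr (P * a) ≤ LB.nr a := by
  simpa only [h.nr, one_mul] using LB.nr_mul_le P a
theorem Pb.nr_mul_le' {P : A} (h : Pb P) (a : A) : LB.nr (a * P) ≤ LB.nr a := by
  simpa only [h.nr, mul_one] using LB.nr_mul_le a P

/-- pointwise domination up to a small relative error -/
def D (x : ℝ) (e P : A) : Prop :=
  0 ≤ x ∧ 0 ≤ P ∧ ∃ B, 0 ≤ B ∧ ms B ≤ (Real.exp x - 1) * ms P ∧ |e| ≤ P + B

namespace D

variable {x y : ℝ} {e f P Q : A}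

theorem of_abs_le (h : |e| ≤ P) : D 0 e P :=
  ⟨le_rfl, (abs_nonneg e).trans h, 0, le_rfl, by simp, by simpa using h⟩

theorem of_le (h0 : 0 ≤ e) (h : e ≤ P) : D 0 e P := of_abs_le (by rwa [abs_of_nonneg h0])

theorem refl (h : 0 ≤ P) : D 0 P P := of_le h le_rfl

theorem mono (h : D x e P) (hx : x ≤ y) (hP : P ≤ Q) : D y e Q := by
  obtain ⟨h0, h1, B, h2, h3, h4⟩ := h
  refine ⟨h0.trans hx, h1.trans hP, B, h2, h3.trans ?_, h4.trans (by gcongr)⟩
  have := ms_nonneg h1
  have := ms_mono hP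
  have := Real.one_le_exp h0
  gcongr
  linarith [Real.exp_le_exp.2 hx]

theorem mono_x (h : D x e P) (hx : x ≤ y) : D y e P := h.mono hx le_rfl

theorem mono_c {c c' : ℝ} (h : D x e (c • P)) (hP : 0 ≤ P) (hx : x ≤ y) (hc : c ≤ c') :
    D y e (c' • P) := h.mono hx (smul_le_smul_of_nonneg_right hc hP)

theorem congr {e' P' : A} (h : D x e P) (h1 : e = e') (h2 : P = P') : D x e' P' := h1 ▸ h2 ▸ h

theorem add (h : D x e P) (h' : D x f Q) : D x (e + f) (P + Q) := by
  obtain ⟨h0, h1, B, h2, h3, h4⟩ := h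
  obtain ⟨-, h1', B', h2', h3', h4'⟩ := h'
  refine ⟨h0, add_nonneg h1 h1', B + B', add_nonneg h2 h2', ?_, ?_⟩
  · rw [map_add, map_add]; linarith
  · exact (abs_add_le _ _).trans ((add_le_add h4 h4').trans (le_of_eq (by abel)))

theorem neg (h : D x e P) : D x (-e) P := by simpa [D] using h

theorem sub (h : D x e P) (h' : D x f Q) : D x (e - f) (P + Q) := by
  simpa only [sub_eq_add_neg] using h.add h'.neg

theorem zero (hx : 0 ≤ x) (hP : 0 ≤ P) : D x 0 P := (of_le le_rfl hP).mono_x hx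

theorem sum {ι : Type*} (s : Finset ι) {e P : ι → A} (hx : 0 ≤ x) (h : ∀ i ∈ s, D x (e i) (P i)) :
    D x (∑ i ∈ s, e i) (∑ i ∈ s, P i) := by
  classical
  induction s using Finset.induction_on with
  | empty => simpa using zero hx le_rfl
  | insert a s ha ih =>
    rw [Finset.sum_insert ha, Finset.sum_insert ha]
    exact (h a (by simp)).add (ih fun i hi => h i (by simp [hi]))

theorem sum_c {ι : Type*} (s : Finset ι) {e : ι → A} {c : ℝ} (hx : 0 ≤ x)
    (h : ∀ i ∈ s, D x (e i) (c • P)) : D x (∑ i ∈ s, e i) ((s.card * c) • P) := by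
  convert sum s hx h using 1
  rw [Finset.sum_const, mul_smul, Nat.cast_smul_eq_nsmul]

theorem smul (h : D x e P) (c : ℝ) : D x (c • e) (|c| • P) := by
  obtain ⟨h0, h1, B, h2, h3, h4⟩ := h
  refine ⟨h0, smul_nonneg (abs_nonneg c) h1, |c| • B, smul_nonneg (abs_nonneg c) h2, ?_, ?_⟩
  · rw [map_smul, map_smul, smul_eq_mul, smul_eq_mul, mul_left_comm]; gcongr
  · rw [abs_smul', ← smul_add]; exact smul_le_smul_of_nonneg_left h4 (abs_nonneg c)

theorem smul_c {c c' : ℝ} (h : D x e (c' • P)) (hc : 0 ≤ c) : D x (c • e) ((c * c') • P) := by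
  simpa only [abs_of_nonneg hc, smul_smul] using h.smul c

theorem mul (h : D x e P) (h' : D y f Q) : D (x + y) (e * f) (P * Q) := by
  obtain ⟨h0, h1, B, h2, h3, h4⟩ := h
  obtain ⟨h0', h1', B', h2', h3', h4'⟩ := h'
  refine ⟨add_nonneg h0 h0', mul_nonneg h1 h1', P * B' + B * Q + B * B', by positivity, ?_, ?_⟩
  · have a1 := ms_nonneg h1
    have a2 := ms_nonneg h1'
    have a3 := ms_nonneg h2
    have a4 := ms_nonneg h2'
    simp only [map_add, map_mul, Real.exp_add]
    nlinarith [mul_le_mul h3 h3' a4 (a3.trans h3), mul_le_mul_of_nonneg_left h3' a1,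
      mul_le_mul_of_nonneg_right h3 a2]
  · refine (abs_mul_le' _ _).trans ((mul_le_mul h4 h4' (abs_nonneg _) (by positivity)).trans
      (le_of_eq (by noncomm_ring)))

theorem mul_c {c c' : ℝ} (h : D x e (c • P)) (h' : D y f (c' • Q)) :
    D (x + y) (e * f) ((c * c') • (P * Q)) := by
  simpa only [smul_mul_smul_comm] using h.mul h'

theorem lmul {c : ℝ} (h : D x e (c • P)) (hQ : 0 ≤ Q) : D x (Q * e) (c • (Q * P)) := by
  simpa only [zero_add, mul_smul_comm] using (refl hQ).mul h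

theorem rmul {c : ℝ} (h : D x e (c • P)) (hQ : 0 ≤ Q) : D x (e * Q) (c • (P * Q)) := by
  simpa only [add_zero, smul_mul_assoc] using h.mul (refl hQ)

theorem trans (h : D x e P) (h' : D y P Q) : D (x + y) e Q := by
  obtain ⟨h0, h1, B, h2, h3, h4⟩ := h
  obtain ⟨h0', h1', B', h2', h3', h4'⟩ := h'
  rw [abs_of_nonneg h1] at h4'
  refine ⟨add_nonneg h0 h0', h1', B' + B, add_nonneg h2' h2, ?_,
    h4.trans (by rw [← add_assoc]; gcongr)⟩
  have a1 := ms_mono h4'
  have a2 := Real.one_le_exp h0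
  rw [map_add] at a1 ⊢
  rw [Real.exp_add]
  nlinarith [mul_le_mul_of_nonneg_left (a1.trans (add_le_add le_rfl h3')) (sub_nonneg.2 a2)]

theorem trans_c {c c' : ℝ} (h : D x e (c • P)) (h' : D y P (c' • Q)) (hc : 0 ≤ c) :
    D (x + y) e ((c * c') • Q) := h.trans (h'.smul_c hc)

theorem nr_le (h : D x e P) : nr e ≤ Real.exp x * ms P := by
  obtain ⟨-, -, B, -, h3, h4⟩ := h
  have := LB.nr_le h4
  rw [map_add] at this; linarith

theorem approx (h : D x e P) (hy : 0 ≤ y) (h' : nr (f - e) ≤ y * ms P) : D (x + y) f P := by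
  obtain ⟨h0, h1, B, h2, h3, h4⟩ := h
  refine ⟨add_nonneg h0 hy, h1, B + |f - e|, add_nonneg h2 (abs_nonneg _), ?_, ?_⟩
  · have a1 := ms_nonneg h1
    have a2 := Real.one_le_exp h0
    have a3 := Real.add_one_le_exp y
    rw [map_add, Real.exp_add]
    rw [nr] at h'
    nlinarith [mul_le_mul_of_nonneg_left a3 (mul_nonneg (Real.exp_pos x).le a1),
      mul_le_mul_of_nonneg_left a2 (mul_nonneg hy a1)]
  · calc |f| = |e + (f - e)| := by congr 1; abel
      _ ≤ _ := (abs_add_le _ _).trans (by rw [← add_assoc]; gcongr)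

theorem of_nr (hP : 0 ≤ P) (hy : 0 ≤ y) (h' : nr f ≤ y * ms P) : D y f P := by
  simpa using (zero le_rfl hP).approx hy (f := f) (by simpa using h')

theorem clamp (h : D x e P) : ∃ e', |e'| ≤ P ∧ nr (e - e') ≤ (Real.exp x - 1) * ms P := by
  obtain ⟨-, h1, B, h2, h3, h4⟩ := h
  refine ⟨(e ⊓ P) ⊔ (-P), le_def.2 fun t => ?_, (LB.nr_le (le_def.2 fun t => ?_)).trans h3⟩
  all_goals
    have a1 := le_def.1 h1 t
    have a2 := le_def.1 h2 t
    have a3 := le_def.1 h4 t
    simp only [coeff_abs, coeff_sup, coeff_inf, coeff_add, coeff_sub, coeff_neg, coeff_zero,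
      Finsupp.coe_add, Finsupp.coe_sub, Finsupp.coe_neg, Finsupp.coe_zero, Pi.add_apply,
      Pi.sub_apply, Pi.neg_apply, Pi.zero_apply, abs_le] at a1 a2 a3 ⊢
    simp only [max_def, min_def]
    split_ifs <;> constructor <;> linarith

theorem center {c : ℝ} (h : D x e (c • P)) (hP : Pb P) (he : ms e = 0) :
    ∃ e', |e'| ≤ (2 * c) • P ∧ ms e' = 0 ∧ nr (e - e') ≤ 2 * c * (Real.exp x - 1) := by
  obtain ⟨e', h1, h2⟩ := h.clamp
  rw [hP.ms_smul] at h2
  have a1 : |ms e'| ≤ c := (abs_ms_le e').trans ((LB.nr_le h1).trans (hP.ms_smul c).le)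
  have a2 : |ms e'| ≤ (Real.exp x - 1) * c := by
    have := abs_ms_le (e - e')
    rw [map_sub, he, zero_sub, abs_neg] at this
    exact this.trans h2
  refine ⟨e' + -(ms e') • P, ?_, by rw [map_add, hP.ms_smul]; ring, ?_⟩
  · refine (abs_add_le _ _).trans ?_
    rw [abs_smul', abs_neg, abs_of_nonneg hP.nn, two_mul, add_smul]
    exact add_le_add h1 (smul_le_smul_of_nonneg_right a1 hP.nn)
  · rw [← sub_sub]
    refine (nr_sub_le _ _).trans ?_
    rw [nr_smul, abs_neg, hP.nr]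
    linarith

/-- reverse comparison -/
theorem rev {c : ℝ} (h : D x (e - P) (c • P)) (hP : Pb P) (he : Pb e) (hc : c ≤ 1 / 2) :
    D x P ((2 : ℝ) • e) := by
  obtain ⟨h0, h1, B, h2, h3, h4⟩ := h
  rw [hP.ms_smul] at h3
  have a1 := Real.one_le_exp h0
  refine ⟨h0, smul_nonneg (by norm_num) he.nn, (2 : ℝ) • B, smul_nonneg (by norm_num) h2, ?_, ?_⟩
  · rw [map_smul, he.ms_smul, smul_eq_mul]; nlinarith
  · rw [abs_of_nonneg hP.nn]
    have a2 := (abs_le'.1 h4).2.trans (add_le_add (smul_le_smul_of_nonneg_right hc hP.nn) le_rfl)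
    have a3 := smul_nonneg (by norm_num : (0 : ℝ) ≤ 2) (sub_nonneg.2 a2)
    rw [← sub_nonneg]
    convert a3 using 1
    module

theorem of_sub {c : ℝ} (h : D x (e - P) (c • P)) (hP : 0 ≤ P) (hc : c ≤ 1) :
    D x e ((2 : ℝ) • P) := by
  have := (h.add ((refl hP).mono_x h.1)).mono le_rfl
    (add_le_add (smul_le_smul_of_nonneg_right hc hP) le_rfl)
  exact this.congr (by abel) (by module)

end D

end Vale.Agent.P321.LB
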