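import Mathlib
import Vale.Agent.P321.LBasic

/-! Head-tail structure and square-root cancellation. -/

namespace Vale.Agent.P321.LB

open MonoidAlgebra

/-- `E` is nearly a sum of products (mass zero head) * (tail) -/
def HT (x : ℝ) (E H Q : A) : Prop :=
  0 ≤ x ∧ 0 ≤ Q ∧ ∃ (ι : Type) (s : Finset ι) (e f : ι → A),
    (∀ l ∈ s, ms (e l) = 0 ∧ |e l| ≤ H) ∧ ∑ l ∈ s, |f l| ≤ Q ∧
      nr (E - ∑ l ∈ s, e l * f l) ≤ (Real.exp x - 1) * ms Q

theorem abs_fam_le {ι : Type} {s : Finset ι} {e f : ι → A} {H Q : A} (hH : 0 ≤ H)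
    (h1 : ∀ l ∈ s, ms (e l) = 0 ∧ |e l| ≤ H) (h2 : ∑ l ∈ s, |f l| ≤ Q) :
    |∑ l ∈ s, e l * f l| ≤ H * Q := by
  refine (abs_sum_le _ _).trans (le_trans ?_ (mul_le_mul_of_nonneg_left h2 hH))
  rw [Finset.mul_sum]
  exact Finset.sum_le_sum fun l hl => (abs_mul_le' _ _).trans
    (mul_le_mul_of_nonneg_right (h1 l hl).2 (abs_nonneg _))

namespace HT

variable {x y : ℝ} {E F H P Q : A}

theorem zero (hx : 0 ≤ x) (hQ : 0 ≤ Q) : HT x 0 H Q :=
  ⟨hx, hQ, Unit, ∅, 0, 0, by simp, by simpa using hQ, by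
    simpa [nr_zero] using mul_nonneg (sub_nonneg.2 (Real.one_le_exp hx)) (ms_nonneg hQ)⟩

theorem mono (h : HT x E H P) (hx : x ≤ y) (hP : P ≤ Q) : HT y E H Q := by
  obtain ⟨h0, h1, ι, s, e, f, h2, h3, h4⟩ := h
  refine ⟨h0.trans hx, h1.trans hP, ι, s, e, f, h2, h3.trans hP, h4.trans ?_⟩
  have := ms_nonneg h1
  have := ms_mono hP
  have := Real.one_le_exp h0
  gcongr
  linarith [Real.exp_le_exp.2 hx]

theorem mono_c {c c' : ℝ} (h : HT x E H (c • P)) (hP : 0 ≤ P) (hx : x ≤ y) (hc : c ≤ c') :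
    HT y E H (c' • P) := h.mono hx (smul_le_smul_of_nonneg_right hc hP)

theorem congr {E' Q' : A} (h : HT x E H Q) (h1 : E = E') (h2 : Q = Q') : HT x E' H Q' :=
  h1 ▸ h2 ▸ h

theorem add (h : HT x E H P) (h' : HT x F H Q) : HT x (E + F) H (P + Q) := by
  obtain ⟨h0, h1, ι, s, e, f, h2, h3, h4⟩ := h
  obtain ⟨-, h1', ι', s', e', f', h2', h3', h4'⟩ := h'
  refine ⟨h0, add_nonneg h1 h1', ι ⊕ ι', s.disjSum s', Sum.elim e e', Sum.elim f f', ?_, ?_, ?_⟩
  · rintro (l | l) hl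
    · exact h2 l (by simpa using hl)
    · exact h2' l (by simpa using hl)
  · simpa [Finset.sum_disjSum] using add_le_add h3 h3'
  · simp only [Finset.sum_disjSum, Sum.elim_inl, Sum.elim_inr, map_add]
    rw [add_sub_add_comm]
    linarith [nr_add_le (E - ∑ l ∈ s, e l * f l) (F - ∑ l ∈ s', e' l * f' l)]

theorem sum_c {ι : Type*} (s : Finset ι) {E : ι → A} {c : ℝ} (hx : 0 ≤ x)
    (h : ∀ i ∈ s, HT x (E i) H (c • P)) : HT x (∑ i ∈ s, E i) H ((s.card * c) • P) := by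
  classical
  induction s using Finset.induction_on with
  | empty => simpa using zero hx le_rfl
  | insert a s ha ih =>
    rw [Finset.sum_insert ha, Finset.card_insert_of_notMem ha]
    exact ((h a (by simp)).add (ih fun i hi => h i (by simp [hi]))).congr rfl
      (by push_cast; module)

theorem smul (h : HT x E H Q) (c : ℝ) : HT x (c • E) H (|c| • Q) := by
  obtain ⟨h0, h1, ι, s, e, f, h2, h3, h4⟩ := h
  refine ⟨h0, smul_nonneg (abs_nonneg c) h1, ι, s, e, fun l => c • f l, h2, ?_, ?_⟩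
  · simp only [abs_smul', ← Finset.smul_sum]
    exact smul_le_smul_of_nonneg_left h3 (abs_nonneg c)
  · simp only [mul_smul_comm, ← Finset.smul_sum, ← smul_sub, nr_smul, map_smul, smul_eq_mul]
    rw [mul_left_comm]; gcongr

theorem smul_c {c c' : ℝ} (h : HT x E H (c' • P)) (hc : 0 ≤ c) :
    HT x (c • E) H ((c * c') • P) := by
  simpa only [abs_of_nonneg hc, smul_smul] using h.smul c

theorem neg (h : HT x E H Q) : HT x (-E) H Q := by simpa using h.smul (-1)

theorem sub (h : HT x E H P) (h' : HT x F H Q) : HT x (E - F) H (P + Q) := by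
  simpa only [sub_eq_add_neg] using h.add h'.neg

theorem toD (h : HT x E H Q) (hH : Pb H) : D x E (H * Q) := by
  obtain ⟨h0, h1, ι, s, e, f, h2, h3, h4⟩ := h
  refine ⟨h0, mul_nonneg hH.nn h1, |E - ∑ l ∈ s, e l * f l|, abs_nonneg _, ?_, ?_⟩
  · rwa [map_mul, hH.ms, one_mul]
  · calc |E| = |∑ l ∈ s, e l * f l + (E - ∑ l ∈ s, e l * f l)| := by congr 1; abel
      _ ≤ _ := (abs_add_le _ _).trans (add_le_add (abs_fam_le hH.nn h2 h3) le_rfl)

theorem mul_right (h : HT x E H Q) (hH : Pb H) (h' : D y F P) :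
    HT (x + y) (E * F) H (Q * P) := by
  obtain ⟨h0, h1, ι, s, e, f, h2, h3, h4⟩ := h
  obtain ⟨F', g1, g2⟩ := h'.clamp
  refine ⟨add_nonneg h0 h'.1, mul_nonneg h1 h'.2.1, ι, s, e, fun l => f l * F', h2, ?_, ?_⟩
  · refine le_trans (Finset.sum_le_sum fun l _ => abs_mul_le' _ _) ?_
    rw [← Finset.sum_mul]
    exact mul_le_mul h3 g1 (abs_nonneg _) h1
  · have a1 := nr_le (abs_fam_le hH.nn h2 h3)
    rw [map_mul, hH.ms, one_mul] at a1
    obtain ⟨Z, hZ⟩ : ∃ Z, Z = ∑ l ∈ s, e l * f l := ⟨_, rfl⟩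
    have e1 : E * F - ∑ l ∈ s, e l * (f l * F') = (E - Z) * F + Z * (F - F') := by
      simp only [← mul_assoc, ← Finset.sum_mul, ← hZ]; noncomm_ring
    rw [← hZ] at a1 h4
    rw [e1, map_mul, Real.exp_add]
    have a2 := mul_le_mul h4 h'.nr_le (nr_nonneg _) ((nr_nonneg _).trans h4)
    have a3 := mul_le_mul a1 g2 (nr_nonneg _) (ms_nonneg h1)
    linarith [nr_add_le ((E - Z) * F) (Z * (F - F')), nr_mul_le (E - Z) F, nr_mul_le Z (F - F')]

theorem of_D {c : ℝ} (h : D x E (c • H)) (hH : Pb H) (hE : ms E = 0) :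
    HT x E H ((2 * c) • 1) := by
  obtain ⟨e', h1, h2, h3⟩ := h.center hH hE
  have hc : 0 ≤ 2 * c := by
    simpa only [hH.ms_smul] using ms_nonneg ((abs_nonneg _).trans h1)
  refine ⟨h.1, smul_nonneg hc zero_le_one, Unit, {()}, fun _ => (2 * c)⁻¹ • e',
    fun _ => (2 * c) • 1, fun _ _ => ⟨by simp [h2], ?_⟩, ?_, ?_⟩
  · rw [abs_smul', abs_of_nonneg (inv_nonneg.2 hc)]
    refine (smul_le_smul_of_nonneg_left h1 (inv_nonneg.2 hc)).trans ?_
    rw [smul_smul]
    simpa using smul_le_smul_of_nonneg_right (inv_mul_le_one (a := 2 * c)) hH.nn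
  · simp [abs_of_nonneg (smul_nonneg hc (zero_le_one (α := A)))]
  · have : (2 * c)⁻¹ • e' * (2 * c) • (1 : A) = e' := by
      rcases hc.eq_or_lt with h | h
      · rw [← h, zero_smul] at h1
        have : e' = 0 := le_antisymm ((le_abs_self _).trans h1)
          (neg_nonpos.1 ((neg_le_abs _).trans h1))
        simp [this]
      · rw [smul_mul_smul_comm, inv_mul_cancel₀ h.ne', mul_one, one_smul]
    rw [Finset.sum_singleton, this, Pb.one.ms_smul, mul_comm]
    exact h3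

theorem of_D_mul {c c' : ℝ} (h : D x E (c • H)) (hH : Pb H) (hE : ms E = 0)
    (h' : D y F (c' • Q)) : HT (x + y) (E * F) H ((2 * c * c') • Q) := by
  simpa only [smul_mul_smul_comm, one_mul] using (of_D h hH hE).mul_right hH h'

end HT

/-- pointwise reweighting -/
noncomputable def wtd (φ : W → ℝ) (a : A) : A :=
  ofCoeff (Finsupp.onFinset a.coeff.support (fun t => a.coeff t * φ t)
    (fun _ h => Finsupp.mem_support_iff.2 (left_ne_zero_of_mul h)))

@[simp] theorem coeff_wtd (φ : W → ℝ) (a : A) (t : W) : (wtd φ a).coeff t = a.coeff t * φ t := rfl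

/-- exponential moment bound in dual form -/
def Mg (Y Q : A) (m : ℝ) : Prop :=
  (∃ K : ℝ, |Y| ≤ K • Q) ∧ ∃ G, ms G ≤ m ∧ ∀ s : ℝ, Real.exp s • ((1 - s) • Q + Y) ≤ G

theorem mgf_pt (b z ε ρ σ : ℝ) (hb : 0 ≤ b) (hz : |z| ≤ ε * b) (h0 : 0 ≤ ε) (h1 : ε ≤ 1) :
    0 ≤ b * (Real.exp (ε ^ 2) * Real.exp ρ - Real.exp σ * (1 - σ + ρ)) +
      z * (Real.exp ρ - Real.exp σ) := by
  obtain ⟨φ, rfl, hφ⟩ : ∃ φ, z = φ * b ∧ |φ| ≤ ε := by
    rcases hb.eq_or_lt with h | h
    · exact ⟨0, by simpa [← h] using hz, by simpa using h0⟩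
    · exact ⟨z / b, by field_simp, by rwa [abs_div, abs_of_pos h, div_le_iff₀ h]⟩
  have a1 : Real.exp σ * (ρ + φ - σ + 1) ≤ Real.exp ρ * Real.exp φ := by
    calc _ ≤ Real.exp σ * Real.exp (ρ + φ - σ) := by gcongr; exact Real.add_one_le_exp _
      _ = _ := by rw [← Real.exp_add, ← Real.exp_add]; congr 1; ring
  have a2 := (abs_le.1 (Real.abs_exp_sub_one_sub_id_le (hφ.trans h1))).2
  have a3 : φ ^ 2 ≤ ε ^ 2 := sq_le_sq' (abs_le.1 hφ).1 (abs_le.1 hφ).2
  have a4 := Real.add_one_le_exp (ε ^ 2)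
  have a5 : Real.exp ρ * Real.exp φ ≤ Real.exp ρ * (Real.exp (ε ^ 2) + φ) := by gcongr; linarith
  nlinarith [mul_nonneg hb (sub_nonneg.2 (a1.trans a5))]

theorem Mg.step {Y Q H : A} {m ε : ℝ} (h : Mg Y Q m) (hH : Pb H) (hQ : 0 ≤ Q) (hε0 : 0 ≤ ε)
    (hε : ε ≤ 1)
    {ι : Type} {s : Finset ι} {e f : ι → A} (h1 : ∀ l ∈ s, ms (e l) = 0 ∧ |e l| ≤ H)
    (h2 : ∑ l ∈ s, |f l| ≤ ε • Q) :
    Mg (∑ l ∈ s, e l * f l + H * Y) (H * Q) (Real.exp (ε ^ 2) * m) := by
  obtain ⟨⟨K, hK⟩, G, hG, hs⟩ := h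
  obtain ⟨ρ, hρ⟩ : ∃ ρ : W → ℝ, ∀ t, Y.coeff t = ρ t * Q.coeff t := by
    refine ⟨fun t => Y.coeff t / Q.coeff t, fun t => ?_⟩
    by_cases h0 : Q.coeff t = 0
    · have := le_def.1 hK t
      rw [coeff_abs, coeff_smul_apply, h0, smul_zero, abs_nonpos_iff] at this
      simp [this]
    · field_simp
  have hG0 : wtd (fun t => Real.exp (ρ t)) Q ≤ G := le_def.2 fun t => by
    refine le_trans (le_of_eq ?_) (le_def.1 (hs (ρ t)) t)
    simp only [coeff_wtd, coeff_smul, coeff_add, Finsupp.coe_smul, Finsupp.coe_add, Pi.smul_apply,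
      Pi.add_apply, smul_eq_mul, hρ]
    ring
  refine ⟨⟨ε + K, (abs_add_le _ _).trans ?_⟩,
    Real.exp (ε ^ 2) • (H * G) + ∑ l ∈ s, e l * wtd (fun t => Real.exp (ρ t)) (f l), ?_,
    fun σ => ?_⟩
  · rw [add_smul, ← mul_smul_comm, ← mul_smul_comm]
    refine add_le_add (abs_fam_le hH.nn h1 h2) ((abs_mul_le' _ _).trans ?_)
    rw [abs_of_nonneg hH.nn]
    exact mul_le_mul_of_nonneg_left hK hH.nn
  · rw [map_add, map_sum, Finset.sum_eq_zero fun l hl => by rw [map_mul, (h1 l hl).1, zero_mul],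
      map_smul, map_mul, hH.ms, one_mul, add_zero, smul_eq_mul]
    gcongr
  · refine le_trans ?_ (add_le_add (smul_le_smul_of_nonneg_left
      (mul_le_mul_of_nonneg_left hG0 hH.nn) (Real.exp_pos _).le) le_rfl)
    have key := sum_mul_nonneg (Finset.insertNone s) (fun l => l.elim H e)
      (fun l => l.elim (Real.exp (ε ^ 2) • wtd (fun t => Real.exp (ρ t)) Q -
        Real.exp σ • ((1 - σ) • Q + Y))
        fun l => wtd (fun t => Real.exp (ρ t)) (f l) - Real.exp σ • f l) ?_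
    · rw [← sub_nonneg]
      convert key using 1
      simp only [Finset.sum_insertNone, Option.elim, mul_sub, mul_add, mul_smul_comm,
        Finset.sum_sub_distrib, ← Finset.smul_sum]
      module
    · intro a t
      have hz : |∑ l ∈ s, (e l).coeff a * (f l).coeff t| ≤ ε * (H.coeff a * Q.coeff t) := by
        have b1 := le_def.1 h2 t
        simp only [coeff_sum, Finsupp.coe_finsetSum, Finset.sum_apply, coeff_abs,
          coeff_smul_apply, smul_eq_mul] at b1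
        have b2 : 0 ≤ H.coeff a := le_def.1 hH.nn a
        refine (Finset.abs_sum_le_sum_abs _ _).trans (le_trans ?_
          ((mul_le_mul_of_nonneg_left b1 b2).trans (le_of_eq (by ring))))
        rw [Finset.mul_sum]
        refine Finset.sum_le_sum fun l hl => ?_
        rw [abs_mul]
        exact mul_le_mul_of_nonneg_right (by simpa [coeff_abs] using le_def.1 (h1 l hl).2 a)
          (abs_nonneg _)
      simp only [Finset.sum_insertNone, Option.elim, coeff_sub, coeff_smul, coeff_add,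
        Finsupp.coe_sub, Finsupp.coe_smul, Finsupp.coe_add, Pi.sub_apply, Pi.smul_apply,
        Pi.add_apply, coeff_wtd, smul_eq_mul, hρ]
      have e1 : ∀ l, (e l).coeff a * ((f l).coeff t * Real.exp (ρ t) - Real.exp σ * (f l).coeff t)
          = (e l).coeff a * (f l).coeff t * (Real.exp (ρ t) - Real.exp σ) := fun l => by ring
      simp only [e1, ← Finset.sum_mul]
      convert mgf_pt _ _ ε (ρ t) σ (mul_nonneg (le_def.1 hH.nn a) (le_def.1 hQ t)) hz hε0 hε
        using 2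
      ring

theorem Mg.tail {Y P : A} {m : ℝ} (h : Mg Y P m) (hP : 0 ≤ P) (s : ℝ) :
    ∃ B, 0 ≤ B ∧ ms B ≤ Real.exp (-s) * m ∧ Y ≤ s • P + B := by
  obtain ⟨⟨K, hK⟩, G, h2, h3⟩ := h
  have hG : 0 ≤ G := by
    refine le_trans (smul_nonneg (Real.exp_pos _).le ?_) (h3 (1 - K))
    have := sub_nonneg.2 ((neg_le_abs Y).trans hK)
    convert this using 1
    module
  refine ⟨Real.exp (-s) • G, smul_nonneg (Real.exp_pos _).le hG, ?_, ?_⟩
  · rw [map_smul, smul_eq_mul]; gcongr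
  · have a1 := smul_le_smul_of_nonneg_left (h3 s) (Real.exp_pos (-s)).le
    rw [smul_smul, ← Real.exp_add, neg_add_cancel, Real.exp_zero, one_smul] at a1
    have a2 := add_nonneg (sub_nonneg.2 a1) hP
    rw [← sub_nonneg]
    convert a2 using 1
    module

theorem exp_mul_sub_one_le {F x : ℝ} (hF : 1 ≤ F) :
    F * (Real.exp x - 1) ≤ Real.exp (F * x) - 1 := by
  have := one_add_mul_self_le_rpow_one_add (s := Real.exp x - 1)
    (by linarith [Real.exp_pos x]) hF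
  rw [add_sub_cancel, ← Real.exp_mul, mul_comm x] at this
  linarith

theorem azuma_aux {H Q : A} (hH : Pb H) (hQ : Pb Q) {x : ℝ} (E : ℕ → A) (ε : ℕ → ℝ) (n : ℕ)
    (hε : ∀ i, 0 ≤ ε i ∧ ε i ≤ 1) (hE : ∀ i < n, HT x (E i) H (ε i • (H ^ i * Q))) :
    ∃ Y, nr (∑ i ∈ Finset.range n, H ^ (n - 1 - i) * E i - Y) ≤
        (Real.exp x - 1) * ∑ i ∈ Finset.range n, ε i ∧
      Mg Y (H ^ n * Q) (Real.exp (∑ i ∈ Finset.range n, ε i ^ 2)) ∧
      Mg (-Y) (H ^ n * Q) (Real.exp (∑ i ∈ Finset.range n, ε i ^ 2)) := by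
  induction n with
  | zero =>
    have : Mg 0 Q 1 := ⟨⟨0, by simp⟩, Q, hQ.ms.le, fun s => by
      rw [add_zero, smul_smul]
      have : Real.exp s * (1 - s) ≤ 1 := by
        calc _ ≤ Real.exp s * Real.exp (-s) := by gcongr; linarith [Real.add_one_le_exp (-s)]
          _ = 1 := by rw [← Real.exp_add]; simp
      simpa using smul_le_smul_of_nonneg_right this hQ.nn⟩
    exact ⟨0, by simp [nr_zero], by simpa using this, by simpa using this⟩
  | succ n ih =>
    obtain ⟨Y, h1, h2, h3⟩ := ih fun i hi => hE i (by omega)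
    obtain ⟨-, -, ι, s, e, f, g1, g2, g3⟩ := hE n (by omega)
    have hP := (hH.pow n).mul hQ
    have k2 := h2.step hH hP.nn (hε n).1 (hε n).2 g1 g2
    have k3 := h3.step hH hP.nn (hε n).1 (hε n).2 (f := fun l => -f l) g1 (by simpa using g2)
    rw [← mul_assoc, ← pow_succ', ← Real.exp_add, add_comm (ε n ^ 2), ← Finset.sum_range_succ
      (fun i => ε i ^ 2)] at k2 k3
    refine ⟨_, ?_, k2, by convert k3 using 1; simp [add_comm]⟩
    have e1 : ∑ i ∈ Finset.range n, H ^ (n + 1 - 1 - i) * E i =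
        H * ∑ i ∈ Finset.range n, H ^ (n - 1 - i) * E i := by
      rw [Finset.mul_sum]
      refine Finset.sum_congr rfl fun i hi => ?_
      rw [Finset.mem_range] at hi
      rw [← mul_assoc, ← pow_succ']
      congr 2; omega
    rw [hP.ms_smul] at g3
    rw [Finset.sum_range_succ, Finset.sum_range_succ, e1, show n + 1 - 1 - n = 0 by omega, pow_zero,
      one_mul, add_comm _ (H * Y), add_sub_add_comm, ← mul_sub]
    linarith [nr_add_le (H * (∑ i ∈ Finset.range n, H ^ (n - 1 - i) * E i - Y))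
      (E n - ∑ l ∈ s, e l * f l),
      hH.nr_mul_le (∑ i ∈ Finset.range n, H ^ (n - 1 - i) * E i - Y)]

/-- square-root cancellation over shifts -/
theorem azuma {H Q E : A} (hH : Pb H) (hQ : Pb Q) (hc : Commute H Q) {x ε s : ℝ} (hε : 0 ≤ ε)
    (hs : 1 ≤ s) (hsx : Real.exp (-s) ≤ x) (hE : HT x E H (ε • Q)) (J N : ℕ) (hJ : 1 ≤ J)
    (S : Finset ℕ) (hS : ∀ i ∈ S, i ≤ N) (hcard : S.card ≤ J ^ 2) :
    D ((J + 6) * x) (∑ i ∈ S, H ^ i * E * H ^ (N - i)) ((s * J * ε) • (H ^ (N + 1) * Q)) := by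
  have hx := hE.1
  have hP := (hH.pow (N + 1)).mul hQ
  have hJ' : (1 : ℝ) ≤ J := by exact_mod_cast hJ
  rcases hε.eq_or_lt with h0 | h0
  · refine D.of_nr (smul_nonneg (by positivity) hP.nn) (by positivity) ?_
    have := (hE.toD hH).nr_le
    rw [← h0, zero_smul, mul_zero, map_zero, mul_zero] at this
    refine (nr_sum_le _ _).trans ((Finset.sum_nonpos fun i _ => ?_).trans ?_)
    · exact ((hH.pow _).nr_mul_le' _).trans (((hH.pow _).nr_mul_le _).trans this)
    · rw [hP.ms_smul]; positivity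
  obtain ⟨σ, hσ⟩ : ∃ σ, σ = J * ε := ⟨_, rfl⟩
  have hσ0 : 0 < σ := by rw [hσ]; positivity
  obtain ⟨Y, h1, h2, h3⟩ := azuma_aux hH hQ (x := x)
    (fun j => if N - j ∈ S then σ⁻¹ • (E * H ^ j) else 0)
    (fun j => if N - j ∈ S then (J : ℝ)⁻¹ else 0) (N + 1)
    (fun j => by split_ifs <;> simp [inv_le_one_of_one_le₀ hJ'])
    (fun j _ => by
      split_ifs
      · refine ((hE.mul_right hH (D.refl (hH.pow j).nn)).smul σ⁻¹).congr rfl ?_ |>.mono
          (by simp) le_rfl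
        rw [abs_of_pos (by positivity), smul_mul_assoc, smul_smul, (hc.pow_left j).eq, hσ]
        congr 1; field_simp
      · exact HT.zero hx (by simp))
  have hsum : ∀ {M : Type} [AddCommMonoid M] (g : ℕ → M),
      ∑ j ∈ Finset.range (N + 1), (if N - j ∈ S then g (N - j) else 0) = ∑ i ∈ S, g i := by
    intro M _ g
    have := Finset.sum_range_reflect (fun i => if i ∈ S then g i else 0) (N + 1)
    simp only [add_tsub_cancel_right] at this
    rw [this, Finset.sum_ite_mem, Finset.inter_eq_right.2]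
    intro i hi
    exact Finset.mem_range.2 (Nat.lt_succ_of_le (hS i hi))
  have hc' : (S.card : ℝ) ≤ J ^ 2 := by exact_mod_cast hcard
  have e1 : ∑ j ∈ Finset.range (N + 1), (if N - j ∈ S then (J : ℝ)⁻¹ else 0) ≤ J := by
    rw [hsum fun _ => (J : ℝ)⁻¹, Finset.sum_const, nsmul_eq_mul, mul_inv_le_iff₀ (by positivity)]
    linarith
  have e2 : ∑ j ∈ Finset.range (N + 1), (if N - j ∈ S then (J : ℝ)⁻¹ else 0) ^ 2 ≤ 1 := by
    simp only [ite_pow, zero_pow two_ne_zero]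
    rw [hsum fun _ => (J : ℝ)⁻¹ ^ 2, Finset.sum_const, nsmul_eq_mul, inv_pow,
      mul_inv_le_iff₀ (by positivity)]
    linarith
  have e3 : ∑ j ∈ Finset.range (N + 1), H ^ (N + 1 - 1 - j) *
      (if N - j ∈ S then σ⁻¹ • (E * H ^ j) else 0) = σ⁻¹ • ∑ i ∈ S, H ^ i * E * H ^ (N - i) := by
    rw [Finset.smul_sum, ← hsum]
    refine Finset.sum_congr rfl fun j hj => ?_
    rw [Finset.mem_range] at hj
    split_ifs
    · rw [mul_smul_comm, mul_assoc, add_tsub_cancel_right, show N - (N - j) = j by omega]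
    · simp
  rw [e3] at h1
  obtain ⟨B, b1, b2, b3⟩ := h2.tail hP.nn s
  obtain ⟨B', b1', b2', b3'⟩ := h3.tail hP.nn s
  have hD : D (6 * x) Y (s • (H ^ (N + 1) * Q)) := by
    refine ⟨by positivity, smul_nonneg (by positivity) hP.nn, B + B', add_nonneg b1 b1', ?_,
      abs_le'.2 ⟨b3.trans (by rw [← add_assoc]; exact le_add_of_nonneg_right b1'),
        b3'.trans (by gcongr; exact le_add_of_nonneg_left b1)⟩⟩
    have a1 : Real.exp (∑ j ∈ Finset.range (N + 1),
        (if N - j ∈ S then (J : ℝ)⁻¹ else 0) ^ 2) ≤ 3 :=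
      (Real.exp_le_exp.2 e2).trans (by linarith [Real.exp_one_lt_d9])
    have a2 := mul_le_mul hsx a1 (Real.exp_pos _).le hx
    have a3 := Real.add_one_le_exp (6 * x)
    rw [map_add, hP.ms_smul]
    nlinarith
  obtain ⟨-, d1, C, c1, c2, c3⟩ := hD
  have hD2 : D ((J + 6) * x) (σ⁻¹ • ∑ i ∈ S, H ^ i * E * H ^ (N - i)) (s • (H ^ (N + 1) * Q)) := by
    obtain ⟨Z, hZ⟩ : ∃ Z, Z = σ⁻¹ • ∑ i ∈ S, H ^ i * E * H ^ (N - i) := ⟨_, rfl⟩
    rw [← hZ] at h1 ⊢
    refine ⟨by positivity, d1, C + |Z - Y|, add_nonneg c1 (abs_nonneg _), ?_, ?_⟩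
    · rw [hP.ms_smul] at c2 ⊢
      have a1 := Real.one_le_exp hx
      have a2 : ms |Z - Y| ≤ Real.exp (J * x) - 1 :=
        h1.trans ((mul_le_mul_of_nonneg_left e1 (by linarith)).trans
          (by rw [mul_comm]; exact exp_mul_sub_one_le hJ'))
      have a3 := Real.one_le_exp (show 0 ≤ J * x by positivity)
      have a4 := Real.one_le_exp (show 0 ≤ 6 * x by positivity)
      rw [map_add, add_mul, Real.exp_add]
      nlinarith [mul_nonneg (mul_nonneg (sub_nonneg.2 a3) (sub_nonneg.2 a4)) (by linarith : 0 ≤ s),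
        mul_nonneg (sub_nonneg.2 a3) (sub_nonneg.2 hs)]
    · calc |Z| = |Y + (Z - Y)| := by congr 1; abel
        _ ≤ _ := (abs_add_le _ _).trans (by rw [← add_assoc]; gcongr)
  refine (hD2.smul_c hσ0.le).congr ?_ (by rw [hσ]; congr 1; ring)
  rw [smul_smul, mul_inv_cancel₀ hσ0.ne', one_smul]

end Vale.Agent.P321.LB
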