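import Mathlib
import Vale.Agent.P321.LHT

/-! Chi-square calculus, the quantitative zero-two law and slip decompositions. -/

namespace Vale.Agent.P321.LB

open MonoidAlgebra

def Chi (e P g : A) : Prop := ∀ s : ℝ, 0 ≤ g + (2 * s) • e + (s ^ 2) • P

theorem Chi.le {e P g : A} (h : Chi e P g) (s : ℝ) (hs : 0 ≤ s) :
    (2 * s) • |e| ≤ g + (s ^ 2) • P := by
  rw [← abs_of_nonneg (show 0 ≤ 2 * s by positivity), ← abs_smul', abs_le']
  constructor <;> rw [← sub_nonneg]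
  · convert h (-s) using 1; module
  · convert h s using 1; module

theorem Chi.nr_sq {e P g : A} (h : Chi e P g) : nr e ^ 2 ≤ ms g * ms P := by
  have h1 : ∀ s : ℝ, 0 ≤ ms P * (s * s) + -(2 * nr e) * s + ms g := by
    intro s
    have a1 := ms_mono (h.le |s| (abs_nonneg s))
    simp only [map_add, map_smul, smul_eq_mul, sq_abs] at a1
    have := mul_le_mul_of_nonneg_left (le_abs_self s) (nr_nonneg e)
    rw [nr] at this ⊢
    nlinarith
  have := discrim_le_zero h1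
  rw [discrim] at this
  nlinarith

theorem Chi.pt {e P g : A} (h : Chi e P g) (t : W) :
    0 ≤ g.coeff t ∧ e.coeff t ^ 2 ≤ g.coeff t * P.coeff t := by
  have h1 : ∀ s : ℝ, 0 ≤ P.coeff t * (s * s) + (2 * e.coeff t) * s + g.coeff t := by
    intro s
    have := le_def.1 (h s) t
    simp only [coeff_zero, Finsupp.coe_zero, Pi.zero_apply, coeff_add, coeff_smul,
      Finsupp.coe_add, Finsupp.coe_smul, Pi.add_apply, Pi.smul_apply, smul_eq_mul] at this
    linarith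
  refine ⟨by simpa using h1 0, ?_⟩
  have := discrim_le_zero h1
  rw [discrim] at this
  nlinarith

theorem quad_nonneg {e g P : ℝ} (hg : 0 ≤ g) (hP : 0 ≤ P) (h : e ^ 2 ≤ g * P) (s : ℝ) :
    0 ≤ g + 2 * s * e + s ^ 2 * P := by
  by_contra hc
  have h1 : g + s ^ 2 * P < -(2 * s * e) := by linarith
  have h2 : (g + s ^ 2 * P) ^ 2 < (-(2 * s * e)) ^ 2 := by gcongr
  nlinarith [sq_nonneg (g - s ^ 2 * P), mul_le_mul_of_nonneg_left h (sq_nonneg s)]

theorem Chi.mul {e P g e' P' g' : A} (h : Chi e P g) (h' : Chi e' P' g') (hP : 0 ≤ P)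
    (hP' : 0 ≤ P') : Chi (e * e') (P * P') (g * g') := by
  intro s
  have := sum_mul_nonneg Finset.univ ![g, (2 * s) • e, (s ^ 2) • P] ![g', e', P'] fun a b => by
    obtain ⟨a1, a2⟩ := h.pt a
    obtain ⟨b1, b2⟩ := h'.pt b
    have a3 : 0 ≤ P.coeff a := le_def.1 hP a
    have b3 : 0 ≤ P'.coeff b := le_def.1 hP' b
    have := quad_nonneg (e := e.coeff a * e'.coeff b) (mul_nonneg a1 b1) (mul_nonneg a3 b3)
      (by rw [mul_pow, mul_mul_mul_comm]; exact mul_le_mul a2 b2 (sq_nonneg _) (by positivity)) s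
    simpa [Fin.sum_univ_three, mul_assoc] using this
  simpa [Fin.sum_univ_three] using this

theorem Chi.one : Chi 1 1 1 := fun s => by
  convert smul_nonneg (sq_nonneg (s + 1)) (zero_le_one (α := A)) using 1
  module

theorem Chi.pow {e P g : A} (h : Chi e P g) (hP : 0 ≤ P) (n : ℕ) :
    Chi (e ^ n) (P ^ n) (g ^ n) := by
  induction n with
  | zero => simpa using Chi.one
  | succ n ih => simpa only [pow_succ] using ih.mul h (pow_nonneg hP n) hP

theorem nr_pow_sub {u w : A} (hu : Pb u) (hw : Pb w) (n : ℕ) :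
    nr (u ^ n - w ^ n) ≤ n * nr (u - w) := by
  induction n with
  | zero => simp [nr_zero]
  | succ n ih =>
    have : u ^ (n + 1) - w ^ (n + 1) = u * (u ^ n - w ^ n) + (u - w) * w ^ n := by
      rw [pow_succ', pow_succ']; noncomm_ring
    rw [this]; push_cast
    linarith [nr_add_le (u * (u ^ n - w ^ n)) ((u - w) * w ^ n), hu.nr_mul_le (u ^ n - w ^ n),
      (hw.pow n).nr_mul_le' (u - w)]

/-- total variation between long powers -/
theorem tv_pow {u P : A} (hu : Pb u) (hP : Pb P) {x ω : ℝ} (h : D x (u - P) (ω • P))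
    (hω : 2 * ω ≤ 1) (n : ℕ) (h1 : n * ω ^ 2 ≤ 1 / 1024)
    (h2 : n * (2 * ω * (Real.exp x - 1)) ≤ 1 / 8) : nr (u ^ n - P ^ n) ≤ 1 / 4 := by
  obtain ⟨e, e1, e2, e3⟩ := h.center hP (by rw [map_sub, hu.ms, hP.ms, sub_self])
  have hw : Pb (P + e) := ⟨by
    have := sub_nonneg.2 ((neg_le_abs e).trans (e1.trans (smul_le_smul_of_nonneg_right hω hP.nn)))
    simpa using this, by rw [map_add, hP.ms, e2, add_zero]⟩
  have hc : Chi (P + e) P (P + (2 : ℝ) • e + (2 * ω) ^ 2 • P) := by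
    intro s
    have a1 : |(2 * (1 + s)) • e| ≤ ((1 + s) ^ 2 + (2 * ω) ^ 2) • P := by
      rw [abs_smul']
      refine (smul_le_smul_of_nonneg_left e1 (abs_nonneg _)).trans ?_
      rw [smul_smul]
      refine smul_le_smul_of_nonneg_right ?_ hP.nn
      rw [abs_mul, abs_two, ← sq_abs (1 + s)]
      nlinarith [sq_nonneg (|1 + s| - 2 * ω)]
    convert sub_nonneg.2 ((neg_le_abs _).trans a1) using 1
    module
  have hc2 : Chi ((P + e) ^ n - P ^ n) (P ^ n)
      ((P + (2 : ℝ) • e + (2 * ω) ^ 2 • P) ^ n - (2 : ℝ) • (P + e) ^ n + P ^ n) := fun s => by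
    convert hc.pow hP.nn n (s - 1) using 1
    module
  have a1 := hc2.nr_sq
  simp only [map_add, map_sub, map_pow, map_smul, hP.ms, e2, smul_eq_mul, one_pow, add_zero,
    mul_one, mul_zero] at a1
  have a2 : (1 + (2 * ω) ^ 2) ^ n ≤ Real.exp (1 / 256) := by
    calc _ ≤ Real.exp ((2 * ω) ^ 2) ^ n := by
          gcongr; linarith [Real.add_one_le_exp ((2 * ω) ^ 2)]
      _ ≤ _ := by rw [← Real.exp_nat_mul, Real.exp_le_exp]; linarith
  have a3 := Real.exp_bound_div_one_sub_of_interval' (x := 1 / 256) (by norm_num) (by norm_num)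
  have a4 : nr ((P + e) ^ n - P ^ n) ≤ 1 / 8 :=
    (abs_le_of_sq_le_sq' (by linarith) (by norm_num)).2
  have a5 := nr_pow_sub hu hw n
  rw [← sub_sub] at a5
  have a6 := mul_le_mul_of_nonneg_left e3 (Nat.cast_nonneg (α := ℝ) n)
  have a7 := nr_add_le (u ^ n - (P + e) ^ n) ((P + e) ^ n - P ^ n)
  rw [sub_add_sub_cancel] at a7
  linarith

theorem overlap {P Q : A} (hP : Pb P) (hQ : Pb Q) : ms (P ⊓ Q) = 1 - nr (P - Q) / 2 := by
  have := congrArg ms (two_nsmul_inf_eq_add_sub_abs_sub P Q)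
  rw [map_nsmul, map_sub, map_add, hP.ms, hQ.ms, abs_sub_comm, nsmul_eq_mul] at this
  rw [nr]; push_cast at this; linarith

theorem lazy {v : A} (hv : Pb v) (n : ℕ) :
    (n + 1) * nr (((1 / 2 : ℝ) • (1 + v)) ^ n * (1 - v)) ^ 2 ≤ 4 := by
  obtain ⟨S, hS⟩ : ∃ S, S = (1 / 2 : ℝ) • (1 + v) := ⟨_, rfl⟩
  rw [← hS]
  have hSP : Pb S := ⟨hS ▸ smul_nonneg (by norm_num) (add_nonneg zero_le_one hv.nn), by
    rw [hS, map_smul, map_add, map_one, hv.ms]; norm_num⟩
  have hc : Commute S (1 - v) := hS ▸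
    (((Commute.one_left _).add_left ((Commute.one_right v).sub_right (.refl v))).smul_left _)
  have step : ∀ e P g, Chi e P g → ∃ g', ms g' = ms g + ms P ∧
      Chi (S * e + (1 / 2 : ℝ) • ((1 - v) * P)) (S * P) g' := by
    intro e P g h1
    refine ⟨(1 / 2 : ℝ) • (g + (2 : ℝ) • e + P) + (1 / 2 : ℝ) • (v * (g - (2 : ℝ) • e + P)), ?_,
      fun s => ?_⟩
    · simp only [map_add, map_sub, map_smul, map_mul, hv.ms, smul_eq_mul]
      ring
    · convert smul_nonneg (by norm_num : (0 : ℝ) ≤ 1 / 2)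
        (add_nonneg (h1 (s + 1)) (mul_nonneg hv.nn (h1 (s - 1)))) using 1
      simp only [hS, mul_add, mul_sub, add_mul, sub_mul, one_mul, smul_mul_assoc, mul_smul_comm]
      module
  have key : ∀ n : ℕ, ∃ g, ms g = n + 1 ∧
      Chi (((n + 1) / 2 : ℝ) • (S ^ n * (1 - v))) (S ^ (n + 1)) g := by
    intro n
    induction n with
    | zero =>
      obtain ⟨g, h1, h2⟩ := step 0 1 0 fun s => by simpa using smul_nonneg (sq_nonneg s) zero_le_one
      exact ⟨g, by simpa using h1, by simpa using h2⟩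
    | succ n ih =>
      obtain ⟨g, h1, h2⟩ := ih
      obtain ⟨g', h3, h4⟩ := step _ _ _ h2
      refine ⟨g', by rw [h3, h1, (hSP.pow _).ms]; push_cast; ring, ?_⟩
      rw [← (hc.pow_left _).eq, mul_smul_comm, ← mul_assoc, ← pow_succ', ← pow_succ',
        ← add_smul] at h4
      convert h4 using 2
      push_cast; ring
  obtain ⟨g, h1, h2⟩ := key n
  have h3 := h2.nr_sq
  rw [nr_smul, h1, (hSP.pow _).ms, mul_pow, sq_abs] at h3
  have : (0 : ℝ) < n + 1 := by positivity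
  nlinarith

/-- quantitative smoothness of the powers of `v` -/
def Sl (v : A) (μ : ℝ) : Prop := ∀ M : ℕ, M * nr (v ^ M * (1 - v)) ^ 2 ≤ μ

theorem Sl.mono {v : A} {μ μ' : ℝ} (h : Sl v μ) (h' : μ ≤ μ') : Sl v μ' := fun M => (h M).trans h'

theorem zero_two {v Z : A} (hv : Pb v) {m : ℕ} {θ : ℝ} (hθ : 0 < θ) (h0 : 0 ≤ Z) (h1 : Z ≤ v ^ m)
    (h2 : Z ≤ v ^ (m + 1)) (h3 : θ ≤ ms Z) : Sl v (8 * (m + 1) / θ) := by
  obtain ⟨S, hS⟩ : ∃ S, S = (1 / 2 : ℝ) • (1 + v) := ⟨_, rfl⟩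
  obtain ⟨X, hX⟩ : ∃ X, X = v ^ (m + 1) := ⟨_, rfl⟩
  have hc : Commute S X := by
    rw [hS, hX]
    exact (((Commute.one_left v).add_left (.refl v)).smul_left _).pow_right _
  have hV : 0 ≤ X - Z * S := by
    have := smul_nonneg (by norm_num : (0 : ℝ) ≤ 1 / 2) (add_nonneg (sub_nonneg.2 h2)
      (mul_nonneg (sub_nonneg.2 h1) hv.nn))
    convert this using 1
    simp only [hS, hX, sub_mul, mul_add, mul_smul_comm, mul_one, ← pow_succ]
    module
  have hZ1 : ms Z ≤ 1 := (ms_mono h1).trans (hv.pow m).ms.le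
  have hVm : ms (X - Z * S) = 1 - ms Z := by
    rw [map_sub, map_mul, hX, (hv.pow _).ms, hS, map_smul, map_add, map_one, hv.ms]; norm_num
  have key : ∀ K r : ℕ, (r + 1 + θ * K / 2) * nr (X ^ K * S ^ r * (1 - v)) ^ 2 ≤ 4 := by
    intro K
    induction K with
    | zero => intro r; simpa [hS] using lazy hv r
    | succ K ih =>
      intro r
      have e : X ^ (K + 1) * S ^ r * (1 - v) = (X - Z * S) * (X ^ K * S ^ r * (1 - v)) +
          Z * (X ^ K * S ^ (r + 1) * (1 - v)) := by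
        rw [pow_succ' S, ← mul_assoc (X ^ K), ← (hc.pow_right K).eq, pow_succ' X]; noncomm_ring
      have a1 := ih r
      have a2 := ih (r + 1)
      have a3 := (nr_add_le _ _).trans (add_le_add
        (nr_mul_le (X - Z * S) (X ^ K * S ^ r * (1 - v)))
        (nr_mul_le Z (X ^ K * S ^ (r + 1) * (1 - v))))
      rw [← e, nr_of_nonneg hV, nr_of_nonneg h0, hVm] at a3
      generalize nr (X ^ K * S ^ r * (1 - v)) = b₀ at a1 a3
      generalize nr (X ^ K * S ^ (r + 1) * (1 - v)) = b₁ at a2 a3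
      have a4 := pow_le_pow_left₀ (nr_nonneg _) a3 2
      generalize nr (X ^ (K + 1) * S ^ r * (1 - v)) ^ 2 = b at a4 ⊢
      generalize ms Z = t at *
      push_cast at a2 ⊢
      obtain ⟨y, hy⟩ : ∃ y, y = r + 1 + θ * K / 2 := ⟨_, rfl⟩
      have hy1 : 1 ≤ y := by rw [hy]; have : 0 ≤ θ * K := by positivity
                             linarith [Nat.cast_nonneg (α := ℝ) r]
      rw [show (r : ℝ) + 1 + 1 + θ * K / 2 = y + 1 by rw [hy]; ring] at a2
      rw [show (r : ℝ) + 1 + θ * (K + 1) / 2 = y + θ / 2 by rw [hy]; ring]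
      rw [← hy] at a1
      have a5 : b ≤ (1 - t) * b₀ ^ 2 + t * b₁ ^ 2 := by
        nlinarith [mul_nonneg (mul_nonneg (sub_nonneg.2 hZ1) (hθ.le.trans h3)) (sq_nonneg (b₀ - b₁))]
      have a6 : b * (y * (y + 1)) ≤ 4 * (y + 1 - θ) := by
        nlinarith [mul_le_mul_of_nonneg_left a1 (mul_nonneg (sub_nonneg.2 hZ1) (by linarith : 0 ≤ y + 1)),
          mul_le_mul_of_nonneg_left a2 (mul_nonneg (hθ.le.trans h3) (by linarith : 0 ≤ y)),
          mul_le_mul_of_nonneg_right a5 (by positivity : 0 ≤ y * (y + 1))]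
      refine le_of_mul_le_mul_right ?_ (by positivity : 0 < y * (y + 1))
      nlinarith [mul_le_mul_of_nonneg_left a6 (by positivity : 0 ≤ y + θ / 2)]
  intro M
  have a1 := key (M / (m + 1)) 0
  have a2 : nr (v ^ M * (1 - v)) ≤ nr (X ^ (M / (m + 1)) * S ^ 0 * (1 - v)) := by
    conv_lhs => rw [← Nat.mod_add_div M (m + 1), pow_add, pow_mul, ← hX, mul_assoc]
    simpa using (hv.pow _).nr_mul_le _
  have a3 : (M : ℝ) ≤ (m + 1) * ((M / (m + 1) : ℕ) + 1) := by
    exact_mod_cast (Nat.lt_mul_div_succ M (Nat.succ_pos m)).le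
  have a4 := pow_le_pow_left₀ (nr_nonneg _) a2 2
  rw [le_div_iff₀ hθ]
  generalize nr (X ^ (M / (m + 1)) * S ^ 0 * (1 - v)) ^ 2 = b at *
  have a5 := sq_nonneg (nr (v ^ M * (1 - v)))
  generalize nr (v ^ M * (1 - v)) ^ 2 = a at *
  generalize ((M / (m + 1) : ℕ) : ℝ) = K at *
  have a6 : (K + 1) * θ * b ≤ 8 := by nlinarith [mul_nonneg (sub_nonneg.2 (h3.trans hZ1)) (a5.trans a4)]
  have a7 := mul_le_mul a3 a4 a5 ((Nat.cast_nonneg M).trans a3)
  nlinarith [mul_le_mul_of_nonneg_right a7 hθ.le,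
    mul_le_mul_of_nonneg_left a6 (by positivity : (0 : ℝ) ≤ m + 1)]

theorem nr_shift {v : A} (hv : Pb v) (P : A) (t : ℕ) :
    nr (P * (1 - v ^ t)) ≤ t * nr (P * (1 - v)) := by
  induction t with
  | zero => simp [nr_zero]
  | succ t ih =>
    have : P * (1 - v ^ (t + 1)) = P * (1 - v ^ t) + P * (1 - v) * v ^ t := by
      rw [pow_succ']; noncomm_ring
    rw [this]; push_cast
    linarith [nr_add_le (P * (1 - v ^ t)) (P * (1 - v) * v ^ t), (hv.pow t).nr_mul_le' (P * (1 - v))]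

theorem Sl.bound {v : A} (hv : Pb v) {μ : ℝ} (h : Sl v μ) {M : ℕ} {ρ : ℝ} (hρ : 0 < ρ)
    (hM0 : 0 < M) (hM : μ * ρ ^ 2 ≤ M) (t : ℕ) : nr (v ^ M * (1 - v ^ t)) ≤ t / ρ := by
  refine (nr_shift hv _ t).trans ?_
  rw [div_eq_mul_one_div]
  gcongr
  rw [le_div_iff₀ hρ]
  have h1 := mul_le_mul_of_nonneg_right (h M) (sq_nonneg ρ)
  have h2 : (0 : ℝ) < M := by exact_mod_cast hM0
  refine (abs_le_of_sq_le_sq' ?_ zero_le_one).2
  refine le_of_mul_le_mul_left ?_ h2
  nlinarith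

/-- uniform average of the first `I` powers -/
noncomputable def Avg (H : A) (I : ℕ) : A := (I : ℝ)⁻¹ • ∑ i ∈ Finset.range I, H ^ i

theorem Pb.avg {H : A} (hH : Pb H) {I : ℕ} (hI : 0 < I) : Pb (Avg H I) :=
  ⟨smul_nonneg (by positivity) (Finset.sum_nonneg fun i _ => (hH.pow i).nn), by
    have : (I : ℝ) ≠ 0 := by positivity
    simp [Avg, hH.ms, this]⟩

theorem commute_avg {H X : A} (h : Commute H X) (I : ℕ) : Commute (Avg H I) X :=
  (Commute.sum_left _ _ _ fun i _ => h.pow_left i).smul_left _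

/-- left and right slip decompositions of `X` -/
structure Slip (H : A) (I : ℕ) (X : A) (T x : ℝ) (V V' : A) : Prop where
  nn : 0 ≤ V
  nn' : 0 ≤ V'
  le : V * Avg H I ≤ X
  le' : Avg H I * V' ≤ X
  ms : ms (X - V * Avg H I) ≤ x
  ms' : LB.ms (X - Avg H I * V') ≤ x
  pow : ∀ i ≤ 2 * I, V * H ^ i ≤ T • X
  pow' : ∀ i ≤ 2 * I, H ^ i * V' ≤ T • X

theorem slip {v : A} (hv : Pb v) {μ : ℝ} (hSl : Sl v μ) (h I T M N : ℕ) (hh : 0 < h) (hI : 0 < I)
    (hM0 : 0 < M) (hM : μ * (4 * h * I) ^ 2 ≤ M) (hN : (M + 2 * h * I) * T ≤ N) {x : ℝ}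
    (hx : (1 / 2) ^ T ≤ x) : ∃ V V', Slip (v ^ h) I (v ^ N) T x V V' := by
  obtain ⟨H, hH⟩ : ∃ H, H = v ^ h := ⟨_, rfl⟩
  obtain ⟨X, hX⟩ : ∃ X, X = v ^ (M + 2 * h * I) := ⟨_, rfl⟩
  have hHP : Pb H := hH ▸ hv.pow h
  have hXP : Pb X := hX ▸ hv.pow _
  have hA := hHP.avg hI
  have hcH : Commute H X := by rw [hH, hX]; exact (Commute.refl v).pow_pow _ _
  have hcA := commute_avg hcH I
  obtain ⟨Z, hZ0, hZ1, hZ2⟩ : ∃ Z, 0 ≤ Z ∧ 1 / 2 ≤ ms Z ∧ ∀ i ≤ 2 * I, Z ≤ v ^ M * H ^ i := by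
    obtain ⟨R, hR⟩ : ∃ R : ℕ → A, R = fun n =>
      ∑ i ∈ Finset.range n, |v ^ M * (1 - H) * H ^ i| := ⟨_, rfl⟩
    have h1 : ∀ n, v ^ M - R n ≤ v ^ M * H ^ n := by
      intro n
      induction n with
      | zero => simp [hR]
      | succ n ih =>
        have := add_nonneg (sub_nonneg.2 ih) (sub_nonneg.2 (le_abs_self (v ^ M * (1 - H) * H ^ n)))
        rw [← sub_nonneg]
        convert this using 1
        simp only [hR, Finset.sum_range_succ, pow_succ']
        noncomm_ring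
    refine ⟨(v ^ M - R (2 * I)) ⊔ 0, le_sup_right, le_trans ?_ (ms_mono le_sup_left),
      fun i hi => sup_le (le_trans ?_ (h1 i)) ((hv.pow M).mul (hHP.pow i)).nn⟩
    · have h2 := hSl.bound hv (by positivity) hM0 hM h
      have h3 : ms (R (2 * I)) ≤ (2 * I : ℕ) * ((h : ℝ) / (4 * h * I)) := by
        rw [hR, map_sum, ← nsmul_eq_mul]
        conv_rhs => rw [← Finset.card_range (2 * I)]
        exact Finset.sum_le_card_nsmul _ _ _ fun i _ => ((hHP.pow i).nr_mul_le' _).trans (hH ▸ h2)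
      have h4 : (2 * I : ℕ) * ((h : ℝ) / (4 * h * I)) = 1 / 2 := by push_cast; field_simp; norm_num
      rw [map_sub, (hv.pow M).ms]; linarith
    · rw [hR]
      exact sub_le_sub_left (Finset.sum_le_sum_of_subset_of_nonneg (Finset.range_mono hi)
        fun _ _ _ => abs_nonneg _) _
  have hZ3 : ∀ i ≤ 2 * I, Z * H ^ i ≤ X ∧ H ^ i * Z ≤ X := by
    intro i hi
    have h1 := hZ2 (2 * I - i) (by omega)
    have h2 : M + h * (2 * I - i) + h * i = M + 2 * h * I := by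
      rw [add_assoc, ← mul_add, Nat.sub_add_cancel hi]; ring
    refine ⟨(mul_le_mul_of_nonneg_right h1 (hHP.pow i).nn).trans (le_of_eq ?_),
      (mul_le_mul_of_nonneg_left h1 (hHP.pow i).nn).trans (le_of_eq ?_)⟩
    · rw [hH, hX, ← pow_mul, ← pow_mul, ← pow_add, ← pow_add, h2]
    · rw [hH, hX, ← pow_mul, ← pow_mul, ← pow_add, ← pow_add, ← h2, add_comm]
  have hI' : (I : ℝ) ≠ 0 := by positivity
  have hZ4 : Z * Avg H I ≤ X := by
    rw [Avg, mul_smul_comm, Finset.mul_sum]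
    refine (smul_le_smul_of_nonneg_left (Finset.sum_le_card_nsmul _ _ X fun i hi =>
      (hZ3 i (by rw [Finset.mem_range] at hi; omega)).1) (by positivity)).trans (le_of_eq ?_)
    rw [Finset.card_range, ← Nat.cast_smul_eq_nsmul ℝ, smul_smul, inv_mul_cancel₀ hI', one_smul]
  have hZ5 : Avg H I * Z ≤ X := by
    rw [Avg, smul_mul_assoc, Finset.sum_mul]
    refine (smul_le_smul_of_nonneg_left (Finset.sum_le_card_nsmul _ _ X fun i hi =>
      (hZ3 i (by rw [Finset.mem_range] at hi; omega)).2) (by positivity)).trans (le_of_eq ?_)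
    rw [Finset.card_range, ← Nat.cast_smul_eq_nsmul ℝ, smul_smul, inv_mul_cancel₀ hI', one_smul]
  have key : ∀ T : ℕ, ∃ V V', Slip H I (X ^ T) T ((1 / 2) ^ T) V V' := by
    intro T
    induction T with
    | zero => exact ⟨0, 0, by constructor <;> simp⟩
    | succ T ih =>
      obtain ⟨V, V', ih⟩ := ih
      have hP := hXP.pow T
      have e1 : X ^ (T + 1) - (Z * X ^ T + (X - Z * Avg H I) * V) * Avg H I =
          (X - Z * Avg H I) * (X ^ T - V * Avg H I) := by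
        rw [add_mul, mul_assoc Z, ← (hcA.pow_right T).eq, pow_succ']; noncomm_ring
      have e2 : X ^ (T + 1) - Avg H I * (X ^ T * Z + V' * (X - Avg H I * Z)) =
          (X ^ T - Avg H I * V') * (X - Avg H I * Z) := by
        rw [mul_add, ← mul_assoc _ _ Z, (hcA.pow_right T).eq, pow_succ]; noncomm_ring
      have p1 := sub_nonneg.2 hZ4
      have p2 := sub_nonneg.2 hZ5
      have m1 : ms (X - Z * Avg H I) ≤ 1 / 2 := by
        rw [map_sub, map_mul, hA.ms, hXP.ms]; linarith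
      have m2 : ms (X - Avg H I * Z) ≤ 1 / 2 := by
        rw [map_sub, map_mul, hA.ms, hXP.ms]; linarith
      refine ⟨Z * X ^ T + (X - Z * Avg H I) * V, X ^ T * Z + V' * (X - Avg H I * Z),
        add_nonneg (mul_nonneg hZ0 hP.nn) (mul_nonneg p1 ih.nn),
        add_nonneg (mul_nonneg hP.nn hZ0) (mul_nonneg ih.nn' p2), ?_, ?_, ?_, ?_,
        fun i hi => ?_, fun i hi => ?_⟩
      · rw [← sub_nonneg, e1]; exact mul_nonneg p1 (sub_nonneg.2 ih.le)
      · rw [← sub_nonneg, e2]; exact mul_nonneg (sub_nonneg.2 ih.le') p2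
      · rw [e1, map_mul, pow_succ']
        exact mul_le_mul m1 ih.ms (ms_nonneg (sub_nonneg.2 ih.le)) (by norm_num)
      · rw [e2, map_mul, pow_succ]
        exact mul_le_mul ih.ms' m2 (ms_nonneg p2) (by positivity)
      · rw [add_mul, mul_assoc, ← ((hcH.pow_pow i T)).eq, ← mul_assoc, mul_assoc _ V, pow_succ',
          Nat.cast_succ, add_comm (T : ℝ), add_smul, one_smul, ← mul_smul_comm]
        exact add_le_add (mul_le_mul_of_nonneg_right (hZ3 i hi).1 hP.nn)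
          (mul_le_mul (sub_le_self _ (mul_nonneg hZ0 hA.nn)) (ih.pow i hi)
            (mul_nonneg ih.nn (hHP.pow i).nn) hXP.nn)
      · rw [mul_add, ← mul_assoc, ((hcH.pow_pow i T)).eq, mul_assoc, ← mul_assoc _ V', pow_succ,
          Nat.cast_succ, add_comm (T : ℝ), add_smul, one_smul, ← smul_mul_assoc]
        exact add_le_add (mul_le_mul_of_nonneg_left (hZ3 i hi).2 hP.nn)
          (mul_le_mul (ih.pow' i hi) (sub_le_self _ (mul_nonneg hA.nn hZ0)) p2
            (smul_nonneg (Nat.cast_nonneg T) hP.nn))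
  obtain ⟨V, V', k⟩ := key T
  obtain ⟨R, rfl⟩ := Nat.exists_eq_add_of_le hN
  have hR := hv.pow R
  have e1 : v ^ ((M + 2 * h * I) * T + R) = v ^ R * X ^ T := by
    rw [add_comm, pow_add, pow_mul, hX]
  have e2 : v ^ ((M + 2 * h * I) * T + R) = X ^ T * v ^ R := by rw [pow_add, pow_mul, hX]
  rw [← hH]
  refine ⟨v ^ R * V, V' * v ^ R, mul_nonneg hR.nn k.nn, mul_nonneg k.nn' hR.nn, ?_, ?_, ?_, ?_,
    fun i hi => ?_, fun i hi => ?_⟩
  · rw [e1, mul_assoc]; exact mul_le_mul_of_nonneg_left k.le hR.nn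
  · rw [e2, ← mul_assoc]; exact mul_le_mul_of_nonneg_right k.le' hR.nn
  · rw [e1, mul_assoc, ← mul_sub, map_mul, hR.ms, one_mul]; exact k.ms.trans hx
  · rw [e2, ← mul_assoc, ← sub_mul, map_mul, hR.ms, mul_one]; exact k.ms'.trans hx
  · rw [e1, mul_assoc, ← mul_smul_comm]; exact mul_le_mul_of_nonneg_left (k.pow i hi) hR.nn
  · rw [e2, ← mul_assoc, ← smul_mul_assoc]; exact mul_le_mul_of_nonneg_right (k.pow' i hi) hR.nn

end Vale.Agent.P321.LB
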