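import Mathlib
import Vale.Agent.P321.LSlip

/-! Laws of traces of words, expansions and Prouhet-Thue-Morse cancellation. -/

namespace Vale.Agent.P321.LB

open MonoidAlgebra

/-- the point mass at a one-letter word -/
noncomputable def lt (b : Bool) : A := single (FreeMonoid.of b) 1

theorem Pb.lt (b : Bool) : Pb (lt b) :=
  ⟨le_def.2 fun t => by
    classical
    simp only [LB.lt, coeff_zero, coeff_single, Finsupp.coe_zero, Pi.zero_apply,
      Finsupp.single_apply]
    split_ifs <;> simp, by simp [LB.lt, LB.ms]⟩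

theorem Pb.conv {P Q : A} (hP : Pb P) (hQ : Pb Q) {a b : ℝ} (ha : 0 ≤ a) (hb : 0 ≤ b)
    (h : a + b = 1) : Pb (a • P + b • Q) :=
  ⟨add_nonneg (smul_nonneg ha hP.nn) (smul_nonneg hb hQ.nn), by
    rw [map_add, hP.ms_smul, hQ.ms_smul, h]⟩

/-- the law of the trace of a word -/
noncomputable def Φ (q : ℝ) (x : List Bool) : A :=
  (x.map fun b => q • (1 : A) + (1 - q) • lt b).prod

theorem Φ_append (q : ℝ) (x y : List Bool) : Φ q (x ++ y) = Φ q x * Φ q y := by simp [Φ]

theorem Φ_pb {q : ℝ} (h0 : 0 ≤ q) (h1 : q ≤ 1) (x : List Bool) : Pb (Φ q x) := by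
  induction x with
  | nil => simpa [Φ] using Pb.one
  | cons b x ih => exact (Pb.one.conv (Pb.lt b) h0 (by linarith) (by ring)).mul ih

/-- the `n`-fold repetition of a word -/
def rep (n : ℕ) (z : List Bool) : List Bool := (List.replicate n z).flatten

theorem Φ_rep (q : ℝ) (n : ℕ) (z : List Bool) : Φ q (rep n z) = Φ q z ^ n := by
  induction n with
  | zero => simp [rep, Φ]
  | succ n ih =>
    rw [rep, List.replicate_succ, List.flatten_cons, Φ_append, pow_succ']
    exact congrArg _ ih

theorem length_rep (n : ℕ) (z : List Bool) : (rep n z).length = n * z.length := by simp [rep]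

/-- substitution -/
def sub (g : Bool → List Bool) (w : List Bool) : List Bool := (w.map g).flatten

theorem length_sub (g : Bool → List Bool) (n : ℕ) (h : ∀ b, (g b).length = n) (w : List Bool) :
    (sub g w).length = w.length * n := by
  induction w with
  | nil => simp [sub]
  | cons b w ih =>
    simp only [sub, List.map_cons, List.flatten_cons, List.length_append, List.length_cons,
      h] at ih ⊢
    rw [ih]; ring

noncomputable def Pr (u : A) (f : Bool → A) (w : List Bool) : A := (w.map fun b => u + f b).prod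

noncomputable def Lin (u : A) (f : Bool → A) : List Bool → A
  | [] => 0
  | b :: w => f b * u ^ w.length + u * Lin u f w

theorem Φ_sub (q : ℝ) (g : Bool → List Bool) (u : A) (f : Bool → A)
    (h : ∀ b, Φ q (g b) = u + f b) (w : List Bool) : Φ q (sub g w) = Pr u f w := by
  induction w with
  | nil => simp [sub, Φ, Pr]
  | cons b w ih =>
    simp only [sub, Pr, List.map_cons, List.flatten_cons, List.prod_cons, Φ_append, h] at ih ⊢
    rw [ih]

noncomputable def R1 (u : A) (f : Bool → A) (w : List Bool) : A := Pr u f w - u ^ w.length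
noncomputable def R2 (u : A) (f : Bool → A) (w : List Bool) : A := R1 u f w - Lin u f w

theorem R1_nil (u : A) (f : Bool → A) : R1 u f [] = 0 := by simp [R1, Pr]
theorem R2_nil (u : A) (f : Bool → A) : R2 u f [] = 0 := by simp [R2, R1_nil, Lin]
theorem R1_cons (u : A) (f : Bool → A) (b : Bool) (w : List Bool) :
    R1 u f (b :: w) = f b * Pr u f w + u * R1 u f w := by
  simp only [R1, Pr, List.map_cons, List.prod_cons, List.length_cons, pow_succ']; noncomm_ring
theorem R2_cons (u : A) (f : Bool → A) (b : Bool) (w : List Bool) :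
    R2 u f (b :: w) = f b * R1 u f w + u * R2 u f w := by
  simp only [R2, R1_cons, Lin]; simp only [R1]; noncomm_ring

theorem Lin_lin (u : A) (f g : Bool → A) (a c : ℝ) (w : List Bool) :
    Lin u (fun b => a • f b + c • g b) w = a • Lin u f w + c • Lin u g w := by
  induction w with
  | nil => simp [Lin]
  | cons b w ih =>
    simp only [Lin, ih, add_mul, mul_add, smul_mul_assoc, mul_smul_comm]; module

theorem Lin_append (u : A) (f : Bool → A) (w w' : List Bool) :
    Lin u f (w ++ w') = Lin u f w * u ^ w'.length + u ^ w.length * Lin u f w' := by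
  induction w with
  | nil => simp [Lin]
  | cons b w ih =>
    simp only [List.cons_append, Lin, ih, List.length_append, List.length_cons, pow_add, pow_one]
    rw [← pow_succ, pow_succ']; noncomm_ring

theorem Lin_map (u : A) (f : Bool → A) (g : Bool → Bool) (w : List Bool) :
    Lin u f (w.map g) = Lin u (fun b => f (g b)) w := by
  induction w with
  | nil => rfl
  | cons b w ih => simp only [List.map_cons, Lin, ih, List.length_map]

/-- the Prouhet-Thue-Morse word -/
def ptm : ℕ → List Bool
  | 0 => [true]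
  | k + 1 => ptm k ++ (ptm k).map not

theorem length_ptm (k : ℕ) : (ptm k).length = 2 ^ k := by
  induction k with
  | zero => rfl
  | succ k ih => simp [ptm, ih]; ring

theorem ptm_head (k : ℕ) : ∃ w, ptm k = true :: w := by
  induction k with
  | zero => exact ⟨[], rfl⟩
  | succ k ih => obtain ⟨w, h⟩ := ih; exact ⟨_, by rw [ptm, h]; rfl⟩

theorem ptm_small {u : A} (hu : Pb u) (δ : A) (M : ℕ) {c : ℝ} (k : ℕ)
    (h : ∀ j < k, nr (u ^ M * (1 - u ^ 2 ^ j)) ≤ c) :
    nr (u ^ (k * M) * Lin u (fun b => if b then δ else -δ) (ptm k) * u ^ (k * M)) ≤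
      (2 * c) ^ k * nr δ := by
  induction k with
  | zero => simp [ptm, Lin]
  | succ k ih =>
    have a1 := ih fun j hj => h j (by omega)
    have a2 := h k (by omega)
    have e1 : Lin u (fun b => if (!b) then δ else -δ) (ptm k) =
        -Lin u (fun b => if b then δ else -δ) (ptm k) := by
      have := Lin_lin u (fun b => if b then δ else -δ) (fun _ => 0) (-1) 0 (ptm k)
      simp only [neg_smul, one_smul, zero_smul, add_zero] at this
      rw [← this]; congr 1; funext b; cases b <;> simp
    rw [ptm, Lin_append, Lin_map, e1, List.length_map, length_ptm]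
    generalize Lin u (fun b => if b then δ else -δ) (ptm k) = Λ at a1 ⊢
    have e2 : u ^ ((k + 1) * M) * (Λ * u ^ 2 ^ k + u ^ 2 ^ k * -Λ) * u ^ ((k + 1) * M) =
        u ^ M * (1 - u ^ 2 ^ k) * (u ^ (k * M) * Λ * u ^ (k * M)) * u ^ M -
        u ^ M * ((u ^ (k * M) * Λ * u ^ (k * M)) * (u ^ M * (1 - u ^ 2 ^ k))) := by
      simp only [mul_add, add_mul, mul_sub, sub_mul, mul_one, one_mul, mul_neg, neg_mul,
        mul_assoc, ← pow_add]
      simp only [← mul_assoc, ← pow_add]
      rw [add_comm (k * M) M, add_comm (2 ^ k) (M + k * M), add_assoc M (2 ^ k), add_comm (2 ^ k),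
        ← add_assoc M, ← add_assoc (k * M), add_comm (k * M) M]
      abel
    rw [e2, pow_succ (2 * c)]
    generalize u ^ (k * M) * Λ * u ^ (k * M) = X at a1 ⊢
    generalize u ^ M * (1 - u ^ 2 ^ k) = Y at a2 ⊢
    have a3 := mul_le_mul a1 a2 (nr_nonneg _) ((nr_nonneg _).trans a1)
    linarith [nr_sub_le (Y * X * u ^ M) (u ^ M * (X * Y)), (hu.pow M).nr_mul_le' (Y * X),
      (hu.pow M).nr_mul_le (X * Y), nr_mul_le X Y, nr_mul_le Y X]

theorem comp_list {P : A} (hP : Pb P) {x γ : ℝ} (hx : 0 ≤ x) (hγ : 0 ≤ γ) (l : List A)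
    (h : ∀ a ∈ l, D x (a - P) (γ • P)) (hl : 2 * l.length * γ ≤ 1) :
    D (l.length * x) (l.prod - P ^ l.length) ((2 * l.length * γ) • P ^ l.length) := by
  induction l with
  | nil => simpa using D.zero le_rfl le_rfl
  | cons a l ih =>
    simp only [List.length_cons, Nat.cast_succ, List.prod_cons] at hl ⊢
    have a1 := ih (fun a ha => h a (by simp [ha])) (by linarith)
    have a2 := (h a (by simp)).mul_c (a1.of_sub (hP.pow _).nn (by linarith))
    refine ((a2.add ((a1.lmul hP.nn).mono_x (by linarith))).mono_x (by linarith)).congr ?_ ?_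
    · rw [pow_succ']; noncomm_ring
    · rw [pow_succ']; module

theorem comp_pow {u P : A} (hP : Pb P) {x γ ξ : ℝ} (hγ : 0 ≤ γ) (h : D x (u - P) (γ • P))
    {N : ℕ} (hN : 2 * N * γ ≤ ξ) (hξ : ξ ≤ 1) {n : ℕ} (hn : n ≤ N) :
    D (N * x) (u ^ n - P ^ n) (ξ • P ^ n) := by
  have hn' : (n : ℝ) ≤ N := by exact_mod_cast hn
  have a1 : 2 * n * γ ≤ ξ := le_trans (by gcongr) hN
  have := comp_list hP h.1 hγ (List.replicate n u) (fun a ha => by
    rw [List.eq_of_mem_replicate ha]; exact h) (by simpa using a1.trans hξ)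
  simp only [List.length_replicate, List.prod_replicate] at this
  exact this.mono_c (hP.pow n).nn (by have := h.1; gcongr) a1

theorem comp_Pr {u P : A} (hP : Pb P) {x γ : ℝ} (hγ : 0 ≤ γ) {f : Bool → A}
    (h : ∀ b, D x (u + f b - P) (γ • P)) {N : ℕ} (hN : 2 * N * γ ≤ 1) (w : List Bool)
    (hw : w.length ≤ N) : D (N * x) (Pr u f w) ((2 : ℝ) • P ^ w.length) := by
  have hn' : (w.length : ℝ) ≤ N := by exact_mod_cast hw
  have a1 : 2 * w.length * γ ≤ 1 := le_trans (by gcongr) hN
  have hx := (h true).1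
  have := comp_list hP hx hγ (w.map fun b => u + f b) (fun a ha => by
    obtain ⟨b, -, rfl⟩ := List.mem_map.1 ha; exact h b) (by simpa using a1)
  rw [List.length_map] at this
  exact (this.of_sub (hP.pow _).nn a1).mono_x (by gcongr)

/-- domination of first-defect expansions -/
theorem D_rec {u P : A} {x c : ℝ} (hx : 0 ≤ x) (f : Bool → A) (R X : List Bool → A) (N : ℕ)
    (h0 : R [] = 0) (h1 : ∀ b w, R (b :: w) = f b * X w + u * R w)
    (hX : ∀ i b w, i + 1 + w.length = N → D x (u ^ i * (f b * X w)) (c • P)) (w : List Bool)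
    (i : ℕ) (hw : i + w.length = N) : D x (u ^ i * R w) ((w.length * c) • P) := by
  induction w generalizing i with
  | nil => simpa [h0] using D.zero hx le_rfl
  | cons b w ih =>
    have a1 := hX i b w (by simp at hw; omega)
    have a2 := ih (i + 1) (by simp at hw; omega)
    refine (a1.add a2).congr (by rw [h1, pow_succ]; noncomm_ring) ?_
    simp only [List.length_cons, Nat.cast_succ]; module

theorem HT_rec {u G K H P : A} {x c : ℝ} (hx : 0 ≤ x) (f : Bool → A) (R X : List Bool → A) (N : ℕ)
    (h0 : R [] = 0) (h1 : ∀ b w, R (b :: w) = f b * X w + u * R w)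
    (hX : ∀ i b w, i + 1 + w.length = N → HT x (G * (u ^ i * (f b * X w)) * K) H (c • P))
    (w : List Bool) (i : ℕ) (hw : i + w.length = N) :
    HT x (G * (u ^ i * R w) * K) H ((w.length * c) • P) := by
  induction w generalizing i with
  | nil => simpa [h0] using HT.zero hx le_rfl
  | cons b w ih =>
    have a1 := hX i b w (by simp at hw; omega)
    have a2 := ih (i + 1) (by simp at hw; omega)
    refine (a1.add a2).congr (by rw [h1, pow_succ]; noncomm_ring) ?_
    simp only [List.length_cons, Nat.cast_succ]; module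

theorem sl_step {u v : A} (hu : Pb u) (hv : Pb v) {μ x ω : ℝ} (hSl : Sl v μ) {L m : ℕ}
    (hL : 0 < L) (hm0 : 0 < m) (h : D x (u - v ^ L) (ω • v ^ L)) (hm : 16 * L * μ ≤ m)
    (hω : 2 * ω ≤ 1) (h1 : (m + 1) * ω ^ 2 ≤ 1 / 1024)
    (h2 : (m + 1) * (2 * ω * (Real.exp x - 1)) ≤ 1 / 8) : Sl u (16 * (m + 1)) := by
  have hL' : (0 : ℝ) < L := by exact_mod_cast hL
  have hω0 : 0 ≤ ω := by simpa only [(hv.pow L).ms_smul] using ms_nonneg h.2.1
  have := Real.one_le_exp h.1
  have a1 := tv_pow hu (hv.pow L) h hω m (by nlinarith) (by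
    nlinarith [mul_nonneg hω0 (sub_nonneg.2 this)])
  have a2 := tv_pow hu (hv.pow L) h hω (m + 1) (by exact_mod_cast h1) (by exact_mod_cast h2)
  have a3 := hSl.bound hv (M := L * m) (ρ := 4 * L) (by positivity) (by positivity)
    (by push_cast; nlinarith) L
  rw [show (L : ℝ) / (4 * L) = 1 / 4 by field_simp, pow_mul, mul_sub, mul_one, ← pow_succ] at a3
  have a4 : nr (u ^ m - u ^ (m + 1)) ≤ 1 := by
    have e : u ^ m - u ^ (m + 1) = (u ^ m - (v ^ L) ^ m) + ((v ^ L) ^ m - (v ^ L) ^ (m + 1)) -
      (u ^ (m + 1) - (v ^ L) ^ (m + 1)) := by abel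
    rw [e]
    linarith [nr_sub_le ((u ^ m - (v ^ L) ^ m) + ((v ^ L) ^ m - (v ^ L) ^ (m + 1)))
      (u ^ (m + 1) - (v ^ L) ^ (m + 1)),
      nr_add_le (u ^ m - (v ^ L) ^ m) ((v ^ L) ^ m - (v ^ L) ^ (m + 1))]
  have a5 := overlap (hu.pow m) (hu.pow (m + 1))
  refine (zero_two hu (θ := 1 / 2) (by norm_num) (le_inf (hu.pow m).nn (hu.pow (m + 1)).nn)
    inf_le_left inf_le_right (by linarith)).mono (le_of_eq (by ring))

end Vale.Agent.P321.LB
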