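import Mathlib
import Vale.Agent.P321.LWord

/-! The gain from averaging over shifts. -/

namespace Vale.Agent.P321.LB

theorem sum_conv {M : Type*} [AddCommMonoid M] (I : ℕ) (g : ℕ → ℕ → M) :
    ∑ i ∈ Finset.range I, ∑ j ∈ Finset.range I, g i (i + j) =
      ∑ N ∈ Finset.range (2 * I),
        ∑ i ∈ (Finset.range I).filter (fun i => i ≤ N ∧ N - i < I), g i N := by
  simp only [Finset.sum_filter]
  rw [Finset.sum_comm (s := Finset.range (2 * I))]
  refine Finset.sum_congr rfl fun i hi => ?_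
  rw [← Finset.sum_filter]
  rw [Finset.mem_range] at hi
  refine Finset.sum_bij' (fun j _ => i + j) (fun N _ => N - i) ?_ ?_ ?_ ?_ ?_
  all_goals simp only [Finset.mem_range, Finset.mem_filter]
  all_goals intros
  all_goals first | omega | trivial

namespace Slip

variable {H X V V' : A} {I : ℕ} {T x ξ : ℝ}

theorem err (h : Slip H I X T (x * ξ) V V') (hX : Pb X) (hx : 0 ≤ x) (hξ : 0 ≤ ξ) :
    D x (X - V * Avg H I) (ξ • X) :=
  D.of_nr (smul_nonneg hξ hX.nn) hx (by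
    rw [nr_of_nonneg (sub_nonneg.2 h.le), hX.ms_smul]; exact h.ms)

theorem err' (h : Slip H I X T (x * ξ) V V') (hX : Pb X) (hx : 0 ≤ x) (hξ : 0 ≤ ξ) :
    D x (X - Avg H I * V') (ξ • X) :=
  D.of_nr (smul_nonneg hξ hX.nn) hx (by
    rw [nr_of_nonneg (sub_nonneg.2 h.le'), hX.ms_smul]; exact h.ms')

theorem absorb (h : Slip H I X T (x * ξ) V V') (hH : Pb H) (hX : Pb X) (hI : 0 < I) (hx : 0 ≤ x)
    (hξ : ξ ≤ T) {i : ℕ} (hi : i ≤ I) : D x (H ^ i * X) (T • X) := by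
  have h1 : H ^ i * (Avg H I * V') ≤ T • X := by
    have hI' : (I : ℝ) ≠ 0 := by positivity
    rw [Avg, smul_mul_assoc, mul_smul_comm, Finset.sum_mul, Finset.mul_sum]
    refine (smul_le_smul_of_nonneg_left (Finset.sum_le_card_nsmul _ _ (T • X) fun j hj => ?_)
      (by positivity)).trans (le_of_eq ?_)
    · rw [← mul_assoc, ← pow_add]
      exact h.pow' _ (by rw [Finset.mem_range] at hj; omega)
    · rw [Finset.card_range, ← Nat.cast_smul_eq_nsmul ℝ, smul_smul, inv_mul_cancel₀ hI', one_smul]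
  have h2 := (D.of_le (mul_nonneg (hH.pow i).nn (mul_nonneg (hH.avg hI).nn h.nn')) h1).approx hx
    (f := H ^ i * X) (by
      rw [← mul_sub, hX.ms_smul]
      refine ((hH.pow i).nr_mul_le _).trans ?_
      rw [nr_of_nonneg (sub_nonneg.2 h.le')]
      exact h.ms'.trans (by gcongr))
  rwa [zero_add] at h2

end Slip

/-- the data of one level, seen from the next one -/
structure Ctx (v u u' Δ V E Z Z' : A) (h J L L₁ a c b N : ℕ) (x α ξ T s : ℝ) : Prop where
  hv : Pb v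
  hu : Pb u
  hJ : 1 ≤ J
  hx : 0 ≤ x
  hα : 0 ≤ α
  hξ0 : 0 ≤ ξ
  hξ1 : ξ * J ≤ 1
  hξ2 : ξ ≤ 1 / 2
  hT : 1 ≤ T
  hs : 1 ≤ s
  hsx : Real.exp (-s) ≤ x
  hL : L = L₁ + h * J ^ 2
  hac : L = a + h + c
  hh : h ≤ N
  hb : b ≤ N
  fac : u = u' * v ^ (h * J ^ 2)
  du' : D x u' ((2 : ℝ) • v ^ L₁)
  mΔ : ms Δ = 0
  dΔ : D x Δ ((2 * α) • v ^ L)
  comp : ∀ n ≤ N, D x (u ^ n - v ^ (L * n)) (ξ • v ^ (L * n))
  dV : D x V ((1 : ℝ) • v ^ a)
  htE : HT x E (v ^ h) (α • v ^ c)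
  dP : ∀ i ≤ h * J ^ 2, D x (v ^ i * Δ - V * v ^ i * E) ((α / J) • v ^ (i + L))
  slip : Slip (v ^ h) (J ^ 2) (v ^ (L * b)) T (x * ξ) Z Z'

namespace Ctx

variable {v u u' Δ V E Z Z' : A} {h J L L₁ a c b N : ℕ} {x α ξ T s : ℝ}
  (C : Ctx v u u' Δ V E Z Z' h J L L₁ a c b N x α ξ T s)
include C

theorem up {n : ℕ} (hn : n ≤ N) : D x (u ^ n) ((2 : ℝ) • v ^ (L * n)) :=
  (C.comp n hn).of_sub (C.hv.pow _).nn (by linarith [C.hξ2])

theorem down {n : ℕ} (hn : n ≤ N) : D x (v ^ (L * n)) ((2 : ℝ) • u ^ n) :=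
  (C.comp n hn).rev (C.hv.pow _) (C.hu.pow _) C.hξ2

theorem errL : D x (u ^ b - Z * Avg (v ^ h) (J ^ 2)) ((2 * ξ) • v ^ (L * b)) :=
  ((C.comp b C.hb).add (C.slip.err (C.hv.pow _) C.hx C.hξ0)).congr (by abel) (by module)

theorem errR : D x (u ^ b - Avg (v ^ h) (J ^ 2) * Z') ((2 * ξ) • v ^ (L * b)) :=
  ((C.comp b C.hb).add (C.slip.err' (C.hv.pow _) C.hx C.hξ0)).congr (by abel) (by module)

theorem head1 {i n j : ℕ} (hi : i + 1 + n + 1 = h) (hj : j ≤ J ^ 2) {y τ : ℝ} {R : A}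
    (hR : D y R (τ • v ^ (L * n))) (hτ : 0 ≤ τ) :
    D (4 * x + y) ((v ^ h) ^ j * u ^ i * Δ * (R * u') * (v ^ h) ^ (J ^ 2 - j))
      ((16 * α * τ) • u ^ h) := by
  have hv := C.hv
  have hα := C.hα
  obtain ⟨k, hk⟩ := Nat.exists_eq_add_of_le hj
  have a1 := (((((C.up (n := i) (by have := C.hh; omega)).lmul ((hv.pow h).pow j).nn).mul_c
    C.dΔ).mul_c (hR.mul_c C.du')).rmul ((hv.pow h).pow (J ^ 2 - j)).nn).congr rfl
    (show _ = (8 * α * τ) • v ^ (L * h) by
      simp only [← pow_mul, ← pow_add]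
      congr 1
      · ring
      · congr 1
        rw [hk, add_tsub_cancel_left]
        conv_rhs => rw [← hi, mul_add, mul_one]
        nth_rw 5 [C.hL]
        rw [hk]; ring)
  exact ((a1.trans_c (C.down C.hh) (by positivity)).mono_x (by linarith)).congr rfl
    (by congr 1; ring)

theorem head2 {i n : ℕ} (hi : i + 1 + n + 1 = h) {y τ : ℝ} {R : A}
    (hR : D y R (τ • v ^ (L * n))) (hτ : 0 ≤ τ) (S : Finset ℕ) (hS : S ⊆ Finset.range (J ^ 2)) :
    D ((J + 6) * (2 * x + y) + 2 * x)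
      (∑ j ∈ S, (v ^ h) ^ j * u ^ i * Δ * (R * u') * (v ^ h) ^ (J ^ 2 - j))
      ((16 * s * J * α * τ) • u ^ h) := by
  have hv := C.hv
  have hα := C.hα
  have hx := C.hx
  have hy := hR.1
  have hs := C.hs
  have hJ : (1 : ℝ) ≤ J := by exact_mod_cast C.hJ
  have hS1 : ∀ j ∈ S, j ≤ J ^ 2 := fun j hj => (Finset.mem_range.1 (hS hj)).le
  have hS2 : S.card ≤ J ^ 2 := by simpa using Finset.card_le_card hS
  have hS3 : (S.card : ℝ) ≤ J ^ 2 := by exact_mod_cast hS2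
  have hR' := hR.mul_c C.du'
  have hy' : 3 * x + y ≤ (J + 6) * (2 * x + y) + x := by nlinarith
  have t1 := D.sum_c S (x := (J + 6) * (2 * x + y) + x) (c := ξ * (2 * α) * (τ * 2))
    (P := v ^ (L * h)) (by positivity) fun j hj =>
      ((((((C.comp i (by have := C.hh; omega)).lmul ((hv.pow h).pow j).nn).mul_c
        C.dΔ).mul_c hR').rmul ((hv.pow h).pow (J ^ 2 - j)).nn).mono_x (by linarith)).congr rfl
      (by
        obtain ⟨k, hk⟩ := Nat.exists_eq_add_of_le (hS1 j hj)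
        simp only [← pow_mul, ← pow_add]
        congr 2
        rw [hk, add_tsub_cancel_left]
        conv_rhs => rw [← hi, mul_add, mul_one]
        nth_rw 5 [C.hL]
        rw [hk]; ring)
  have t2 := D.sum_c S (x := (J + 6) * (2 * x + y) + x) (c := α / J * (τ * 2))
    (P := v ^ (L * h)) (by positivity) fun j hj =>
      (((((C.dP (h * j) (Nat.mul_le_mul_left h (hS1 j hj))).mul_c hR').rmul
        ((hv.pow h).pow (J ^ 2 - j)).nn).lmul (hv.pow (L * i)).nn).mono_x (by linarith)).congr rfl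
      (by
        obtain ⟨k, hk⟩ := Nat.exists_eq_add_of_le (hS1 j hj)
        simp only [← pow_mul, ← pow_add]
        congr 2
        rw [hk, add_tsub_cancel_left]
        conv_rhs => rw [← hi, mul_add, mul_one]
        nth_rw 5 [C.hL]
        rw [hk]; ring)
  have t3 := azuma (hv.pow h) ((hv.pow c).mul ((hv.pow (L * n)).mul (hv.pow L₁)))
    (by simp only [← pow_add]; exact (Commute.refl v).pow_pow _ _) (ε := α * (τ * 2))
    (x := x + (y + x)) (by positivity) hs (C.hsx.trans (by linarith))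
    (by simpa only [smul_mul_smul_comm] using C.htE.mul_right (hv.pow h) hR')
    J (J ^ 2) C.hJ S hS1 hS2
  have t4 := (((C.dV.mul_c t3).lmul (hv.pow (L * i)).nn).mono_x
    (y := (J + 6) * (2 * x + y) + x) (le_of_eq (by ring))).congr rfl
    (show _ = (1 * (s * J * (α * (τ * 2)))) • v ^ (L * h) by
      simp only [← pow_mul, ← pow_add]
      congr 2
      conv_rhs => rw [← hi, mul_add, mul_one, mul_add, mul_add, mul_one]
      nth_rw 6 [C.hL]
      nth_rw 4 [C.hac]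
      ring)
  have t5 := ((t1.add t2).add t4).congr
    (show _ = ∑ j ∈ S, (v ^ h) ^ j * u ^ i * Δ * (R * u') * (v ^ h) ^ (J ^ 2 - j) by
      rw [Finset.mul_sum, Finset.mul_sum, ← Finset.sum_add_distrib, ← Finset.sum_add_distrib]
      refine Finset.sum_congr rfl fun j _ => ?_
      rw [pow_mul v h j, mul_sub, (((Commute.refl v).pow_pow h (L * i)).pow_left j).eq]
      noncomm_ring) (by rw [← add_smul, ← add_smul])
  have t6 := t5.mono_c (hv.pow _).nn le_rfl (c' := 8 * s * J * α * τ) (by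
    have b1 : S.card * (ξ * (2 * α) * (τ * 2)) ≤ 4 * J * (α * τ) := by
      have := C.hξ0
      calc _ ≤ J ^ 2 * (ξ * (2 * α) * (τ * 2)) := by gcongr
        _ = (ξ * J) * (4 * J * (α * τ)) := by ring
        _ ≤ _ := mul_le_of_le_one_left (by positivity) C.hξ1
    have b2 : S.card * (α / J * (τ * 2)) ≤ 2 * J * (α * τ) := by
      calc _ ≤ J ^ 2 * (α / J * (τ * 2)) := by gcongr
        _ = _ := by field_simp
    nlinarith [mul_nonneg (sub_nonneg.2 hs) (show 0 ≤ J * (α * τ) by positivity)])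
  exact ((t6.trans_c (C.down C.hh) (by positivity)).mono_x (le_of_eq (by ring))).congr rfl
    (by congr 1; ring)

theorem gain {i n c₃ : ℕ} (hi : i + 1 + n + 1 = h) {y τ : ℝ} {R : A}
    (hR : D y R (τ • v ^ (L * n))) (hτ : 0 ≤ τ) :
    HT ((J + 6) * (2 * x + y) + 3 * x)
      (Avg (v ^ h) (J ^ 2) * (u ^ i * (Δ * R)) * u ^ (1 + b + c₃)) (u ^ h)
      ((256 * s * T * α * τ / J) • u ^ (b + c₃)) := by
  have hv := C.hv
  have hu := C.hu
  have hα := C.hα
  have hx := C.hx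
  have hy := hR.1
  have hs := C.hs
  have hT := C.hT
  have hξ := C.hξ0
  have hJ : (1 : ℝ) ≤ J := by exact_mod_cast C.hJ
  have hI : 0 < J ^ 2 := by have := C.hJ; positivity
  obtain ⟨H, hH⟩ : ∃ H, H = v ^ h := ⟨_, rfl⟩
  have hHP : Pb H := hH ▸ hv.pow h
  obtain ⟨g, hg⟩ : ∃ g : ℕ → A, g = fun j => H ^ j * u ^ i * Δ * (R * u') * H ^ (J ^ 2 - j) :=
    ⟨_, rfl⟩
  have hm : ∀ j, ms (g j) = 0 := fun j => by simp [hg, C.mΔ]
  have hsl := C.slip
  rw [← hH] at hsl ⊢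
  have t1 := (HT.sum_c (Finset.range (J ^ 2)) (x := (J + 6) * (2 * x + y) + 3 * x)
    (c := 2 * (16 * α * τ) * (2 * ξ * T * 2)) (P := u ^ (b + c₃)) (H := u ^ h)
    (E := fun j => g j * (H ^ j * (u ^ b - Avg H (J ^ 2) * Z') * u ^ c₃)) (by positivity)
    fun j hj => by
      have hj := (Finset.mem_range.1 hj).le
      have b1 := C.head1 hi hj hR hτ
      have b2 := (((C.errR.lmul ((hv.pow h).pow j).nn).trans_c
        (C.slip.absorb (hv.pow h) (hv.pow _) hI hx (by linarith [C.hξ2]) hj)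
        (by positivity)).trans_c (C.down C.hb) (by positivity)).rmul (hu.pow c₃).nn
      rw [← hH, ← pow_add] at b2
      rw [← hH] at b1
      exact (HT.of_D_mul (b1.congr (by rw [hg]) rfl) (hu.pow h) (hm j) b2).mono (by nlinarith)
        le_rfl).smul_c
    (c := ((J ^ 2 : ℕ) : ℝ)⁻¹) (by positivity)
  have t2 := (HT.sum_c (Finset.range (2 * J ^ 2)) (x := (J + 6) * (2 * x + y) + 3 * x)
    (c := 2 * (16 * s * J * α * τ) * (T * 2)) (P := u ^ (b + c₃)) (H := u ^ h)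
    (E := fun M => (∑ j ∈ (Finset.range (J ^ 2)).filter (fun j => j ≤ M ∧ M - j < J ^ 2), g j) *
      (H ^ M * Z' * u ^ c₃)) (by positivity)
    fun M hM => by
      have b1 := C.head2 hi hR hτ _ (Finset.filter_subset (fun j => j ≤ M ∧ M - j < J ^ 2) _)
      have b2 := ((D.of_le (mul_nonneg (hHP.pow M).nn hsl.nn')
        (hsl.pow' M (Finset.mem_range.1 hM).le)).trans_c (C.down C.hb) (by positivity)).rmul
        (hu.pow c₃).nn
      rw [← pow_add] at b2
      rw [← hH] at b1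
      exact (HT.of_D_mul (b1.congr (by rw [hg]) rfl) (hu.pow h) (by simp [hm]) b2).mono (le_of_eq (by ring))
        le_rfl).smul_c
    (c := ((J ^ 2 : ℕ) : ℝ)⁻¹ * ((J ^ 2 : ℕ) : ℝ)⁻¹) (by positivity)
  refine ((t1.add t2).congr ?_ (add_smul _ _ _).symm).mono_c (hu.pow _).nn le_rfl ?_
  · simp only [Finset.sum_mul]
    rw [← sum_conv (J ^ 2) fun j M => g j * (H ^ M * Z' * u ^ c₃), mul_smul, ← smul_add,
      Finset.smul_sum, ← Finset.sum_add_distrib]
    conv_rhs => rw [Avg, smul_mul_assoc, smul_mul_assoc, Finset.sum_mul, Finset.sum_mul]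
    congr 1
    refine Finset.sum_congr rfl fun j hj => ?_
    have e1 : ((J ^ 2 : ℕ) : ℝ)⁻¹ • ∑ k ∈ Finset.range (J ^ 2), g j * (H ^ (j + k) * Z' * u ^ c₃) =
        g j * (H ^ j * (Avg H (J ^ 2) * Z') * u ^ c₃) := by
      simp only [Avg, smul_mul_assoc, mul_smul_comm, Finset.sum_mul, Finset.mul_sum, pow_add,
        mul_assoc]
    have e2 : u ^ (1 + b + c₃) = u' * (H ^ (J ^ 2 - j) * H ^ j) * u ^ b * u ^ c₃ := by
      rw [← pow_add, Nat.sub_add_cancel (Finset.mem_range.1 hj).le, hH, ← pow_mul, ← C.fac,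
        pow_add, pow_add, pow_one]
    rw [e1, e2, hg]
    noncomm_ring
  · simp only [Finset.card_range]
    push_cast
    have b1 : ξ * J * (128 * T * α * τ / J) ≤ s * (128 * T * α * τ / J) := by
      gcongr; linarith [C.hξ1]
    calc _ = ξ * J * (128 * T * α * τ / J) + s * (128 * T * α * τ / J) := by field_simp; ring
      _ ≤ s * (128 * T * α * τ / J) + s * (128 * T * α * τ / J) := by gcongr
      _ = _ := by ring

end Ctx

end Vale.Agent.P321.LB
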