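import Mathlib
import Vale.Agent.P321.LWord

/-! A Hilbert structure relative to an i.i.d. reference, and radial elements. -/

namespace Vale.Agent.P321.LB

open MonoidAlgebra

/-- integration of a test function -/
noncomputable def pair (φ : W → ℝ) : A →ₗ[ℝ] ℝ :=
  (Finsupp.linearCombination ℝ φ).comp (coeffLinearEquiv ℝ).toLinearMap

theorem pair_eq (φ : W → ℝ) (a : A) : pair φ a = a.coeff.sum fun t c => c * φ t := by
  simp [pair, Finsupp.linearCombination_apply]

theorem pair_single (φ : W → ℝ) (t : W) (c : ℝ) : pair φ (single t c) = c * φ t := by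
  simp [pair_eq]

theorem pair_mono {φ ψ : W → ℝ} {a : A} (ha : 0 ≤ a) (h : ∀ t, φ t ≤ ψ t) :
    pair φ a ≤ pair ψ a := by
  rw [pair_eq, pair_eq]
  exact Finset.sum_le_sum fun t _ => mul_le_mul_of_nonneg_left (h t) (le_def.1 ha t)

theorem pair_const (c : ℝ) (a : A) : pair (fun _ => c) a = c * ms a := by
  rw [pair_eq, ms_eq, Finsupp.sum, Finsupp.sum, Finset.mul_sum]
  simp [mul_comm]

theorem pair_lin (φ ψ : W → ℝ) (c d : ℝ) (a : A) :
    pair (fun t => c * φ t + d * ψ t) a = c * pair φ a + d * pair ψ a := by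
  simp only [pair_eq, Finsupp.sum, Finset.mul_sum, ← Finset.sum_add_distrib]
  exact Finset.sum_congr rfl fun _ _ => by ring

theorem pair_wtd (φ ψ : W → ℝ) (a : A) : pair φ (wtd ψ a) = pair (fun t => ψ t * φ t) a := by
  rw [pair_eq, pair_eq, Finsupp.sum_of_support_subset (wtd ψ a).coeff (s := a.coeff.support)
    (fun t ht => by
      rw [Finsupp.mem_support_iff] at ht ⊢
      rw [coeff_wtd] at ht
      exact left_ne_zero_of_mul ht) _ (by simp)]
  simp [Finsupp.sum, mul_assoc, coeff_wtd]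

theorem ms_wtd (ψ : W → ℝ) (a : A) : ms (wtd ψ a) = pair ψ a := by
  simpa [pair_const] using pair_wtd (fun _ => 1) ψ a

theorem abs_pair_le {φ : W → ℝ} (h : ∀ t, |φ t| ≤ 1) (a : A) : |pair φ a| ≤ nr a := by
  rw [← ms_wtd]
  refine (abs_ms_le _).trans (nr_le (le_def.2 fun t => ?_))
  rw [coeff_abs, coeff_abs, coeff_wtd, abs_mul]
  exact mul_le_of_le_one_right (abs_nonneg _) (h t)

theorem pair_lt_mul (φ : W → ℝ) (b : Bool) (X : A) :
    pair φ (lt b * X) = pair (fun t => φ (FreeMonoid.of b * t)) X := by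
  induction X using MonoidAlgebra.induction_linear with
  | zero => simp
  | add x y hx hy => rw [mul_add, map_add, map_add, hx, hy]
  | single t c => simp [lt, pair_single]

theorem coeff_lt_mul (b c : Bool) (X : A) (t : W) :
    (lt b * X).coeff (FreeMonoid.of c * t) = if b = c then X.coeff t else 0 := by
  split_ifs with h
  · rw [h, lt, coeff_single_mul_mul, one_mul]
  · exact coeff_single_mul_of_forall_mul_ne _ _ fun d hd => h (List.cons.inj hd).1

theorem coeff_lt_mul_one (b : Bool) (X : A) : (lt b * X).coeff 1 = 0 :=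
  coeff_single_mul_of_forall_mul_ne _ _ fun _ hd => List.cons_ne_nil _ _ hd

/-- integration of a function of the length -/
noncomputable def mom (φ : ℕ → ℝ) : A →ₗ[ℝ] ℝ := pair fun t => φ t.length

section

variable (ϖ : Bool → ℝ)

noncomputable def wt : W →* ℝ := FreeMonoid.lift ϖ
noncomputable def Dl : A := ϖ true • lt true + ϖ false • lt false
noncomputable def eta : A := lt true - Dl ϖ

noncomputable def ip : A →ₗ[ℝ] A →ₗ[ℝ] ℝ :=
  LinearMap.mk₂ ℝ (fun e f => pair (fun t => f.coeff t / wt ϖ t) e)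
    (fun _ _ _ => map_add _ _ _) (fun _ _ _ => map_smul _ _ _)
    (fun e f g => by
      simpa [add_div] using pair_lin (fun t => f.coeff t / wt ϖ t) (fun t => g.coeff t / wt ϖ t)
        1 1 e)
    (fun c e f => by
      simpa [mul_div_assoc] using pair_lin (fun t => f.coeff t / wt ϖ t) (fun _ => 0) c 0 e)

theorem ip_apply (e f : A) : ip ϖ e f = pair (fun t => f.coeff t / wt ϖ t) e := rfl

theorem ip_comm (e f : A) : ip ϖ e f = ip ϖ f e := by
  classical
  rw [ip_apply, ip_apply, pair_eq, pair_eq,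
    Finsupp.sum_of_support_subset _ (Finset.subset_union_left (s₂ := f.coeff.support)) _ (by simp),
    Finsupp.sum_of_support_subset _ (Finset.subset_union_right (s₁ := e.coeff.support)) _
      (by simp)]
  exact Finset.sum_congr rfl fun _ _ => by ring

theorem ip_lt (b c : Bool) (X Y : A) :
    ip ϖ (lt b * X) (lt c * Y) = if c = b then ip ϖ X Y / ϖ b else 0 := by
  rw [ip_apply, pair_lt_mul]
  simp only [coeff_lt_mul, map_mul]
  split_ifs
  · have := pair_lin (fun t => Y.coeff t / wt ϖ t) (fun _ => 0) (ϖ b)⁻¹ 0 X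
    rw [ip_apply, div_eq_inv_mul, ← add_zero (_ * _), ← zero_mul (pair (fun _ => 0) X), ← this]
    congr 2; funext t; simp [wt]; ring
  · simp [pair_const]

theorem ip_one (Y : A) : ip ϖ 1 Y = Y.coeff 1 := by
  rw [ip_apply, one_def, pair_single]; simp

def Rad (F : A) : Prop := ∃ f : Polynomial ℝ, Polynomial.aeval (Dl ϖ) f = F

variable {ϖ}

theorem Rad.mul {F G : A} (h : Rad ϖ F) (h' : Rad ϖ G) : Rad ϖ (F * G) := by
  obtain ⟨f, rfl⟩ := h; obtain ⟨g, rfl⟩ := h'; exact ⟨f * g, map_mul _ _ _⟩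

theorem Rad.pow {F : A} (h : Rad ϖ F) (n : ℕ) : Rad ϖ (F ^ n) := by
  obtain ⟨f, rfl⟩ := h; exact ⟨f ^ n, map_pow _ _ _⟩

theorem Rad.lazy (a b : ℝ) : Rad ϖ (a • 1 + b • Dl ϖ) :=
  ⟨Polynomial.C a + Polynomial.C b * Polynomial.X, by simp [Algebra.smul_def]⟩

theorem Rad.ind {P : A → Prop} (h1 : ∀ n, P (Dl ϖ ^ n)) (h2 : ∀ a b, P a → P b → P (a + b))
    (h3 : ∀ (c : ℝ) a, P a → P (c • a)) {F : A} (h : Rad ϖ F) : P F := by
  obtain ⟨f, rfl⟩ := h
  induction f using Polynomial.induction_on' with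
  | add p q hp hq => rw [map_add]; exact h2 _ _ hp hq
  | monomial n a => rw [Polynomial.aeval_monomial, ← Algebra.smul_def]; exact h3 _ _ (h1 n)

variable (h0 : ∀ b, 0 < ϖ b) (h1 : ϖ true + ϖ false = 1)

include h0 in
theorem wt_pos (t : W) : 0 < wt ϖ t := by
  induction t using FreeMonoid.inductionOn' with
  | one => simp
  | of_mul b t ih => rw [map_mul]; exact mul_pos (h0 b) ih

include h0 in
theorem ip_self_nonneg (e : A) : 0 ≤ ip ϖ e e := by
  rw [ip_apply, pair_eq]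
  exact Finset.sum_nonneg fun t _ => by
    show 0 ≤ e.coeff t * (e.coeff t / wt ϖ t)
    rw [← mul_div_assoc]; exact div_nonneg (mul_self_nonneg _) (wt_pos h0 t).le

include h0 in
theorem ip_le (e f : A) : 2 * ip ϖ e f ≤ ip ϖ e e + ip ϖ f f := by
  have := ip_self_nonneg h0 (e - f)
  simp only [map_sub, LinearMap.sub_apply, ip_comm ϖ f e] at this
  linarith

include h0 h1

theorem Pb.dl : Pb (Dl ϖ) := (Pb.lt _).conv (Pb.lt _) (h0 _).le (h0 _).le h1

omit h0 in
theorem mom_D (φ : ℕ → ℝ) (X : A) : mom φ (Dl ϖ * X) = mom (fun n => φ (n + 1)) X := by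
  simp only [mom, Dl, add_mul, smul_mul_assoc, map_add, map_smul, pair_lt_mul, smul_eq_mul,
    FreeMonoid.length_mul, FreeMonoid.length_of, add_comm 1]
  rw [← add_mul, h1, one_mul]

omit h0 in
theorem mom_Dpow (φ : ℕ → ℝ) (n : ℕ) : mom φ (Dl ϖ ^ n) = φ n := by
  induction n generalizing φ with
  | zero => rw [pow_zero, mom, one_def, pair_single]; simp
  | succ n ih => rw [pow_succ', mom_D h1, ih]

theorem ip_DD (X Y : A) : ip ϖ (Dl ϖ * X) (Dl ϖ * Y) = ip ϖ X Y := by
  have a := (h0 true).ne'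
  have b := (h0 false).ne'
  simp [Dl, add_mul, ip_lt]
  field_simp
  rw [h1, mul_one]

theorem ip_eD (X Y : A) : ip ϖ (eta ϖ * X) (Dl ϖ * Y) = 0 := by
  have a := (h0 true).ne'
  rw [eta, sub_mul, map_sub, LinearMap.sub_apply, ip_DD h0 h1]
  simp [Dl, add_mul, ip_lt]
  field_simp
  ring

theorem ip_ee (X Y : A) : ip ϖ (eta ϖ * X) (eta ϖ * Y) = (1 / ϖ true - 1) * ip ϖ X Y := by
  have a := (h0 true).ne'
  nth_rw 2 [eta]
  rw [sub_mul, map_sub, ip_eD h0 h1, eta, Dl]
  simp [sub_mul, add_mul, ip_lt]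
  field_simp

omit h0 h1 in
theorem ip_1D (Y : A) : ip ϖ 1 (Dl ϖ * Y) = 0 := by
  simp [ip_one, Dl, add_mul, coeff_lt_mul_one]

omit h0 h1 in
theorem ip_1e (Y : A) : ip ϖ 1 (eta ϖ * Y) = 0 := by
  rw [eta, sub_mul, map_sub, ip_1D, ip_one, coeff_lt_mul_one, sub_zero]

theorem Rad.orth {F G : A} (hF : Rad ϖ F) (hG : Rad ϖ G) (Y : A) :
    ip ϖ F (G * (eta ϖ * Y)) = 0 := by
  have key : ∀ i j, ip ϖ (Dl ϖ ^ i) (Dl ϖ ^ j * (eta ϖ * Y)) = 0 := by
    intro i
    induction i with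
    | zero => rintro (_ | j) <;> simp [ip_1e, pow_succ', mul_assoc, ip_1D]
    | succ i ih =>
      rintro (_ | j)
      · rw [pow_succ', pow_zero, one_mul, ip_comm, ip_eD h0 h1]
      · rw [pow_succ', pow_succ', mul_assoc, ip_DD h0 h1, ih]
  refine hF.ind (P := fun F => ip ϖ F (G * (eta ϖ * Y)) = 0) (fun i => ?_)
    (fun a b ha hb => by simp [ha, hb]) (fun c a ha => by simp [ha])
  exact hG.ind (P := fun G => ip ϖ (Dl ϖ ^ i) (G * (eta ϖ * Y)) = 0) (key i)
    (fun a b ha hb => by simp [add_mul, ha, hb]) (fun c a ha => by simp [ha])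

theorem Rad.ip_eta {F G : A} (hF : Rad ϖ F) (hG : Rad ϖ G) (X Y : A) :
    ip ϖ (F * (eta ϖ * X)) (G * (eta ϖ * Y)) = (1 / ϖ true - 1) * ip ϖ X Y * ip ϖ F G := by
  have key : ∀ i j, ip ϖ (Dl ϖ ^ i * (eta ϖ * X)) (Dl ϖ ^ j * (eta ϖ * Y)) =
      (1 / ϖ true - 1) * ip ϖ X Y * ip ϖ (Dl ϖ ^ i) (Dl ϖ ^ j) := by
    intro i
    induction i with
    | zero =>
      rintro (_ | j)
      · simp [ip_ee h0 h1, ip_one]
      · simp [pow_succ', mul_assoc, ip_1D, ip_eD h0 h1]
    | succ i ih =>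
      rintro (_ | j)
      · rw [pow_succ', pow_zero, one_mul, ip_comm, mul_assoc, ip_eD h0 h1, ip_comm ϖ _ 1, ip_1D,
          mul_zero]
      · rw [pow_succ', pow_succ', mul_assoc, mul_assoc, ip_DD h0 h1, ih, ip_DD h0 h1]
  refine hF.ind (P := fun F => ip ϖ (F * (eta ϖ * X)) (G * (eta ϖ * Y)) =
    (1 / ϖ true - 1) * ip ϖ X Y * ip ϖ F G) (fun i => ?_)
    (fun a b ha hb => by simp only [add_mul, map_add, LinearMap.add_apply, ha, hb]; ring)
    (fun c a ha => by
      simp only [smul_mul_assoc, map_smul, LinearMap.smul_apply, ha, smul_eq_mul]; ring)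
  exact hG.ind (P := fun G => ip ϖ (Dl ϖ ^ i * (eta ϖ * X)) (G * (eta ϖ * Y)) =
    (1 / ϖ true - 1) * ip ϖ X Y * ip ϖ (Dl ϖ ^ i) G) (key i)
    (fun a b ha hb => by simp only [add_mul, map_add, ha, hb]; ring)
    (fun c a ha => by simp only [smul_mul_assoc, map_smul, ha, smul_eq_mul]; ring)

omit h0 h1 in
theorem coeff_Dpow (n : ℕ) (t : W) :
    (Dl ϖ ^ n).coeff t = (if t.length = n then 1 else 0) * wt ϖ t := by
  induction n generalizing t with
  | zero =>
    classical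
    simp only [pow_zero, one_def, coeff_single, Finsupp.single_apply, FreeMonoid.length_eq_zero,
      eq_comm (a := t)]
    split_ifs with h
    · simp [← h]
    · simp
  | succ n ih =>
    rw [pow_succ']
    generalize Dl ϖ ^ n = X at ih
    induction t using FreeMonoid.casesOn with
    | one => simp [Dl, add_mul, coeff_lt_mul_one]
    | of_mul c t =>
      cases c <;> simp [Dl, add_mul, coeff_lt_mul, ih, wt, FreeMonoid.length_mul, add_comm 1]

/-- a radial probability element with mean length `μ`, variance at most `V` and point masses at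
most `w` -/
structure RP (ϖ : Bool → ℝ) (F : A) (μ V w : ℝ) : Prop where
  rad : Rad ϖ F
  pb : Pb F
  var : mom (fun n => (n - μ) ^ 2) F ≤ V
  sm : nr ((1 - Dl ϖ) * F) ≤ w

theorem RP.dens {F : A} {μ V w : ℝ} (h : RP ϖ F μ V w) :
    ∃ f : ℕ → ℝ, (∀ t, F.coeff t / wt ϖ t = f t.length) ∧ ∀ n, 0 ≤ f n ∧ f n ≤ w := by
  obtain ⟨f, hf⟩ := h.rad.ind (P := fun F => ∃ f : ℕ → ℝ, ∀ t, F.coeff t = f t.length * wt ϖ t)
    (fun n => ⟨fun m => if m = n then 1 else 0, coeff_Dpow n⟩)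
    (fun a b ⟨f, hf⟩ ⟨g, hg⟩ => ⟨f + g, fun t => by simp [hf, hg, add_mul]⟩)
    (fun c a ⟨f, hf⟩ => ⟨c • f, fun t => by simp [hf, mul_assoc]⟩)
  have h2 : ∀ t, F.coeff t / wt ϖ t = f t.length := fun t => by
    rw [hf, mul_div_cancel_right₀ _ (wt_pos h0 t).ne']
  have h3 : ∀ n, f n = mom (fun m => if m = n then 1 else 0) F := fun n => by
    rw [← mom_Dpow h1 f n, mom, ← funext h2, ← ip_apply, ip_comm, ip_apply, mom]
    congr 2; funext t
    rw [coeff_Dpow, mul_div_cancel_right₀ _ (wt_pos h0 t).ne']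
  refine ⟨f, h2, fun n => ⟨?_, ?_⟩⟩
  · rw [h3]
    refine le_trans (by simp [pair_const]) (pair_mono (φ := fun _ => 0) h.pb.nn fun t => ?_)
    dsimp only
    split_ifs <;> simp
  · have := abs_pair_le (φ := fun t => if t.length ≤ n then 1 else 0)
      (fun t => by split_ifs <;> simp) ((1 - Dl ϖ) * F)
    refine le_trans (le_of_eq ?_) ((le_abs_self _).trans (this.trans h.sm))
    have e := pair_lin (fun t => if t.length ≤ n then 1 else 0)
      (fun t => if t.length + 1 ≤ n then 1 else 0) 1 (-1) F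
    rw [sub_mul, one_mul, map_sub]
    have e2 := mom_D h1 (fun m => if m ≤ n then 1 else 0) F
    simp only [mom] at e2
    rw [e2, h3, sub_eq_add_neg, ← one_mul (pair _ F), ← neg_one_mul, ← e, mom]
    congr 2; funext t
    split_ifs <;> first | omega | simp

theorem RP.ip_le {F G : A} {μ ν V V' w w' : ℝ} (h : RP ϖ F μ V w) (h' : RP ϖ G ν V' w') :
    0 ≤ ip ϖ F G ∧ ip ϖ F G ≤ w' := by
  obtain ⟨g, g1, g2⟩ := h'.dens h0 h1
  rw [ip_apply, funext g1]
  exact ⟨by simpa [pair_const] using pair_mono (φ := fun _ => 0) h.pb.nn fun t => (g2 _).1,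
    by simpa [pair_const, h.pb.ms] using pair_mono (ψ := fun _ => w') h.pb.nn fun t => (g2 _).2⟩

theorem RP.ip_far {F G : A} {μ ν V w : ℝ} (h : RP ϖ F μ V w) (h' : RP ϖ G ν V w) :
    (μ - ν) ^ 2 * ip ϖ F G ≤ 8 * w * V := by
  obtain ⟨f, f1, f2⟩ := h.dens h0 h1
  obtain ⟨g, g1, g2⟩ := h'.dens h0 h1
  have hw : 0 ≤ w := (f2 0).1.trans (f2 0).2
  have a1 : pair (fun t => g t.length * (t.length - ν) ^ 2) F ≤ w * V := by
    have e : pair (fun t => g t.length * (t.length - ν) ^ 2) F =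
        ip ϖ F (wtd (fun t => (t.length - ν) ^ 2) G) := by
      rw [ip_apply]; congr 2; funext t; rw [coeff_wtd, ← g1]; ring
    rw [e, ip_comm, ip_apply, pair_wtd]
    refine (pair_mono (ψ := fun t => w * (t.length - ν) ^ 2 + 0 * 0) h'.pb.nn fun t => ?_).trans ?_
    · rw [f1]; nlinarith [mul_le_mul_of_nonneg_left (f2 t.length).2 (sq_nonneg (t.length - ν : ℝ))]
    · rw [pair_lin]; simpa [mom] using mul_le_mul_of_nonneg_left h'.var hw
  have a2 := pair_mono (φ := fun t => (μ - ν) ^ 2 * g t.length + 0 * 0)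
    (ψ := fun t => (2 * w) * (t.length - μ) ^ 2 + 2 * (g t.length * (t.length - ν) ^ 2)) h.pb.nn
    fun t => by
      obtain ⟨b1, b2⟩ := g2 t.length
      nlinarith [mul_nonneg b1 (sq_nonneg (2 * (t.length : ℝ) - μ - ν)),
        mul_le_mul_of_nonneg_right b2 (sq_nonneg (t.length - μ : ℝ))]
  rw [pair_lin, pair_lin] at a2
  have a3 := mul_le_mul_of_nonneg_left h.var hw
  have a4 : 0 ≤ w * V := le_trans (mul_nonneg hw (by
    simpa [pair_const, mom] using pair_mono (φ := fun _ => 0) (ψ := fun t => (t.length - μ : ℝ) ^ 2)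
      h.pb.nn fun t => sq_nonneg _)) a3
  rw [ip_apply, funext g1]
  simp only [mom] at a3
  linarith

theorem tv_le {P R : A} (hP : Pb P) (hR : Pb R) {μ V t s : ℝ} (ht : 1 ≤ t) (hs : 0 < s)
    (hV : mom (fun n => (n - μ) ^ 2) R ≤ V) :
    nr (P - R) ≤ 2 * V / t ^ 2 + s * ip ϖ (P - R) (P - R) + 4 * t / s := by
  classical
  obtain ⟨I, hI⟩ : ∃ I, I = Finset.Ico ⌈μ - t⌉₊ (⌈μ - t⌉₊ + (⌈2 * t⌉₊ + 1)) := ⟨_, rfl⟩
  have a1 : R - P ⊓ R ≤ wtd (fun u => (u.length - μ) ^ 2 / t ^ 2) R +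
      (s / 2) • wtd (fun u => (P - R).coeff u / wt ϖ u) (P - R) +
      (2 * s)⁻¹ • ∑ n ∈ I, Dl ϖ ^ n := le_def.2 fun u => by
    have b1 := wt_pos h0 u
    have b2 : 0 ≤ P.coeff u := le_def.1 hP.nn u
    have b3 : 0 ≤ R.coeff u := le_def.1 hR.nn u
    simp only [coeff_sub, coeff_add, coeff_smul, coeff_sum, Finsupp.coe_sub, Finsupp.coe_add,
      Finsupp.coe_smul, Finsupp.coe_finsetSum, Pi.sub_apply, Pi.add_apply, Pi.smul_apply,
      Finset.sum_apply, coeff_inf, coeff_wtd, smul_eq_mul, coeff_Dpow, ← Finset.sum_mul,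
      Finset.sum_ite_eq]
    generalize P.coeff u = p at *
    generalize R.coeff u = r at *
    have b4 : 0 ≤ (p - r) * ((p - r) / wt ϖ u) := by
      rw [← mul_div_assoc]; exact div_nonneg (mul_self_nonneg _) b1.le
    split_ifs with hu
    · have b5 : r - min p r ≤ |p - r| := by
        rw [min_def]; split_ifs
        · rw [abs_sub_comm]; exact le_abs_self _
        · simp
      have b6 : |p - r| ≤ s / 2 * ((p - r) * ((p - r) / wt ϖ u)) + (2 * s)⁻¹ * (1 * wt ϖ u) := by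
        rw [← sub_nonneg]
        have : s / 2 * ((p - r) * ((p - r) / wt ϖ u)) + (2 * s)⁻¹ * (1 * wt ϖ u) - |p - r| =
            (s * |p - r| - wt ϖ u) ^ 2 / (2 * s * wt ϖ u) := by
          rw [← mul_div_assoc, ← abs_mul_abs_self (p - r)]; field_simp; ring
        rw [this]; positivity
      have : 0 ≤ r * ((u.length - μ) ^ 2 / t ^ 2) := by positivity
      linarith
    · have b5 : 1 ≤ (u.length - μ) ^ 2 / t ^ 2 := by
        rw [le_div_iff₀ (by positivity), one_mul, sq_le_sq, abs_of_pos (by linarith)]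
        rw [hI, Finset.mem_Ico, not_and_or, not_le, not_lt] at hu
        rcases hu with hu | hu
        · rw [Nat.lt_ceil] at hu
          exact le_abs.2 (Or.inr (by linarith))
        · have c1 : ((⌈μ - t⌉₊ + (⌈2 * t⌉₊ + 1) : ℕ) : ℝ) ≤ u.length := by exact_mod_cast hu
          push_cast at c1
          exact le_abs.2 (Or.inl (by linarith [Nat.le_ceil (μ - t), Nat.le_ceil (2 * t)]))
      have := le_min b2 b3
      nlinarith [mul_le_mul_of_nonneg_left b5 b3]
  have a2 := ms_mono a1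
  have a3 : pair (fun u => (u.length - μ) ^ 2 / t ^ 2) R ≤ V / t ^ 2 := by
    have := pair_lin (fun u => (u.length - μ : ℝ) ^ 2) (fun _ => 0) (t ^ 2)⁻¹ 0 R
    simp only [mul_zero, add_zero, zero_mul, ← div_eq_inv_mul] at this
    rw [this]; gcongr; exact hV
  have a4 : (I.card : ℝ) ≤ 4 * t := by
    rw [hI, Nat.card_Ico, add_tsub_cancel_left]
    push_cast
    linarith [Nat.ceil_lt_add_one (show 0 ≤ 2 * t by linarith)]
  simp only [map_sub, map_add, map_smul, map_sum, ms_wtd, overlap hP hR, hR.ms, smul_eq_mul,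
    ((Pb.dl h0 h1).pow _).ms, Finset.sum_const, nsmul_eq_mul, mul_one, ← ip_apply] at a2
  have a5 : (2 * s)⁻¹ * I.card ≤ 4 * t / s / 2 := by
    calc _ ≤ (2 * s)⁻¹ * (4 * t) := by gcongr
      _ = _ := by field_simp
  rw [mul_div_assoc]
  simp only [map_sub, LinearMap.sub_apply] at a2 ⊢
  linarith

end

end Vale.Agent.P321.LB
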