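import Mathlib
import Vale.Agent.P321.LHilb

/-! The second moment bound for a dilute array of walls. -/

namespace Vale.Agent.P321.LB

open MonoidAlgebra Finset

theorem sum_inv_sqrt (n : ℕ) : ∑ i ∈ range n, 1 / √((i : ℝ) + 1) ≤ 2 * √n := by
  induction n with
  | zero => simp
  | succ n ih =>
    rw [sum_range_succ]; push_cast
    have h1 : 0 < √((n : ℝ) + 1) := by positivity
    have h2 := Real.mul_self_sqrt (show (0 : ℝ) ≤ n + 1 by positivity)
    have h3 := Real.mul_self_sqrt (show (0 : ℝ) ≤ n by positivity)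
    have : 1 / √((n : ℝ) + 1) ≤ 2 * √((n : ℝ) + 1) - 2 * √n := by
      rw [div_le_iff₀ h1]; nlinarith [sq_nonneg (√((n : ℝ) + 1) - √n)]
    linarith

theorem beta_sum (n : ℕ) :
    ∑ i ∈ range n, 1 / √((i : ℝ) + 1) * (1 / √(((n - 1 - i : ℕ) : ℝ) + 1)) ≤ 4 := by
  rcases Nat.eq_zero_or_pos n with rfl | hn
  · simp
  have hz : 0 < √(n : ℝ) := by positivity
  have a1 := sum_inv_sqrt n
  have a2 := (sum_range_reflect (fun i : ℕ => 1 / √((i : ℝ) + 1)) n).le.trans a1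
  have a3 : ∀ i ∈ range n, 1 / √((i : ℝ) + 1) * (1 / √(((n - 1 - i : ℕ) : ℝ) + 1)) ≤
      (1 / √((i : ℝ) + 1) + 1 / √(((n - 1 - i : ℕ) : ℝ) + 1)) / √n := fun i hi => by
    have e : (i : ℝ) + 1 + (((n - 1 - i : ℕ) : ℝ) + 1) = n + 1 := by
      rw [mem_range] at hi; norm_cast; omega
    have h2 := Real.mul_self_sqrt (show (0 : ℝ) ≤ i + 1 by positivity)
    have h3 := Real.mul_self_sqrt (show (0 : ℝ) ≤ ((n - 1 - i : ℕ) : ℝ) + 1 by positivity)
    have h4 := Real.mul_self_sqrt (show (0 : ℝ) ≤ n by positivity)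
    have hx : 0 < √((i : ℝ) + 1) := by positivity
    have hy : 0 < √(((n - 1 - i : ℕ) : ℝ) + 1) := by positivity
    generalize √((i : ℝ) + 1) = x at *
    generalize √(((n - 1 - i : ℕ) : ℝ) + 1) = y at *
    have h5 : √(n : ℝ) ≤ x + y :=
      (abs_le_of_sq_le_sq' (by nlinarith [mul_pos hx hy]) (by positivity)).2
    rw [le_div_iff₀ hz]
    calc _ ≤ 1 / x * (1 / y) * (x + y) := by gcongr
      _ = _ := by field_simp; ring
  refine (sum_le_sum a3).trans ?_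
  rw [← sum_div, sum_add_distrib, div_le_iff₀ hz]
  linarith

theorem sum_inv_sq (n : ℕ) : ∑ k ∈ range n, 1 / ((k : ℝ) + 1) ^ 2 ≤ 2 := by
  have : ∀ n : ℕ, ∑ k ∈ range n, 1 / ((k : ℝ) + 1) ^ 2 ≤ 2 - 2 / (2 * (n : ℝ) + 1) := by
    intro n
    induction n with
    | zero => simp
    | succ n ih =>
      rw [sum_range_succ]; push_cast
      have : 1 / ((n : ℝ) + 1) ^ 2 ≤ 2 / (2 * n + 1) - 2 / (2 * (n + 1) + 1) := by
        rw [div_sub_div _ _ (by positivity) (by positivity), div_le_div_iff₀ (by positivity)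
          (by positivity)]
        nlinarith
      linarith
  have h2 : (0 : ℝ) ≤ 2 / (2 * n + 1) := by positivity
  linarith [this n]

theorem dsum (T f : ℕ → ℕ → ℝ) (j : ℕ) (hT : ∀ i i', T i i' = T i' i) (hf : ∀ k i, 0 ≤ f k i)
    (h : ∀ k i, i + k < j → T i (i + k) ≤ f k i) :
    ∑ i ∈ range j, ∑ i' ∈ range j, T i i' ≤ 2 * ∑ k ∈ range j, ∑ i ∈ range (j - k), f k i := by
  rw [← sum_range_diag_flip]
  induction j with
  | zero => simp
  | succ j ih =>
    have a1 := ih fun k i hi => h k i (by omega)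
    have a2 : ∑ i ∈ range (j + 1), T i j ≤ ∑ k ∈ range (j + 1), f k (j - k) := by
      rw [← sum_range_reflect]
      refine sum_le_sum fun k hk => ?_
      rw [mem_range] at hk
      have := h k (j - k) (by omega)
      rwa [Nat.sub_add_cancel (by omega)] at this
    have a5 : ∑ i ∈ range j, T i j ≤ ∑ k ∈ range (j + 1), f k (j - k) := by
      rw [← sum_range_reflect, sum_range_succ']
      refine le_trans (sum_le_sum fun k hk => ?_) (le_add_of_nonneg_right (hf _ _))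
      rw [mem_range] at hk
      have := h (k + 1) (j - (k + 1)) (by omega)
      rw [Nat.sub_add_cancel (by omega)] at this
      rwa [show j - 1 - k = j - (k + 1) by omega]
    rw [sum_range_succ, sum_range_succ (fun m => ∑ k ∈ range (m + 1), f k (m - k))]
    simp only [sum_range_succ (fun i' => T _ i') j, sum_add_distrib]
    rw [sum_range_succ] at a2
    simp only [hT j] at a2 ⊢
    linarith

theorem telescope (U R : A) (b : ℕ) :
    U ^ b - R ^ b = ∑ i ∈ range b, R ^ i * (U - R) * U ^ (b - 1 - i) := by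
  induction b with
  | zero => simp
  | succ b ih =>
    rw [sum_range_succ, sum_congr rfl (g := fun i => R ^ i * (U - R) * U ^ (b - 1 - i) * U)
      fun i hi => by
        rw [mem_range] at hi
        rw [mul_assoc _ _ U, ← pow_succ]; congr 2; omega, ← sum_mul, ← ih, pow_succ, pow_succ]
    simp only [add_tsub_cancel_right, tsub_self, pow_zero, mul_one]
    noncomm_ring

/-- a lazy step -/
noncomputable def Lz (ϖ : Bool → ℝ) (γ : ℝ) : A := γ • 1 + (1 - γ) • Dl ϖ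

/-- mean and variance of the length -/
def PM (F : A) (μ V : ℝ) : Prop := ∀ ν : ℝ, mom (fun n => (n - ν) ^ 2) F ≤ V + (μ - ν) ^ 2

theorem PM.one : PM 1 0 0 := fun ν => by rw [mom, one_def, pair_single]; simp

theorem commute_Lz (ϖ : Bool → ℝ) (γ γ' : ℝ) : Commute (Lz ϖ γ) (Lz ϖ γ') :=
  ((Commute.one_left _).smul_left _).add_left ((((Commute.one_right _).smul_right _).add_right
    ((Commute.refl _).smul_right _)).smul_left _)

theorem one_sub_Lz (ϖ : Bool → ℝ) (γ : ℝ) : 1 - Lz ϖ γ = (1 - γ) • (1 - Dl ϖ) := by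
  rw [Lz]; module

theorem sl_lazy {B : A} (hB : Pb B) {β : ℝ} (h0 : 0 < β) (h1 : β ≤ 1) (h : β • 1 ≤ B) :
    Sl B (8 / β) := by
  simpa using zero_two hB (m := 0) h0 (smul_nonneg h0.le zero_le_one)
    (by simpa using smul_le_smul_of_nonneg_right h1 (zero_le_one (α := A))) (by simpa using h)
    (Pb.one.ms_smul β).ge

section

variable {ϖ : Bool → ℝ} (h0 : ∀ b, 0 < ϖ b) (h1 : ϖ true + ϖ false = 1)
include h1

theorem PM.pow {F : A} {μ V γ : ℝ} (h : PM F μ V) (g0 : 0 ≤ γ) (g1 : γ ≤ 1) (n : ℕ) :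
    PM (Lz ϖ γ ^ n * F) (μ + n * (1 - γ)) (V + n) := by
  induction n with
  | zero => simpa using h
  | succ n ih =>
    intro ν
    have a1 := mul_le_mul_of_nonneg_left (ih ν) g0
    have a2 := mul_le_mul_of_nonneg_left (ih (ν - 1)) (sub_nonneg.2 g1)
    rw [pow_succ', mul_assoc]
    generalize Lz ϖ γ ^ n * F = G at *
    rw [Lz, add_mul, smul_mul_assoc, smul_mul_assoc, one_mul, map_add, map_smul, map_smul,
      mom_D h1, smul_eq_mul, smul_eq_mul]
    simp only [Nat.cast_succ, sub_sub_eq_add_sub] at a2 ⊢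
    nlinarith [mul_nonneg g0 g0, mul_nonneg g0 (sub_nonneg.2 g1)]

include h0

theorem Pb.lz {γ : ℝ} (g0 : 0 ≤ γ) (g1 : γ ≤ 1) : Pb (Lz ϖ γ) :=
  Pb.one.conv (Pb.dl h0 h1) g0 (sub_nonneg.2 g1) (by ring)

variable {β q c : ℝ} (b0 : 0 < β) (b1 : β < 1) (q0 : 0 ≤ q) (q1 : q ≤ 1) (c0 : 0 < c)
  (hc : 8 / β ≤ (c * (1 - β)) ^ 2)
include b0 b1 c0 hc

theorem smooth {G : A} (hG : Pb G) {M : ℕ} {w : ℝ} (hw : 0 ≤ w) (hM : c ^ 2 ≤ w ^ 2 * M) :
    nr ((1 - Dl ϖ) * (Lz ϖ β ^ M * G)) ≤ w := by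
  have hB := Pb.lz h0 h1 b0.le b1.le
  have a1 := sl_lazy hB b0 b1.le (le_add_of_nonneg_right
    (smul_nonneg (by linarith) (Pb.dl h0 h1).nn)) M
  have a2 := hG.nr_mul_le' (Lz ϖ β ^ M * (1 - Lz ϖ β))
  have hM0 : (0 : ℝ) < M := by
    rcases Nat.eq_zero_or_pos M with rfl | h
    · simp at hM; linarith
    · exact_mod_cast h
  have hp : 0 < 1 - β := by linarith
  have a3 : nr (Lz ϖ β ^ M * (1 - Lz ϖ β)) ≤ w * (1 - β) := by
    refine (abs_le_of_sq_le_sq' (le_of_mul_le_mul_left ?_ hM0) (by positivity)).2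
    nlinarith [mul_le_mul_of_nonneg_right hM (sq_nonneg (1 - β))]
  replace a2 := a2.trans a3
  rw [← (((Commute.one_left _).sub_left (Commute.refl _)).pow_right M).eq, one_sub_Lz,
    smul_mul_assoc, smul_mul_assoc, nr_smul, abs_of_pos hp, mul_assoc, mul_comm] at a2
  exact le_of_mul_le_mul_right a2 hp

include q0 q1

theorem rp {M i : ℕ} {V w : ℝ} (hV : (i : ℝ) + M ≤ V) (hw : 0 ≤ w) (hM : c ^ 2 ≤ w ^ 2 * M) :
    RP ϖ (Lz ϖ β ^ M * Lz ϖ q ^ i) (i * (1 - q) + M * (1 - β)) V w := by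
  have hG := (Pb.lz h0 h1 q0 q1).pow i
  refine ⟨((Rad.lazy _ _).pow M).mul ((Rad.lazy _ _).pow i),
    ((Pb.lz h0 h1 b0.le b1.le).pow M).mul hG, ?_, smooth h0 h1 b0 b1 c0 hc hG hw hM⟩
  have := (PM.one.pow h1 q0 q1 i).pow h1 b0.le b1.le M (i * (1 - q) + M * (1 - β))
  simp only [mul_one, zero_add, sub_self] at this
  linarith

set_option maxHeartbeats 1000000 in
theorem second {a N : ℕ} {ϑ v : ℝ} (hϑ : 0 < ϑ) (hv : v = 1 / ϖ true - 1)
    (ha : c ^ 2 ≤ ϑ ^ 2 * a) (hN1 : (128 * v * ϑ) ^ 2 * (N + 1) ≤ 1)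
    (hN2 : 6 * ((N : ℝ) + 1) ≤ a * (1 - β) ^ 2) {U R : A}
    (hU : U = Lz ϖ β ^ a * (q • 1 + (1 - q) • lt true) * Lz ϖ β ^ a)
    (hR : R = Lz ϖ β ^ (2 * a) * Lz ϖ q) :
    ip ϖ (U ^ N - R ^ N) (U ^ N - R ^ N) ≤ 128 * v * ϑ ^ 2 := by
  have hv0 : 0 ≤ v := by
    rw [hv, sub_nonneg, le_div_iff₀ (h0 _)]; linarith [h0 false]
  have ha0 : (1 : ℝ) ≤ a := by
    rcases Nat.eq_zero_or_pos a with rfl | h
    · simp at ha; linarith
    · exact_mod_cast h
  have hp : 0 < 1 - β := by linarith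
  obtain ⟨w, hw⟩ : ∃ w : ℕ → ℝ, w = fun i : ℕ => ϑ * (1 / √((i : ℝ) + 1)) := ⟨_, rfl⟩
  have w0 : ∀ i, 0 ≤ w i := fun i => by rw [hw]; positivity
  have w1 : ∀ i j, i ≤ j → w j ≤ w i := fun i j h => by rw [hw]; dsimp only; gcongr
  have w2 : ∀ i M : ℕ, (i + 1) * a ≤ M → c ^ 2 ≤ w i ^ 2 * M := fun i M h => by
    have h' : ((i : ℝ) + 1) * a ≤ M := by exact_mod_cast h
    rw [hw]; dsimp only
    rw [mul_pow, div_pow, Real.sq_sqrt (by positivity)]
    calc _ ≤ ϑ ^ 2 * a := ha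
      _ = ϑ ^ 2 * (1 ^ 2 / (i + 1)) * ((i + 1) * a) := by field_simp
      _ ≤ _ := by gcongr
  have w3 : ∀ n, ∑ i ∈ range n, w i * w (n - 1 - i) ≤ 4 * ϑ ^ 2 := fun n => by
    rw [mul_comm, hw]
    refine le_trans (le_of_eq ?_) (mul_le_mul_of_nonneg_left (beta_sum n) (sq_nonneg ϑ))
    rw [mul_sum]; exact sum_congr rfl fun _ _ => by ring
  have w4 : ∀ j ≤ N, 128 * v * ϑ ^ 2 ≤ w j := fun j hj => by
    have hj' : (j : ℝ) + 1 ≤ N + 1 := by exact_mod_cast Nat.succ_le_succ hj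
    have : 128 * v * ϑ ≤ 1 / √((j : ℝ) + 1) := by
      refine (abs_le_of_sq_le_sq' ?_ (by positivity)).2
      rw [div_pow, Real.sq_sqrt (by positivity), le_div_iff₀ (by positivity), one_pow]
      exact le_trans (by gcongr) hN1
    rw [hw]; dsimp only; nlinarith
  have hc' := commute_Lz ϖ β q
  have rp' := fun M i V w => @rp ϖ h0 h1 β q c b0 b1 q0 q1 c0 hc M i V w
  generalize hB : Lz ϖ β = B at *
  generalize hC : Lz ϖ q = C at *
  have hRi : ∀ i, R ^ i = B ^ (2 * a * i) * C ^ i := fun i => by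
    rw [hR, (hc'.pow_left _).mul_pow, ← pow_mul]
  have hUR : U - R = (1 - q) • (B ^ a * eta ϖ * B ^ a) := by
    rw [hU, hR, two_mul, pow_add, mul_assoc _ _ C, (hc'.pow_left a).eq, ← hC, Lz, eta]
    simp only [mul_add, add_mul, mul_sub, sub_mul, smul_mul_assoc, mul_smul_comm, mul_assoc]
    module
  have ex : ∀ e b, B ^ e * (U ^ b - R ^ b) = ∑ i ∈ range b,
      (1 - q) • (B ^ (e + 2 * a * i + a) * C ^ i * (eta ϖ * (B ^ a * U ^ (b - 1 - i)))) := by
    intro e b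
    rw [telescope, mul_sum]
    refine sum_congr rfl fun i _ => ?_
    rw [hUR, hRi, pow_add, pow_add, mul_assoc _ (B ^ a), (hc'.pow_pow a i).eq]
    simp only [smul_mul_assoc, mul_smul_comm, mul_assoc]
  have xi : ∀ e ≤ a, ∀ b ≤ N, (∀ j < b, ip ϖ (B ^ a * U ^ j) (B ^ a * U ^ j) ≤ 2 * w j) →
      ip ϖ (B ^ e * (U ^ b - R ^ b)) (B ^ e * (U ^ b - R ^ b)) ≤ 128 * v * ϑ ^ 2 := by
    intro e he b hb hY
    have F : ∀ i j, j ≤ i → i < b → RP ϖ (B ^ (e + 2 * a * i + a) * C ^ i)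
        (i * (1 - q) + (e + 2 * a * i + a : ℕ) * (1 - β)) (3 * (N + 1) * a) (w j) :=
      fun i j hj hi => rp' _ _ _ _ (by
        have e1 : (e : ℝ) ≤ a := by exact_mod_cast he
        have e2 : (i : ℝ) ≤ N := by exact_mod_cast (by omega : i ≤ N)
        push_cast; nlinarith [Nat.cast_nonneg (α := ℝ) N]) (w0 j) (w2 _ _ (by nlinarith))
    rw [ex]
    simp only [map_sum, LinearMap.sum_apply]
    refine (dsum _ (fun k i => 8 * v * (1 / ((k : ℝ) + 1) ^ 2) * (w i * w (b - k - 1 - i))) b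
      (fun i i' => ip_comm _ _ _) (fun k i => by have := w0 i; have := w0 (b - k - 1 - i); positivity)
      fun k i hi => ?_).trans ?_
    · have f1 := F (i + k) i (by omega) hi
      have f2 := F i i le_rfl (by omega)
      obtain ⟨g1, g2⟩ := f1.ip_le h0 h1 f2
      have g3 := f1.ip_far h0 h1 f2
      simp only [map_smul, LinearMap.smul_apply, smul_eq_mul]
      rw [f1.rad.ip_eta h0 h1 f2.rad, ← hv]
      generalize ip ϖ (B ^ (e + 2 * a * (i + k) + a) * C ^ (i + k)) _ = u at *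
      have g4 : (k : ℝ) ^ 2 * u ≤ w i := by
        have e1 : (2 * a * k * (1 - β)) ^ 2 ≤ (((i + k : ℕ) * (1 - q) +
            (e + 2 * a * (i + k) + a : ℕ) * (1 - β)) - (i * (1 - q) +
            (e + 2 * a * i + a : ℕ) * (1 - β))) ^ 2 := by
          gcongr; push_cast
          nlinarith [mul_nonneg (Nat.cast_nonneg (α := ℝ) k) (sub_nonneg.2 q1)]
        refine le_of_mul_le_mul_right ?_ (show 0 < 4 * (a : ℝ) ^ 2 * (1 - β) ^ 2 by positivity)
        linarith [mul_le_mul_of_nonneg_right e1 g1,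
          mul_le_mul_of_nonneg_left hN2 (mul_nonneg (w0 i) (zero_le_one.trans ha0))]
      have g5 : u ≤ 4 * w i * (1 / ((k : ℝ) + 1) ^ 2) := by
        rw [mul_one_div, le_div_iff₀ (by positivity)]
        linarith [mul_nonneg g1 (sq_nonneg ((k : ℝ) - 1))]
      have g6 := ip_le h0 (B ^ a * U ^ (b - 1 - (i + k))) (B ^ a * U ^ (b - 1 - i))
      have g7 := hY (b - 1 - (i + k)) (by omega)
      have g8 := hY (b - 1 - i) (by omega)
      have g9 := w1 (b - 1 - (i + k)) (b - 1 - i) (by omega)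
      rw [show b - k - 1 - i = b - 1 - (i + k) by omega]
      have g10 := w0 (b - 1 - (i + k))
      have g11 := w0 i
      calc _ = (1 - q) ^ 2 * (v * ip ϖ (B ^ a * U ^ (b - 1 - (i + k))) (B ^ a * U ^ (b - 1 - i))
            * u) := by ring
        _ ≤ (1 - q) ^ 2 * (v * (2 * w (b - 1 - (i + k))) * u) := by gcongr; linarith
        _ ≤ 1 * (v * (2 * w (b - 1 - (i + k))) * (4 * w i * (1 / ((k : ℝ) + 1) ^ 2))) := by
          gcongr; nlinarith
        _ = _ := by ring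
    · simp only [← mul_sum]
      refine (mul_le_mul_of_nonneg_left (sum_le_sum fun k _ => mul_le_mul_of_nonneg_left
        (w3 (b - k)) (by positivity)) zero_le_two).trans ?_
      rw [← sum_mul, ← mul_sum]
      nlinarith [mul_le_mul_of_nonneg_left (sum_inv_sq b) (mul_nonneg hv0 (sq_nonneg ϑ))]
  have hY : ∀ j ≤ N, ip ϖ (B ^ a * U ^ j) (B ^ a * U ^ j) ≤ 2 * w j := by
    intro j
    induction j using Nat.strong_induction_on with
    | _ j ih =>
      intro hj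
      have g1 := xi a le_rfl j hj fun i hi => ih i hi (by omega)
      have F := rp' (a + 2 * a * j) j _ _ le_rfl (w0 j) (w2 _ _ (by nlinarith))
      have g2 := (F.ip_le h0 h1 F).2
      have g3 : ip ϖ (B ^ (a + 2 * a * j) * C ^ j) (B ^ a * (U ^ j - R ^ j)) = 0 := by
        rw [ex, map_sum]
        refine sum_eq_zero fun i _ => ?_
        rw [map_smul, F.rad.orth h0 h1 (rp' _ _ _ _ le_rfl (w0 0) (w2 _ _ (by omega))).rad,
          smul_zero]
      have e : B ^ a * U ^ j = B ^ (a + 2 * a * j) * C ^ j + B ^ a * (U ^ j - R ^ j) := by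
        rw [hRi, pow_add]; noncomm_ring
      rw [e]
      generalize B ^ a * (U ^ j - R ^ j) = X at *
      simp only [map_add, LinearMap.add_apply, ip_comm ϖ X, g3] at g1 ⊢
      linarith [w4 j hj]
  simpa only [pow_zero, one_mul] using xi 0 a.zero_le N le_rfl fun j hj => hY j hj.le

theorem pin_tv {a N : ℕ} {κ : ℝ} (c1 : 1 ≤ c) (k1 : 32768 * (1 / ϖ true - 1) * c ^ 2 ≤ κ)
    (k2 : c ^ 2 ≤ κ) (hN : 24 * κ ^ 2 * (N + 1) ≤ a) :
    nr ((Lz ϖ β ^ a * (q • 1 + (1 - q) • lt true) * Lz ϖ β ^ a) ^ N -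
      Lz ϖ β ^ (2 * a * N) * Lz ϖ q ^ N) ≤ 1 / 2 := by
  obtain ⟨v, hv⟩ : ∃ v, v = 1 / ϖ true - 1 := ⟨_, rfl⟩
  rw [← hv] at k1
  have hv0 : 0 ≤ v := by
    rw [hv, sub_nonneg, le_div_iff₀ (h0 _)]; linarith [h0 false]
  have c2 : 1 ≤ c ^ 2 := one_le_pow₀ c1
  have k3 : 1 ≤ κ := c2.trans k2
  have hN0 := Nat.cast_nonneg (α := ℝ) N
  have k4 : κ ≤ a := by nlinarith [mul_nonneg (sq_nonneg κ) hN0]
  have ha0 : (0 : ℝ) < a := by linarith
  have hϑ : (c / √a) ^ 2 = c ^ 2 / a := by rw [div_pow, Real.sq_sqrt ha0.le]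
  have hB := (Pb.lz h0 h1 b0.le b1.le).pow a
  have a1 := second h0 h1 b0 b1 q0 q1 c0 hc (a := a) (N := N) (ϑ := c / √a) (by positivity) hv
    (by rw [hϑ, div_mul_cancel₀ _ ha0.ne']) (by
      rw [mul_pow, hϑ, ← mul_div_assoc, div_mul_eq_mul_div, div_le_one ha0, ← mul_pow]
      refine le_trans ?_ hN
      gcongr
      have : 128 * v * c ≤ κ := by nlinarith [mul_nonneg hv0 c0.le]
      nlinarith [mul_nonneg hv0 c0.le]) (by
      have e1 : 1 ≤ (c * (1 - β)) ^ 2 := le_trans (by rw [le_div_iff₀ b0]; linarith) hc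
      have e2 : 1 ≤ κ ^ 2 * (1 - β) ^ 2 := by
        rw [mul_pow] at e1; refine e1.trans ?_; gcongr; nlinarith
      nlinarith [mul_le_mul_of_nonneg_right hN (sq_nonneg (1 - β))]) rfl rfl
  rw [((commute_Lz ϖ β q).pow_left _).mul_pow, ← pow_mul, hϑ] at a1
  have a2 := (PM.one.pow h1 q0 q1 N).pow h1 b0.le b1.le (2 * a * N)
    (0 + N * (1 - q) + (2 * a * N : ℕ) * (1 - β))
  rw [mul_one, sub_self] at a2
  have a3 := tv_le h0 h1 (((hB.mul (Pb.one.conv (Pb.lt true) q0 (sub_nonneg.2 q1) (by ring))).mul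
    hB).pow N) (((Pb.lz h0 h1 b0.le b1.le).pow _).mul ((Pb.lz h0 h1 q0 q1).pow N)) (t := a / κ)
    (s := 32 * (a / κ)) (by rwa [one_le_div (by linarith)]) (by positivity) a2
  have a4 : 32 * (a / κ) * (128 * v * (c ^ 2 / a)) ≤ 1 / 8 := by
    rw [show 32 * (a / κ) * (128 * v * (c ^ 2 / a)) = 4096 * v * c ^ 2 / κ by field_simp; ring,
      div_le_iff₀ (by linarith)]
    linarith
  have a5 : 4 * (a / κ) / (32 * (a / κ)) = 1 / 8 := by field_simp; norm_num
  have a6 : 2 * (0 + N + (2 * a * N : ℕ) + 0 ^ 2) / (a / κ) ^ 2 ≤ 1 / 4 := by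
    rw [div_pow, div_div_eq_mul_div, div_le_iff₀ (by positivity)]
    push_cast
    nlinarith [mul_le_mul_of_nonneg_left hN ha0.le, mul_nonneg (sq_nonneg κ) ha0.le,
      mul_le_mul_of_nonneg_left (k3.trans k4) (mul_nonneg hN0 (sq_nonneg κ))]
  nlinarith [mul_le_mul_of_nonneg_left a1 (show 0 ≤ 32 * (a / κ) by positivity)]

end

end Vale.Agent.P321.LB
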