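import Mathlib
import Vale.Agent.P321.LPin

/-! Smoothness of the powers of the first-level block. -/

namespace Vale.Agent.P321.LB

open MonoidAlgebra Finset

/-- substitution of random words for letters -/
noncomputable def push (g : Bool → A) : A →ₐ[ℝ] A := MonoidAlgebra.lift ℝ A W (FreeMonoid.lift g)

theorem push_lt (g : Bool → A) (b : Bool) : push g (lt b) = g b := by simp [push, lt]

theorem nr_push {g : Bool → A} (hg : ∀ b, Pb (g b)) (a : A) : nr (push g a) ≤ nr a := by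
  have h1 : ∀ t : W, Pb (FreeMonoid.lift g t) := fun t => by
    induction t using FreeMonoid.inductionOn' with
    | one => simpa using Pb.one
    | of_mul b t ih => rw [map_mul]; exact (hg b).mul ih
  have h2 : ∀ a : A, 0 ≤ a → 0 ≤ push g a := fun a ha => by
    rw [push, lift_apply]
    exact sum_nonneg fun t _ => smul_nonneg (le_def.1 ha t) (h1 t).nn
  have h3 : ∀ a : A, ms (push g a) = ms a := fun a => by
    induction a using MonoidAlgebra.induction_linear with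
    | zero => simp
    | add x y hx hy => simp only [map_add, hx, hy]
    | single t c => rw [push, lift_single, (h1 t).ms_smul]; simp [ms]
  rw [nr, nr, ← h3 |a|]
  refine ms_mono (abs_le'.2 ⟨?_, ?_⟩) <;> rw [← sub_nonneg]
  · simpa using h2 _ (sub_nonneg.2 (le_abs_self a))
  · simpa using h2 _ (sub_nonneg.2 (neg_le_abs a))

theorem chi_lazy {B : A} (hB : Pb B) {β : ℝ} (b0 : 0 < β) (h : β • 1 ≤ B) (n : ℕ) :
    ∃ g, ms g ≤ 1 + 1 / ((n + 1) * β) ∧ Chi (B ^ n) (B ^ (n + 1)) g := by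
  have hc : Commute B (1 - B) := (Commute.one_right B).sub_right (.refl B)
  have step : ∀ e P g, Chi e P g → ∃ g', ms g' = ms g + (1 - β) / β * ms P ∧
      Chi (B * e + (1 - B) * P) (B * P) g' := by
    intro e P g h1
    refine ⟨β • (g + (2 * ((1 - β) / β)) • e + ((1 - β) / β) ^ 2 • P) +
      (B - β • 1) * (g - (2 : ℝ) • e + P), ?_, fun s => ?_⟩
    · simp only [map_add, map_sub, map_smul, map_mul, map_one, hB.ms, smul_eq_mul]
      field_simp; ring
    · convert add_nonneg (smul_nonneg b0.le (h1 (s + (1 - β) / β)))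
        (mul_nonneg (sub_nonneg.2 h) (h1 (s - 1))) using 1
      simp only [mul_add, mul_sub, sub_mul, one_mul, smul_mul_assoc, mul_smul_comm]
      match_scalars <;> field_simp <;> ring
  have key : ∀ n : ℕ, ∃ g, ms g = (n + 1) * ((1 - β) / β) ∧
      Chi ((n + 1 : ℝ) • (B ^ n * (1 - B))) (B ^ (n + 1)) g := by
    intro n
    induction n with
    | zero =>
      obtain ⟨g, h1, h2⟩ := step 0 1 0 fun s => by simpa using smul_nonneg (sq_nonneg s) zero_le_one
      exact ⟨g, by simpa using h1, by simpa using h2⟩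
    | succ n ih =>
      obtain ⟨g, h1, h2⟩ := ih
      obtain ⟨g', h3, h4⟩ := step _ _ _ h2
      refine ⟨g', by rw [h3, h1, (hB.pow _).ms]; push_cast; ring, ?_⟩
      rw [← (hc.pow_left _).eq, mul_smul_comm, ← mul_assoc, ← pow_succ', ← pow_succ'] at h4
      convert h4 using 1
      push_cast; module
  obtain ⟨g, h1, h2⟩ := key n
  have hn : (0 : ℝ) < n + 1 := by positivity
  refine ⟨B ^ (n + 1) + (2 : ℝ) • (B ^ n * (1 - B)) + ((n + 1 : ℝ) ^ 2)⁻¹ • g, ?_, fun s => ?_⟩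
  · simp only [map_add, map_sub, map_smul, map_mul, map_one, hB.ms, smul_eq_mul, h1, (hB.pow _).ms]
    rw [sub_self, mul_zero, mul_zero, add_zero, add_le_add_iff_left, le_div_iff₀ (by positivity)]
    field_simp; linarith
  · convert smul_nonneg (show 0 ≤ ((n + 1 : ℝ) ^ 2)⁻¹ by positivity) (h2 (n + 1 + s * (n + 1)))
      using 1
    simp only [mul_sub, mul_one, ← pow_succ]
    match_scalars <;> field_simp
    ring

theorem Chi.refl {C : A} (hC : 0 ≤ C) : Chi C C C := fun s => by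
  convert smul_nonneg (sq_nonneg (s + 1)) hC using 1
  module

theorem sl_of_chi {U X g : A} (hU : Pb U) (hX : Pb X) {m : ℕ} {Λ : ℝ} (hΛ : 1 ≤ Λ)
    (h1 : nr (U ^ m - X) ≤ 5 / 4) (h2 : Chi X (U ^ (m + 1)) g) (h3 : ms g ≤ Λ) :
    Sl U (64 * Λ * (m + 1)) := by
  have a1 := overlap (hU.pow m) hX
  have g0 : 0 ≤ g := by simpa using h2 0
  have hs : (0 : ℝ) < (2 * Λ)⁻¹ := by positivity
  refine (zero_two hU (m := m) (Z := (2 * Λ)⁻¹ • ((U ^ m ⊓ X - (8 * Λ)⁻¹ • g) ⊔ 0))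
    (θ := (8 * Λ)⁻¹) (by positivity) (smul_nonneg hs.le le_sup_right) ?_ ?_ ?_).mono
    (le_of_eq (by field_simp; norm_num))
  · refine (smul_le_smul_of_nonneg_left (sup_le ((sub_le_self _ (smul_nonneg (by positivity)
      g0)).trans inf_le_left) (hU.pow m).nn) hs.le).trans ?_
    simpa using smul_le_smul_of_nonneg_right (inv_le_one_of_one_le₀ (by linarith : 1 ≤ 2 * Λ))
      (hU.pow m).nn
  · refine (smul_le_smul_of_nonneg_left (b₂ := (2 * Λ) • U ^ (m + 1)) (sup_le ?_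
      (smul_nonneg (by positivity) (hU.pow _).nn)) hs.le).trans (by
        rw [smul_smul, inv_mul_cancel₀ (by positivity), one_smul])
    refine (sub_le_sub_right inf_le_right _).trans ?_
    rw [← sub_nonneg]
    convert smul_nonneg (show 0 ≤ (8 * Λ)⁻¹ by positivity) (h2 (-(4 * Λ))) using 1
    match_scalars <;> field_simp <;> ring
  · have a2 := ms_mono (le_sup_left (a := U ^ m ⊓ X - (8 * Λ)⁻¹ • g) (b := 0))
    rw [map_sub, map_smul, smul_eq_mul] at a2
    have a3 : (8 * Λ)⁻¹ * ms g ≤ 1 / 8 := by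
      rw [inv_mul_le_iff₀ (by positivity)]; linarith
    rw [map_smul, smul_eq_mul]
    exact le_trans (le_of_eq (by field_simp; norm_num)) (mul_le_mul_of_nonneg_left
      (show 1 / 4 ≤ _ by linarith) hs.le)

theorem Φ_01 {q : ℝ} (q0 : 0 ≤ q) (q1 : q ≤ 1) : (q ^ 2) • 1 ≤ Φ q [false, true] := by
  have := mul_le_mul (a := q • (1 : A)) (c := q • (1 : A))
    (le_add_of_nonneg_right (smul_nonneg (sub_nonneg.2 q1) (Pb.lt false).nn))
    (le_add_of_nonneg_right (smul_nonneg (sub_nonneg.2 q1) (Pb.lt true).nn))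
    (smul_nonneg q0 zero_le_one) (by simpa [Φ] using (Φ_pb q0 q1 [false]).nn)
  simpa [Φ, smul_smul, sq] using this

theorem pin {q : ℝ} (q0 : 0 < q) (q1 : q < 1) : ∃ (d : ℕ) (K : ℝ), 0 < d ∧ ∀ m : ℕ, 1 ≤ m →
    Sl (Φ q [false, true] ^ (d * (m + 1)) * Φ q [true] * Φ q [false, true] ^ (d * (m + 1)))
      (K * (m + 1)) := by
  obtain ⟨ϖ, hϖ⟩ : ∃ ϖ : Bool → ℝ, ϖ = fun b => if b then q / (1 + q) else 1 / (1 + q) := ⟨_, rfl⟩
  have h0 : ∀ b, 0 < ϖ b := fun b => by rw [hϖ]; cases b <;> simp <;> positivity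
  have h1 : ϖ true + ϖ false = 1 := by simp only [hϖ]; simp; field_simp; ring
  have b0 : 0 < q ^ 2 := by positivity
  have b1 : q ^ 2 < 1 := by nlinarith
  have hp : 0 < 1 - q ^ 2 := by linarith
  obtain ⟨c, hc⟩ : ∃ c, c = 3 / (q * (1 - q ^ 2)) := ⟨_, rfl⟩
  have c1 : 1 ≤ c := by rw [hc, le_div_iff₀ (by positivity)]; nlinarith
  have c0 : 0 < c := by linarith
  have c2 : 8 / q ^ 2 ≤ (c * (1 - q ^ 2)) ^ 2 := by
    rw [hc, show 3 / (q * (1 - q ^ 2)) * (1 - q ^ 2) = 3 / q by field_simp, div_pow]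
    gcongr; norm_num
  have c3 : 1 ≤ c ^ 2 := one_le_pow₀ c1
  obtain ⟨κ, k1, k2⟩ : ∃ κ, 32768 * (1 / ϖ true - 1) * c ^ 2 ≤ κ ∧ c ^ 2 ≤ κ :=
    ⟨_, le_max_left _ _, le_max_right _ _⟩
  obtain ⟨d, hd⟩ := exists_nat_ge (72 * κ ^ 2)
  have k3 : c ^ 2 ≤ κ ^ 2 := by nlinarith
  refine ⟨d, 64 * Real.exp (2 * d / q ^ 2), by exact_mod_cast (by nlinarith : (0 : ℝ) < d),
    fun m hm => ?_⟩
  have hm' : (1 : ℝ) ≤ m := by exact_mod_cast hm
  have t1 := pin_tv h0 h1 b0 b1 q0.le q1.le c0 c2 (a := d * (m + 1)) (N := m) c1 k1 k2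
    (by push_cast; gcongr; nlinarith)
  have t2 := pin_tv h0 h1 b0 b1 q0.le q1.le c0 c2 (a := d * m) (N := m + 1) c1 k1 k2
    (by push_cast; nlinarith [mul_le_mul_of_nonneg_right hd (zero_le_one.trans hm')])
  have t3 := smooth h0 h1 b0 b1 c0 c2 ((Pb.lz h0 h1 q0.le q1.le).pow m) (M := 2 * (d * m) * (m + 1))
    (w := 1 / 4) (by norm_num) (by
      push_cast; nlinarith [mul_le_mul_of_nonneg_left hm' (Nat.cast_nonneg (α := ℝ) d),
        mul_nonneg (mul_nonneg (Nat.cast_nonneg (α := ℝ) d) (Nat.cast_nonneg (α := ℝ) m))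
          (Nat.cast_nonneg (α := ℝ) m)])
  rw [show 2 * (d * (m + 1)) * m = 2 * (d * m) * (m + 1) by ring] at t1
  have t4 : nr (Lz ϖ (q ^ 2) ^ (2 * (d * m) * (m + 1)) * Lz ϖ q ^ m -
      Lz ϖ (q ^ 2) ^ (2 * (d * m) * (m + 1)) * Lz ϖ q ^ (m + 1)) ≤ 1 / 4 := by
    rw [pow_succ' (Lz ϖ q), ← mul_assoc (Lz ϖ (q ^ 2) ^ _), ((commute_Lz ϖ _ q).pow_left _).eq,
      mul_assoc (Lz ϖ q), ← one_sub_mul,
      one_sub_Lz, smul_mul_assoc, nr_smul, abs_of_pos (by linarith)]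
    nlinarith [nr_nonneg ((1 - Dl ϖ) * (Lz ϖ (q ^ 2) ^ (2 * (d * m) * (m + 1)) * Lz ϖ q ^ m))]
  obtain ⟨g, hg⟩ : ∃ g : Bool → A, g = fun b =>
    if b then lt true else q • lt false + (1 - q) • (lt false * lt true) := ⟨_, rfl⟩
  have hgP : ∀ b, Pb (g b) := fun b => by
    rw [hg]; cases b
    · exact (Pb.lt _).conv ((Pb.lt _).mul (Pb.lt _)) q0.le (by linarith) (by ring)
    · exact Pb.lt _
  have e1 : push g (Lz ϖ (q ^ 2)) = Φ q [false, true] := by
    simp only [Lz, Dl, map_add, map_smul, map_one, push_lt, hg, hϖ, Φ, List.map_cons, List.map_nil,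
      List.prod_cons, List.prod_nil, mul_one, add_mul, mul_add, smul_mul_assoc, mul_smul_comm,
      one_mul, if_true, Bool.false_eq_true, if_false]
    match_scalars <;> field_simp <;> ring
  have e2 : push g (q • 1 + (1 - q) • lt true) = Φ q [true] := by
    simp [push_lt, hg, Φ]
  have hB := Φ_pb q0.le q1.le [false, true]
  have hC := Φ_pb q0.le q1.le [true]
  obtain ⟨G, G1, G2⟩ := chi_lazy hB b0 (Φ_01 q0.le q1.le) m
  have G3 := (((G2.pow (hB.pow _).nn d).mul (Chi.refl hC.nn) ((hB.pow _).pow _).nn hC.nn).mul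
    (G2.pow (hB.pow _).nn d) (((hB.pow _).pow _).mul hC).nn ((hB.pow _).pow _).nn).pow
    ((((hB.pow _).pow _).mul hC).mul ((hB.pow _).pow _)).nn (m + 1)
  simp only [← pow_mul'] at G3
  refine sl_of_chi (((hB.pow _).mul hC).mul (hB.pow _))
    ((((hB.pow _).mul hC).mul (hB.pow _)).pow _) (Real.one_le_exp (by positivity)) ?_ G3 ?_
  · rw [← e1, ← e2]
    simp only [← map_pow, ← map_mul, ← map_sub]
    refine (nr_push hgP _).trans ?_
    clear G3
    generalize Lz ϖ (q ^ 2) ^ (2 * (d * m) * (m + 1)) * Lz ϖ q ^ m = X at *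
    generalize Lz ϖ (q ^ 2) ^ (2 * (d * m) * (m + 1)) * Lz ϖ q ^ (m + 1) = Y at *
    generalize (_ * _ * _ : A) ^ m = P at *
    generalize (_ * _ * _ : A) ^ (m + 1) = Q at *
    have := nr_sub_le (P - X + (X - Y)) (Q - Y)
    rw [show P - X + (X - Y) - (Q - Y) = P - Q by abel] at this
    linarith [nr_add_le (P - X) (X - Y)]
  · have G0 : 0 ≤ ms G := ms_nonneg (by simpa using G2 0)
    simp only [map_pow, map_mul, hC.ms, mul_one, ← pow_add, ← pow_mul]
    calc _ ≤ Real.exp (1 / ((m + 1) * q ^ 2)) ^ ((d + d) * (m + 1)) := by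
          gcongr; linarith [Real.add_one_le_exp (1 / ((m + 1) * q ^ 2))]
      _ = _ := by rw [← Real.exp_nat_mul]; congr 1; push_cast; field_simp; ring

end Vale.Agent.P321.LB
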