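import Mathlib
import Vale.Agent.P321.LGain

/-! The inductive step of the lower bound construction. -/

namespace Vale.Agent.P321.LB

namespace Ctx

variable {v u u' Δ V E Z Z' : A} {h J L L₁ a c b N : ℕ} {x α ξ T s : ℝ}
  (C : Ctx v u u' Δ V E Z Z' h J L L₁ a c b N x α ξ T s) {r : ℕ} (hr : h = r + 1)
  {f : Bool → A} (hf : ∀ b, f b = Δ ∨ f b = 0)
  (hPr : ∀ w : List Bool, w.length ≤ r → D x (Pr u f w) ((2 : ℝ) • v ^ (L * w.length)))
include C hr hf

theorem drec {y τ : ℝ} (hτ : 0 ≤ τ) (hy : 0 ≤ y) (R X : List Bool → A)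
    (h0 : R [] = 0) (h1 : ∀ b w, R (b :: w) = f b * X w + u * R w)
    (hX : ∀ w : List Bool, w.length ≤ r → D y (X w) (τ • v ^ (L * w.length))) (w : List Bool)
    (hw : w.length ≤ r) : D (2 * x + y) (R w) ((4 * r * α * τ) • v ^ (L * w.length)) := by
  have hx := C.hx
  have hα := C.hα
  have := D_rec (u := u) (P := v ^ (L * w.length)) (x := 2 * x + y) (c := 2 * (2 * α * τ))
    (by positivity) f R X w.length h0 h1 (fun i b w' hw' => by
      rcases hf b with hb | hb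
      · rw [hb]
        refine (((C.up (n := i) (by have := C.hh; omega)).mul_c
          (C.dΔ.mul_c (hX w' (by omega)))).mono_x (le_of_eq (by ring))).congr rfl ?_
        rw [← hw', ← pow_add, ← pow_add]; congr 2; ring
      · simpa [hb] using D.zero (by positivity) (smul_nonneg (by positivity) (C.hv.pow _).nn))
    w 0 (by simp)
  rw [pow_zero, one_mul] at this
  have hw' : (w.length : ℝ) ≤ r := by exact_mod_cast hw
  exact this.mono_c (C.hv.pow _).nn le_rfl (by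
    nlinarith [mul_le_mul_of_nonneg_right hw' (show 0 ≤ α * τ by positivity)])

theorem htrec {y τ : ℝ} (hτ : 0 ≤ τ) (hy : 0 ≤ y) (R X : List Bool → A)
    (h0 : R [] = 0) (h1 : ∀ b w, R (b :: w) = f b * X w + u * R w)
    (hX : ∀ w : List Bool, w.length ≤ r → D y (X w) (τ • v ^ (L * w.length))) (w : List Bool)
    (hw : w.length = r) (c₃ : ℕ) :
    HT ((J + 6) * (2 * x + y) + 3 * x) (Avg (v ^ h) (J ^ 2) * R w * u ^ (1 + b + c₃)) (u ^ h)
      ((r * (256 * s * T * α * τ / J)) • u ^ (b + c₃)) := by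
  have hx := C.hx
  have hα := C.hα
  have hs := C.hs
  have hT := C.hT
  have := HT_rec (u := u) (P := u ^ (b + c₃)) (x := (J + 6) * (2 * x + y) + 3 * x)
    (c := 256 * s * T * α * τ / J) (G := Avg (v ^ h) (J ^ 2)) (K := u ^ (1 + b + c₃)) (H := u ^ h)
    (by positivity) f R X r h0 h1 (fun i b w' hw' => by
      rcases hf b with hb | hb
      · rw [hb]
        exact C.gain (by omega) (hX w' (by omega)) hτ
      · simpa [hb] using HT.zero (by positivity) (smul_nonneg (by positivity) (C.hu.pow _).nn))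
    w 0 (by simp [hw])
  rwa [pow_zero, one_mul, hw] at this

include hPr

theorem dR1 (w : List Bool) (hw : w.length ≤ r) :
    D (3 * x) (R1 u f w) ((8 * r * α) • v ^ (L * w.length)) :=
  ((C.drec hr hf (by norm_num) C.hx _ _ (R1_nil u f) (R1_cons u f) hPr w hw).mono_x
    (le_of_eq (by ring))).congr rfl (by congr 1; ring)

theorem dR2 (w : List Bool) (hw : w.length ≤ r) :
    D (5 * x) (R2 u f w) ((32 * r ^ 2 * α ^ 2) • v ^ (L * w.length)) :=
  have := C.hα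
  have := C.hx
  ((C.drec hr hf (by positivity) (by positivity) _ _ (R2_nil u f) (R2_cons u f)
    (C.dR1 hr hf hPr) w hw).mono_x (le_of_eq (by ring))).congr rfl (by congr 1; ring)

theorem htR2 (w : List Bool) (hw : w.length = r) (c₃ : ℕ) :
    HT ((5 * J + 33) * x) (Avg (v ^ h) (J ^ 2) * R2 u f w * u ^ (1 + b + c₃)) (u ^ h)
      ((2048 * r ^ 2 * s * T * α ^ 2 / J) • u ^ (b + c₃)) :=
  have := C.hα
  have := C.hx
  ((C.htrec hr hf (by positivity) (by positivity) _ _ (R2_nil u f) (R2_cons u f)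
    (C.dR1 hr hf hPr) w hw c₃).mono (le_of_eq (by ring)) le_rfl).congr rfl (by congr 1; ring)

theorem dOm (w : List Bool) (hw : w.length = r) (c₃ : ℕ) :
    D ((5 * J + 40) * x) (u ^ (1 + b + c₃) * Pr u f w * u ^ (1 + b + c₃) -
      u ^ (1 + b + c₃ + r + (1 + b + c₃)))
      ((2048 * r * s * T ^ 2 * α / J) • u ^ (1 + b + c₃ + r + (1 + b + c₃))) := by
  have hx := C.hx
  have hα := C.hα
  have hs := C.hs
  have hT := C.hT
  have hξ := C.hξ0
  have hu := C.hu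
  have hJ : (1 : ℝ) ≤ J := by exact_mod_cast C.hJ
  have a1 := (C.htrec hr hf (by norm_num) hx _ _ (R1_nil u f) (R1_cons u f) hPr w hw c₃).toD
    (hu.pow h)
  rw [mul_smul_comm] at a1
  have a2 := (D.of_le C.slip.nn (by simpa using C.slip.pow 0 (by simp))).trans_c (C.down C.hb)
    (by positivity)
  have a3 := ((a2.mul_c a1).lmul (hu.pow (1 + c₃)).nn).mono_x (y := (5 * J + 40) * x)
    (by nlinarith)
  have a4 := (C.dR1 hr hf hPr w hw.le).trans_c (C.down (by have := C.hh; omega)) (by positivity)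
  have a5 := ((((C.errL.trans_c (C.down C.hb) (by positivity)).mul_c a4).rmul
    (hu.pow (1 + b + c₃)).nn).lmul (hu.pow (1 + c₃)).nn).mono_x (y := (5 * J + 40) * x)
    (by nlinarith)
  simp only [← pow_add] at a3 a5
  rw [show 1 + c₃ + (b + (h + (b + c₃))) = 1 + b + c₃ + r + (1 + b + c₃) by omega] at a3
  rw [show 1 + c₃ + (b + w.length + (1 + b + c₃)) = 1 + b + c₃ + r + (1 + b + c₃) by omega] at a5
  refine ((a3.add a5).congr ?_ (add_smul _ _ _).symm).mono_c (hu.pow _).nn le_rfl ?_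
  · rw [pow_add _ _ (1 + b + c₃), pow_add _ _ r, R1, hw, add_right_comm 1 b c₃,
      pow_add u (1 + c₃) b]
    noncomm_ring
  · have b1 : ξ * J * (64 * r * α / J) ≤ (s * T ^ 2) * (64 * r * α / J) := by
      gcongr ?_ * _; exact C.hξ1.trans (one_le_mul_of_one_le_of_one_le hs (one_le_pow₀ hT))
    have b2 : 0 ≤ (s * T ^ 2) * (r * α / J) := by positivity
    calc _ = 1024 * (s * T ^ 2) * (r * α / J) + ξ * J * (64 * r * α / J) := by field_simp; ring
      _ ≤ 1024 * (s * T ^ 2) * (r * α / J) + (s * T ^ 2) * (64 * r * α / J) := by gcongr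
      _ = 1088 * ((s * T ^ 2) * (r * α / J)) := by ring
      _ ≤ 2048 * ((s * T ^ 2) * (r * α / J)) := by linarith
      _ = _ := by ring

omit hr hf hPr in
theorem bracket {n : ℕ} (hn : n + b ≤ N) :
    D (2 * x) (u ^ (n + b) - Z * u ^ n * Avg (v ^ h) (J ^ 2)) ((6 * ξ) • u ^ (n + b)) := by
  have hv := C.hv
  have hξ := C.hξ0
  have hA := (hv.pow h).avg (I := J ^ 2) (by have := C.hJ; positivity)
  have hc := (commute_avg ((Commute.refl v).pow_pow h (L * n)) (J ^ 2)).eq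
  have a1 := C.comp _ hn
  have a2 := (C.slip.err (hv.pow _) C.hx hξ).rmul (hv.pow (L * n)).nn
  have a3 := (((C.comp n (by omega)).lmul C.slip.nn).rmul hA.nn).mono le_rfl
    (smul_le_smul_of_nonneg_left (b₂ := v ^ (L * b) * v ^ (L * n)) (by
      rw [mul_assoc, ← hc, ← mul_assoc]
      exact mul_le_mul_of_nonneg_right C.slip.le (hv.pow _).nn) hξ)
  rw [← pow_add, ← mul_add, add_comm b] at a2 a3
  refine (((((a1.add a2).sub a3).congr ?_ (show _ = (3 * ξ) • v ^ (L * (n + b)) by module)).trans_c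
    (C.down hn) (by positivity)).mono_x (le_of_eq (by ring))).congr rfl (by congr 1; ring)
  rw [sub_mul, ← pow_add, ← mul_add, add_comm b, mul_assoc Z, hc]
  noncomm_ring

end Ctx

/-- the invariant of the construction -/
def Inv (q : ℝ) (z y : List Bool) (h J L : ℕ) (x α ω μ : ℝ) : Prop :=
  z.length = y.length ∧ z ≠ y ∧ ∃ (v u' V E : A) (L₁ a c : ℕ), Pb v ∧ Sl v μ ∧
    L = L₁ + h * J ^ 2 ∧ L = a + h + c ∧ Φ q z = u' * v ^ (h * J ^ 2) ∧
    D x u' ((2 : ℝ) • v ^ L₁) ∧ D x (Φ q z - v ^ L) (ω • v ^ L) ∧ D x V ((1 : ℝ) • v ^ a) ∧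
    HT x E (v ^ h) (α • v ^ c) ∧
    ∀ i ≤ h * J ^ 2, D x (v ^ i * (Φ q y - Φ q z) - V * v ^ i * E) ((α / J) • v ^ (i + L))

theorem Inv.mono {q : ℝ} {z y : List Bool} {h J L : ℕ} {x α ω μ x' α' ω' μ' : ℝ}
    (H : Inv q z y h J L x α ω μ) (h1 : x ≤ x') (h2 : α ≤ α') (h3 : ω ≤ ω') (h4 : μ ≤ μ') :
    Inv q z y h J L x' α' ω' μ' := by
  obtain ⟨a1, a2, v, u', V, E, L₁, a, c, hv, b1, b2, b3, b4, b5, b6, b7, b8, b9⟩ := H
  exact ⟨a1, a2, v, u', V, E, L₁, a, c, hv, b1.mono h4, b2, b3, b4, b5.mono_x h1,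
    b6.mono_c (hv.pow _).nn h1 h3, b7.mono_x h1, b8.mono_c (hv.pow _).nn h1 h2,
    fun i hi => (b9 i hi).mono_c (hv.pow _).nn h1 (by gcongr)⟩

theorem dDelta {v V E Δ : A} {h J L a c : ℕ} {x α : ℝ} (hv : Pb v) (hJ : 1 ≤ J) (hα : 0 ≤ α)
    (b3 : L = a + h + c) (b7 : D x V ((1 : ℝ) • v ^ a)) (b8 : HT x E (v ^ h) (α • v ^ c))
    (b9 : D x (v ^ 0 * Δ - V * v ^ 0 * E) ((α / J) • v ^ (0 + L))) :
    D (2 * x) Δ ((2 * α) • v ^ L) := by
  have a1 := b8.toD (hv.pow h)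
  rw [mul_smul_comm] at a1
  have a2 := b7.mul_c a1
  rw [← pow_add, ← pow_add, ← add_assoc, ← b3, one_mul, ← two_mul] at a2
  have hx := b7.1
  simp only [pow_zero, one_mul, mul_one, zero_add] at b9
  exact ((b9.mono_c (hv.pow _).nn (by linarith) (div_le_self hα (by exact_mod_cast hJ))).add
    a2).congr (by abel) (by module)

theorem Inv.nr_le {q : ℝ} {z y : List Bool} {h J L : ℕ} {x α ω μ : ℝ}
    (H : Inv q z y h J L x α ω μ) (hJ : 1 ≤ J) (hα : 0 ≤ α) (hx : 2 * x ≤ 1) :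
    nr (Φ q y - Φ q z) ≤ 6 * α := by
  obtain ⟨-, -, v, u', V, E, L₁, a, c, hv, -, -, b3, -, -, -, b7, b8, b9⟩ := H
  have := (dDelta hv hJ hα b3 b7 b8 (b9 0 (by simp))).nr_le
  rw [(hv.pow L).ms_smul] at this
  have h1 := (Real.exp_le_exp.2 hx).trans Real.exp_one_lt_d9.le
  nlinarith

theorem ne_of_head {p z y s s' : List Bool} (hl : z.length = y.length) (hne : z ≠ y) :
    p ++ (y ++ s) ≠ p ++ (z ++ s') := fun h =>
  hne (List.append_inj (List.append_cancel_left h) hl.symm).1.symm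

set_option maxHeartbeats 1000000 in
theorem step {q : ℝ} (hq0 : 0 ≤ q) (hq1 : q ≤ 1) {z y : List Bool} {k r T J J' L a' b N M₁ M₂ m : ℕ}
    {x α ω μ s ρ : ℝ} (hr : r = 2 ^ k) (H : Inv q z y (r + 1) J L x α ω μ) (hα : 0 ≤ α)
    (hω : 0 ≤ ω) (hJ : 1 ≤ J) (hJ' : 2 ≤ J') (hT : 1 ≤ T) (hs : 1 ≤ s) (hsx : Real.exp (-s) ≤ x)
    (hTx : (1 / 2) ^ T ≤ x * (1 / (J * J'))) (hN1 : r + 1 ≤ N) (hN2 : (r + 1) * J' ^ 2 + b ≤ N)
    (hNω : 2 * N * ω ≤ 1 / (J * J')) (hM₁ : 0 < M₁) (hM₁' : μ * (4 * (r + 1) * J ^ 2) ^ 2 ≤ M₁)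
    (hb : (M₁ + 2 * (r + 1) * J ^ 2) * T ≤ L * b) (hL : 0 < L) (hm : 0 < m)
    (hm1 : 16 * L * μ ≤ m) (hm2 : (m + 1) * ω ^ 2 ≤ 1 / 1024)
    (hm3 : (m + 1) * (2 * ω * (Real.exp x - 1)) ≤ 1 / 8) (hρ : 0 < ρ) (hM₂ : 0 < M₂)
    (hM₂' : 16 * (m + 1) * ρ ^ 2 ≤ M₂) (ha1 : k * M₂ ≤ a') (ha2 : 1 + b ≤ a')
    (ha3 : (r + 1) * J' ^ 2 ≤ a') (hr1 : 2 * r * (ω + 2 * α) ≤ 1) (hr2 : 16 * r * α ≤ 1)
    (hptm : (2 * (r / ρ)) ^ k * 2 ≤ x * (8192 * r ^ 2 * s * T ^ 2 * α ^ 2 / J / J')) :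
    ∃ z' y', z'.length = (a' + r + a') * z.length ∧
      Inv q z' y' (r + 1) J' (a' + r + a') ((5 * J + 40) * (2 * N * x))
        (8192 * r ^ 2 * s * T ^ 2 * α ^ 2 / J) (2048 * r * s * T ^ 2 * α / J) (16 * (m + 1)) := by
  obtain ⟨hl, hne, v, u', V, E, L₁, a, c, hv, b1, b2, b3, b4, b5, b6, b7, b8, b9⟩ := H
  obtain ⟨u, hud⟩ : ∃ u, u = Φ q z := ⟨_, rfl⟩
  obtain ⟨Δ, hΔd⟩ : ∃ Δ, Δ = Φ q y - Φ q z := ⟨_, rfl⟩
  obtain ⟨ξ, hξ⟩ : ∃ ξ : ℝ, ξ = 1 / (J * J') := ⟨_, rfl⟩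
  obtain ⟨X, hX⟩ : ∃ X, X = 2 * N * x := ⟨_, rfl⟩
  obtain ⟨c₃, rfl⟩ := Nat.exists_eq_add_of_le ha2
  obtain ⟨c₄, hc₄⟩ := Nat.exists_eq_add_of_le' ha3
  rw [← hΔd] at b9
  rw [← hud] at b4 b6
  rw [← hξ] at hTx hNω
  rw [← hX]
  have hu : Pb u := hud ▸ Φ_pb hq0 hq1 z
  have hx := b5.1
  have hJr : (1 : ℝ) ≤ J := by exact_mod_cast hJ
  have hJr' : (2 : ℝ) ≤ J' := by exact_mod_cast hJ'
  have hTr : (1 : ℝ) ≤ T := by exact_mod_cast hT
  have hN : (r : ℝ) + 1 ≤ N := by exact_mod_cast hN1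
  have hr0 : (0 : ℝ) ≤ r := Nat.cast_nonneg r
  have hxX : 2 * x ≤ X := by rw [hX]; nlinarith
  have hX0 : 0 ≤ X := by linarith
  have hξ0 : 0 ≤ ξ := by rw [hξ]; positivity
  have hξ2 : ξ ≤ 1 / 2 := by rw [hξ]; gcongr; nlinarith
  have hΔ := dDelta hv hJ hα b3 b7 b8 (b9 0 (by simp))
  obtain ⟨Z, Z', hZ⟩ := slip hv b1 (r + 1) (J ^ 2) T M₁ (L * b) (by omega) (by positivity) hM₁
    (by exact_mod_cast hM₁') hb (x := X * ξ) (hTx.trans (by gcongr; linarith))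
  have C : Ctx v u u' Δ V E Z Z' (r + 1) J L L₁ a c b N X α ξ T s :=
    ⟨hv, hu, hJ, hX0, hα, hξ0, by
      rw [hξ, div_mul_eq_mul_div, div_le_one (by positivity)]; nlinarith, hξ2, hTr, hs,
      by linarith, b2, b3, hN1, by omega, b4, b5.mono_x (by linarith),
      by rw [hΔd, map_sub, (Φ_pb hq0 hq1 _).ms, (Φ_pb hq0 hq1 _).ms, sub_self], hΔ.mono_x hxX,
      fun n hn => by
        rw [pow_mul]
        exact (comp_pow (hv.pow L) hω b6 hNω (by linarith) hn).mono_x (by rw [hX]; nlinarith),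
      b7.mono_x (by linarith), b8.mono (by linarith) le_rfl,
      fun i hi => (b9 i hi).mono_x (by linarith), hZ⟩
  have hPr : ∀ f : Bool → A, (∀ b, f b = Δ ∨ f b = 0) → ∀ w : List Bool, w.length ≤ r →
      D X (Pr u f w) ((2 : ℝ) • v ^ (L * w.length)) := by
    intro f hf w hw
    rw [pow_mul]
    refine (comp_Pr (hv.pow L) (x := 2 * x) (γ := ω + 2 * α) (by positivity) (fun b => ?_) hr1 w
      hw).mono_x (by rw [hX]; nlinarith)
    rcases hf b with hb | hb <;> rw [hb]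
    · exact ((b6.mono_x (by linarith)).add hΔ).congr (by abel) (by module)
    · rw [add_zero]; exact b6.mono_c (hv.pow L).nn (by linarith) (by linarith)
  obtain ⟨f, hfd⟩ : ∃ f : Bool → A, f = fun b => if b then Δ else 0 := ⟨_, rfl⟩
  obtain ⟨f', hfd'⟩ : ∃ f : Bool → A, f = fun b => if b then 0 else Δ := ⟨_, rfl⟩
  have hf : ∀ b, f b = Δ ∨ f b = 0 := fun b => by cases b <;> simp [hfd]
  have hf' : ∀ b, f' b = Δ ∨ f' b = 0 := fun b => by cases b <;> simp [hfd']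
  have hw : (ptm k).length = r := by rw [length_ptm, hr]
  have e1 : Φ q (rep (1 + b + c₃) z ++ (sub (fun b => if b then y else z) (ptm k) ++
      rep (1 + b + c₃) z)) = u ^ (1 + b + c₃) * Pr u f (ptm k) * u ^ (1 + b + c₃) := by
    rw [Φ_append, Φ_append, Φ_rep, ← hud, mul_assoc, Φ_sub q _ u f]
    intro b; cases b <;> simp [hfd, hud, hΔd]
  have e2 : Φ q (rep (1 + b + c₃) z ++ (sub (fun b => if b then z else y) (ptm k) ++
      rep (1 + b + c₃) z)) = u ^ (1 + b + c₃) * Pr u f' (ptm k) * u ^ (1 + b + c₃) := by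
    rw [Φ_append, Φ_append, Φ_rep, ← hud, mul_assoc, Φ_sub q _ u f']
    intro b; cases b <;> simp [hfd', hud, hΔd]
  have l1 := length_sub (fun b => if b then y else z) z.length
    (fun b => by cases b <;> simp [hl]) (ptm k)
  have l2 := length_sub (fun b => if b then z else y) z.length
    (fun b => by cases b <;> simp [hl]) (ptm k)
  have hSl : Sl u (16 * (m + 1)) := sl_step hu hv b1 hL hm b6 hm1 (by nlinarith) hm2 hm3
  have hF : ∀ t : ℝ, t ≤ 5 * J + 40 → t * X ≤ (5 * J + 40) * X := fun t ht => by gcongr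
  refine ⟨rep (1 + b + c₃) z ++ (sub (fun b => if b then y else z) (ptm k) ++ rep (1 + b + c₃) z),
    rep (1 + b + c₃) z ++ (sub (fun b => if b then z else y) (ptm k) ++ rep (1 + b + c₃) z),
    by simp only [List.length_append, length_rep, l1, hw]; ring,
    by simp only [List.length_append, l1, l2], ?_, u,
    u ^ (1 + b + c₃) * Pr u f (ptm k) * u ^ c₄, (2 * T : ℝ)⁻¹ • (u ^ (1 + c₃) * Z),
    (2 * T : ℝ) • (Avg (v ^ (r + 1)) (J ^ 2) * (R2 u f' (ptm k) - R2 u f (ptm k)) *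
      u ^ (1 + b + c₃)), 1 + b + c₃ + r + c₄, 1 + b + c₃, b + c₃, hu, hSl, by omega, by omega,
    ?_, ?_, ?_, ?_, ?_, fun n hn => ?_⟩
  · obtain ⟨w, hw⟩ := ptm_head k
    simp only [hw, sub, List.map_cons, List.flatten_cons, if_true, List.append_assoc]
    exact ne_of_head hl hne
  · rw [e1, mul_assoc _ (u ^ c₄), ← pow_add, ← hc₄]
  · have a1 := (C.dR1 rfl hf (hPr f hf) _ hw.le).trans_c (C.down (by omega)) (by positivity)
    have a2 := ((a1.of_sub (hu.pow _).nn (by linarith)).lmul (hu.pow (1 + b + c₃)).nn).rmul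
      (hu.pow c₄).nn
    rw [← pow_add, ← pow_add, hw] at a2
    exact a2.mono_x (by linarith [hF 4 (by linarith)])
  · rw [e1]; exact C.dOm rfl hf (hPr f hf) _ hw c₃
  · have a2 := (((D.of_le hZ.nn (by simpa using hZ.pow 0 (by simp))).trans_c (C.down C.hb)
      (by positivity)).lmul (hu.pow (1 + c₃)).nn).smul_c (c := (2 * T : ℝ)⁻¹) (by positivity)
    rw [← pow_add, add_right_comm] at a2
    exact a2.mono_c (hu.pow _).nn (by linarith [hF 1 (by linarith)]) (le_of_eq (by field_simp))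
  · refine (((((C.htR2 rfl hf' (hPr f' hf') _ hw c₃).sub (C.htR2 rfl hf (hPr f hf) _ hw c₃)).congr
      rfl (add_smul _ _ _).symm).smul_c (c := 2 * T) (by positivity)).mono_c (hu.pow _).nn
      (hF _ (by linarith)) (le_of_eq (by ring))).congr (by rw [mul_sub, sub_mul]) rfl
  · have a1 := (((C.dR2 rfl hf' (hPr f' hf') _ hw.le).sub (C.dR2 rfl hf (hPr f hf) _ hw.le)).congr
      rfl (add_smul _ _ _).symm).trans_c (C.down (by omega)) (by positivity)
    have a2 := (((C.bracket (n := n) (by omega)).mul_c a1).rmul (hu.pow (1 + b + c₃)).nn).lmul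
      (hu.pow (1 + c₃)).nn
    simp only [← pow_add] at a2
    rw [show 1 + c₃ + (n + b + (ptm k).length + (1 + b + c₃)) =
      n + (1 + b + c₃ + r + (1 + b + c₃)) by omega] at a2
    have a3 := a2.mono_c (hu.pow _).nn le_rfl
      (c' := 8192 * r ^ 2 * s * T ^ 2 * α ^ 2 / J / J') (by
        have b1 : 1 ≤ s * T ^ 2 := one_le_mul_of_one_le_of_one_le hs (one_le_pow₀ hTr)
        have b2 : 0 ≤ r ^ 2 * α ^ 2 * ξ := by positivity
        calc _ = 768 * 1 * (r ^ 2 * α ^ 2 * ξ) := by ring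
          _ ≤ 8192 * (s * T ^ 2) * (r ^ 2 * α ^ 2 * ξ) := by gcongr; norm_num
          _ = _ := by rw [hξ]; field_simp)
    refine (a3.approx hx ?_).mono_x (by linarith [hF 9 (by linarith)])
    have a4 := ptm_small hu Δ M₂ (c := r / ρ) k fun j hj =>
      (hSl.bound hu hρ hM₂ hM₂' _).trans (by
        rw [hr]; gcongr; exact one_le_two)
    have a5 : nr Δ ≤ 2 := by
      rw [hΔd]
      linarith [nr_sub_le (Φ q y) (Φ q z), (Φ_pb hq0 hq1 y).nr, (Φ_pb hq0 hq1 z).nr]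
    have a6 : Lin u (fun b => if b then Δ else -Δ) (ptm k) =
        Lin u f (ptm k) - Lin u f' (ptm k) := by
      have := Lin_lin u f f' 1 (-1) (ptm k)
      simp only [one_smul, neg_smul, ← sub_eq_add_neg] at this
      rw [← this]; congr 1; funext b; cases b <;> simp [hfd, hfd']
    obtain ⟨c₅, hc₅⟩ := Nat.exists_eq_add_of_le ha1
    have e3 : u ^ n * (u ^ (1 + b + c₃) * Pr u f' (ptm k) * u ^ (1 + b + c₃) -
        u ^ (1 + b + c₃) * Pr u f (ptm k) * u ^ (1 + b + c₃)) -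
        (2 * T : ℝ)⁻¹ • (u ^ (1 + c₃) * Z) * u ^ n * (2 * T : ℝ) •
          (Avg (v ^ (r + 1)) (J ^ 2) * (R2 u f' (ptm k) - R2 u f (ptm k)) * u ^ (1 + b + c₃)) -
        u ^ (1 + c₃) * ((u ^ (n + b) - Z * u ^ n * Avg (v ^ (r + 1)) (J ^ 2)) *
          (R2 u f' (ptm k) - R2 u f (ptm k)) * u ^ (1 + b + c₃)) =
        -(u ^ (n + c₅) * (u ^ (k * M₂) * Lin u (fun b => if b then Δ else -Δ) (ptm k) *
          u ^ (k * M₂)) * u ^ c₅) := by
      have p1 : u ^ (1 + c₃) * u ^ (n + b) = u ^ n * u ^ (1 + b + c₃) := by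
        rw [← pow_add, ← pow_add]; congr 1; omega
      have p2 : u ^ (n + c₅) * u ^ (k * M₂) = u ^ n * u ^ (1 + b + c₃) := by
        rw [← pow_add, ← pow_add]; congr 1; omega
      have p3 : u ^ (k * M₂) * u ^ c₅ = u ^ (1 + b + c₃) := by rw [← pow_add, hc₅]
      rw [smul_mul_assoc, smul_mul_smul_comm, inv_mul_cancel₀ (by positivity), one_smul, a6,
        mul_assoc (u ^ (k * M₂)), ← mul_assoc (u ^ (n + c₅)), p2, mul_assoc _ _ (u ^ c₅),
        mul_assoc _ _ (u ^ c₅), p3, sub_mul (u ^ (n + b)), sub_mul (u ^ (n + b) * _),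
        mul_sub (u ^ (1 + c₃)), mul_assoc (u ^ (n + b)), ← mul_assoc (u ^ (1 + c₃)) (u ^ (n + b)),
        p1, R2, R2, R1, R1]
      noncomm_ring
    rw [e1, e2, e3, nr_neg, (hu.pow _).ms_smul]
    refine ((hu.pow _).nr_mul_le' _).trans (((hu.pow _).nr_mul_le _).trans (a4.trans
      (le_trans ?_ hptm)))
    gcongr

end Vale.Agent.P321.LB
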