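import Mathlib
import Vale.Agent.P321.LStep

/-! A single wall in a periodic background, and the second level of the construction. -/

namespace Vale.Agent.P321.LB

section wall

variable {B V V' : A} {J N : ℕ} {T x s : ℝ} (hB : Pb B) (hJ : 1 ≤ J) (hx : 0 ≤ x) (hT : 1 ≤ T)
  (hS : Slip B (J ^ 2) (B ^ N) T (x * (1 / J ^ 2)) V V')
include hB hJ hx hT hS

omit hT in
theorem sandwich {y c ε : ℝ} {E : A} {n : ℕ} (hE : D y E (ε • B ^ n))
    (hM : D (x + y) (V * Avg B (J ^ 2) * E * (Avg B (J ^ 2) * V')) (c • B ^ (N + n + N))) :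
    D (x + y) (B ^ N * E * B ^ N) ((c + 2 * ε / J ^ 2) • B ^ (N + n + N)) := by
  have hA := hB.avg (I := J ^ 2) (by positivity)
  have a1 := ((hS.err (hB.pow N) hx (by positivity)).mul_c hE).rmul (hB.pow N).nn
  have a2 := (D.of_le (mul_nonneg hS.nn hA.nn) hS.le).mul
    (hE.mul_c (hS.err' (hB.pow N) hx (by positivity)))
  rw [mul_smul_comm, zero_add, add_comm y] at a2
  simp only [← pow_add] at a1 a2
  rw [← add_assoc] at a2
  exact ((hM.add a1).add a2).congr (by noncomm_ring) (by module)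

theorem good0 (hs : 1 ≤ s) (hsx : Real.exp (-s) ≤ x) {E : A} {κ : ℝ} (hκ : 0 ≤ κ)
    (hE : |E| ≤ κ • B) (hm : ms E = 0) :
    D ((J + 7) * x) (B ^ N * E * B ^ N) ((6 * s * κ * T ^ 2 / J) • B ^ (N + 1 + N)) := by
  have hJr : (1 : ℝ) ≤ J := by exact_mod_cast hJ
  have hE' : D ((J + 6) * x) E (κ • B ^ 1) := by
    rw [pow_one]; exact (D.of_abs_le hE).mono_x (by positivity)
  have t2 := (D.sum_c (Finset.range (2 * J ^ 2)) (x := x + (J + 6) * x)
    (c := s * J * (2 * κ) * T ^ 2) (P := B ^ (N + 1 + N))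
    (e := fun M => V * (∑ j ∈ (Finset.range (J ^ 2)).filter (fun j => j ≤ M ∧ M - j < J ^ 2),
      B ^ j * E * B ^ (M - j)) * V') (by positivity)
    fun M hM => by
      have b1 := azuma hB Pb.one (Commute.one_right B) (ε := 2 * κ) (by positivity) hs hsx
        ((HT.of_D (D.of_abs_le hE) hB hm).mono hx le_rfl) J M hJ
        ((Finset.range (J ^ 2)).filter (fun j => j ≤ M ∧ M - j < J ^ 2))
        (fun i hi => (Finset.mem_filter.1 hi).2.1)
        ((Finset.card_filter_le _ _).trans (by simp))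
      refine ((b1.lmul hS.nn).rmul hS.nn').mono (by linarith) ?_
      rw [← smul_smul _ (T ^ 2)]
      refine smul_le_smul_of_nonneg_left ?_ (by positivity)
      have b2 := mul_le_mul (mul_le_mul_of_nonneg_right (hS.pow M (Finset.mem_range.1 hM).le) hB.nn)
        (hS.pow' 0 (by simp)) (by simpa using hS.nn')
        (mul_nonneg (smul_nonneg (by positivity) (hB.pow N).nn) hB.nn)
      rw [smul_mul_assoc, smul_mul_smul_comm, ← pow_succ, ← pow_add, ← sq] at b2
      simpa [pow_succ, mul_assoc] using b2).smul_c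
    (c := ((J ^ 2 : ℕ) : ℝ)⁻¹ * ((J ^ 2 : ℕ) : ℝ)⁻¹) (by positivity)
  refine (sandwich hB hJ hx hS hE' (t2.congr ?_ rfl)).mono_c (hB.pow _).nn
    (le_of_eq (by ring)) ?_
  · rw [← Finset.sum_mul, ← Finset.mul_sum, ← sum_conv (J ^ 2) fun j M => B ^ j * E * B ^ (M - j)]
    simp only [Avg, add_tsub_cancel_left, smul_mul_assoc, mul_smul_comm, smul_smul,
      ← Finset.mul_sum, ← Finset.sum_mul, mul_assoc]
  · simp only [Finset.card_range]
    push_cast
    have b1 : 2 * κ / J ^ 2 ≤ (s * T ^ 2) * (2 * κ / J) := by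
      refine le_trans ?_ (le_mul_of_one_le_left (by positivity)
        (one_le_mul_of_one_le_of_one_le hs (one_le_pow₀ hT)))
      gcongr; nlinarith
    calc _ = 4 * s * κ * T ^ 2 / J + 2 * κ / J ^ 2 := by field_simp; ring
      _ ≤ 4 * s * κ * T ^ 2 / J + (s * T ^ 2) * (2 * κ / J) := by gcongr
      _ = _ := by ring

theorem good1 {β y ε : ℝ} (hβ0 : 0 < β) (hβ1 : β ≤ 1) (hβ : β • 1 ≤ B) {E : A} {n : ℕ}
    (hε : 0 ≤ ε) (hE : D y E (ε • B ^ n)) :
    D (x + y) (B ^ N * (B * E - E * B) * B ^ N) ((8 * T * ε / (β * J ^ 2)) • B ^ (N + (n + 1) + N)) := by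
  have hJr : (1 : ℝ) ≤ J := by exact_mod_cast hJ
  have hA := hB.avg (I := J ^ 2) (by positivity)
  have hE' : D y (B * E - E * B) ((2 * ε) • B ^ (n + 1)) :=
    ((hE.lmul hB.nn).sub (hE.rmul hB.nn)).congr rfl (by rw [← pow_succ, ← pow_succ']; module)
  have hup : B ^ (N + n + N) ≤ β⁻¹ • B ^ (N + (n + 1) + N) := by
    have := smul_le_smul_of_nonneg_left (mul_le_mul_of_nonneg_left hβ (hB.pow (N + n + N)).nn)
      (inv_nonneg.2 hβ0.le)
    rwa [mul_smul_comm, smul_smul, inv_mul_cancel₀ hβ0.ne', one_smul, mul_one, ← pow_succ,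
      show N + n + N + 1 = N + (n + 1) + N by omega] at this
  have key : ∀ P Q : A, 0 ≤ P → 0 ≤ Q → ∀ c c' : ℝ, c * c' = T → P ≤ c • B ^ N → Q ≤ c' • B ^ N →
      D y (P * E * Q) ((T * ε / β) • B ^ (N + (n + 1) + N)) := by
    intro P Q hP hQ c c' hc h1 h2
    have := ((D.of_le hP h1).mul_c hE).mul_c (D.of_le hQ h2)
    rw [← pow_add, ← pow_add, zero_add, add_zero] at this
    refine this.mono le_rfl ?_
    rw [show c * ε * c' = T * ε by rw [← hc]; ring, div_eq_mul_inv, ← smul_smul _ β⁻¹]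
    exact smul_le_smul_of_nonneg_left hup (by positivity)
  have hL : V * Avg B (J ^ 2) ≤ (1 : ℝ) • B ^ N := by simpa using hS.le
  have hR : Avg B (J ^ 2) * V' ≤ (1 : ℝ) • B ^ N := by simpa using hS.le'
  have pL := mul_nonneg hS.nn hA.nn
  have pR := mul_nonneg hA.nn hS.nn'
  have k1 := key _ _ (mul_nonneg hS.nn (hB.pow _).nn) pR T 1 (mul_one T)
    (hS.pow (J ^ 2) (by omega)) hR
  have k2 := key _ _ (mul_nonneg hS.nn (hB.pow _).nn) pR T 1 (mul_one T) (hS.pow 0 (by omega)) hR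
  have k3 := key _ _ pL (mul_nonneg (hB.pow _).nn hS.nn') 1 T (one_mul T) hL
    (hS.pow' (J ^ 2) (by omega))
  have k4 := key _ _ pL (mul_nonneg (hB.pow _).nn hS.nn') 1 T (one_mul T) hL
    (hS.pow' 0 (by omega))
  have k5 := ((((k1.sub k2).sub (k3.sub k4)).congr rfl
    (show _ = (4 * (T * ε / β)) • B ^ (N + (n + 1) + N) by module)).smul_c
    (c := ((J ^ 2 : ℕ) : ℝ)⁻¹) (by positivity)).mono_x (y := x + y) (by linarith)
  have g1 : Avg B (J ^ 2) * (B - 1) = ((J ^ 2 : ℕ) : ℝ)⁻¹ • (B ^ J ^ 2 - 1) := by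
    rw [Avg, smul_mul_assoc, geom_sum_mul]
  have g2 : (B - 1) * Avg B (J ^ 2) = ((J ^ 2 : ℕ) : ℝ)⁻¹ • (B ^ J ^ 2 - 1) := by
    rw [Avg, mul_smul_comm, mul_geom_sum]
  refine (sandwich hB hJ hx hS hE' (k5.congr ?_ rfl)).mono_c (hB.pow _).nn le_rfl ?_
  · have e : V * Avg B (J ^ 2) * (B * E - E * B) * (Avg B (J ^ 2) * V') =
        V * (Avg B (J ^ 2) * (B - 1)) * E * (Avg B (J ^ 2) * V') -
        V * Avg B (J ^ 2) * E * (((B - 1) * Avg B (J ^ 2)) * V') := by noncomm_ring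
    rw [e, g1, g2]
    simp only [smul_mul_assoc, mul_smul_comm, ← smul_sub]
    congr 1
    noncomm_ring
  · push_cast
    have b1 : 1 ≤ T / β := by rw [le_div_iff₀ hβ0]; linarith
    calc _ = 4 * T * ε / (β * J ^ 2) + 1 * (4 * ε / J ^ 2) := by field_simp; ring
      _ ≤ 4 * T * ε / (β * J ^ 2) + T / β * (4 * ε / J ^ 2) := by gcongr
      _ = _ := by field_simp; ring

theorem wall (hs : 1 ≤ s) (hsx : Real.exp (-s) ≤ x) {C : A} (hC : Pb C) {κ β : ℝ} (hκ : 0 ≤ κ)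
    (hE : |C - B| ≤ κ • B) (hβ0 : 0 < β) (hβ1 : β ≤ 1) (hβ : β • 1 ≤ B) {a : ℕ} (ha : 3 * N ≤ a)
    {ε δ : ℝ} (hε : ε = 6 * s * κ * T ^ 2 / J) (hδ : δ = 8 * T / (β * J ^ 2)) (hε1 : ε ≤ 1 / 2) :
    D ((2 * J + 16) * x) (B ^ (a + 2) * C * B ^ a - B ^ (a + 1) * C * B ^ (a + 1))
      ((2 * δ * ε) • (B ^ (a + 1) * C * B ^ (a + 1))) ∧
    D ((2 * J + 16) * x) (B ^ a * C * B ^ (a + 2) - B ^ (a + 1) * C * B ^ (a + 1))
      ((2 * δ * ε) • (B ^ (a + 1) * C * B ^ (a + 1))) ∧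
    D ((2 * J + 16) * x) ((B ^ (a + 2) * C * B ^ a - B ^ (a + 1) * C * B ^ (a + 1)) +
      (B ^ a * C * B ^ (a + 2) - B ^ (a + 1) * C * B ^ (a + 1)))
      ((2 * δ ^ 2 * ε) • (B ^ (a + 1) * C * B ^ (a + 1))) := by
  have w0 := good0 hB hJ hx hT hS hs hsx hκ hE (by rw [map_sub, hC.ms, hB.ms, sub_self])
  rw [← hε] at w0
  have hε0 : 0 ≤ ε := by rw [hε]; positivity
  have hδ0 : 0 ≤ δ := by rw [hδ]; positivity
  have w1 := good1 hB hJ hx hT hS hβ0 hβ1 hβ hε0 w0
  rw [show 8 * T * ε / (β * J ^ 2) = δ * ε by rw [hδ]; ring] at w1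
  have w2 := good1 hB hJ hx hT hS hβ0 hβ1 hβ (by positivity) w1
  rw [show 8 * T * (δ * ε) / (β * J ^ 2) = δ ^ 2 * ε by rw [hδ]; ring] at w2
  obtain ⟨e, rfl⟩ := Nat.exists_eq_add_of_le ha
  have hU := ((hB.pow (3 * N + e + 1)).mul hC).mul (hB.pow (3 * N + e + 1))
  have pad : ∀ {y c : ℝ} {E : A} {n : ℕ}, D y E (c • B ^ n) → ∀ i j m, m = i + n + j →
      D y (B ^ i * E * B ^ j) (c • B ^ m) := by
    intro y c E n h i j m hm
    have := (h.lmul (hB.pow i).nn).rmul (hB.pow j).nn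
    rwa [← pow_add, ← pow_add, ← hm] at this
  have u0 := ((pad w0 (2 * N + e + 1) (2 * N + e + 1) (2 * (3 * N + e) + 3) (by omega)).congr
    (show _ = B ^ (3 * N + e + 1) * C * B ^ (3 * N + e + 1) - B ^ (2 * (3 * N + e) + 3) by
      simp only [mul_sub, sub_mul, mul_assoc, ← pow_add, ← pow_succ']
      simp only [← mul_assoc, ← pow_add]
      ring_nf) rfl).rev (hB.pow _) hU hε1
  have u1 := (pad w1 (N + e + 1) (N + e) (2 * (3 * N + e) + 3) (by omega)).trans_c u0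
    (by positivity)
  have u2 := (pad w1 (N + e) (N + e + 1) (2 * (3 * N + e) + 3) (by omega)).trans_c u0
    (by positivity)
  have u3 := (pad w2 e e (2 * (3 * N + e) + 3) (by omega)).trans_c u0 (by positivity)
  have hJr : (0 : ℝ) ≤ J * x := by positivity
  have nf : ∀ i j : ℕ, B ^ i * (B ^ j) = B ^ (i + j) := fun i j => (pow_add B i j).symm
  have nf2 : ∀ (i j : ℕ) (X : A), B ^ i * (B ^ j * X) = B ^ (i + j) * X := fun i j X => by
    rw [← mul_assoc, nf]
  have nf3 : ∀ (i : ℕ) (X : A), B ^ i * (B * X) = B ^ (i + 1) * X := fun i X => by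
    rw [← mul_assoc, pow_succ]
  refine ⟨(u1.mono_x (by linarith)).congr ?_ (by congr 1; ring),
    (u2.neg.mono_x (by linarith)).congr ?_ (by congr 1; ring),
    (u3.mono_x (by linarith)).congr ?_ (by congr 1; ring)⟩
  all_goals
    simp only [mul_sub, sub_mul, mul_assoc, nf, nf2, nf3, ← pow_succ, ← pow_succ']
    ring_nf
    abel

end wall

theorem D_rec' {u P : A} {x c : ℝ} (hx : 0 ≤ x) (R : List Bool → A) (X : Bool → List Bool → A)
    (N : ℕ) (h0 : R [] = 0) (h1 : ∀ b w, R (b :: w) = X b w + u * R w)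
    (hX : ∀ i b w, i + 1 + w.length = N → D x (u ^ i * X b w) (c • P)) (w : List Bool)
    (i : ℕ) (hw : i + w.length = N) : D x (u ^ i * R w) ((w.length * c) • P) := by
  induction w generalizing i with
  | nil => simpa [h0] using D.zero hx le_rfl
  | cons b w ih =>
    have a1 := hX i b w (by simp at hw; omega)
    have a2 := ih (i + 1) (by simp at hw; omega)
    refine (a1.add a2).congr (by rw [h1, pow_succ]; noncomm_ring) ?_
    simp only [List.length_cons, Nat.cast_succ]; module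

theorem drec2 {u : A} (hu : Pb u) {x c : ℝ} (hx : 0 ≤ x) (hc : 0 ≤ c) (R : List Bool → A)
    (X : Bool → List Bool → A) (r : ℕ) (h0 : R [] = 0) (h1 : ∀ b w, R (b :: w) = X b w + u * R w)
    (hX : ∀ b (w : List Bool), w.length ≤ r → D x (X b w) (c • (u * u ^ w.length)))
    (w : List Bool) (hw : w.length ≤ r) : D x (R w) ((r * c) • u ^ w.length) := by
  have := D_rec' (u := u) (P := u ^ w.length) (c := c) hx R X w.length h0 h1 (fun i b w' hw' => by
    refine ((hX b w' (by omega)).lmul (hu.pow i).nn).congr rfl ?_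
    rw [← hw', ← pow_succ', ← pow_add]; congr 2; omega) w 0 (by simp)
  rw [pow_zero, one_mul] at this
  have hw' : (w.length : ℝ) ≤ r := by exact_mod_cast hw
  exact this.mono_c (hu.pow _).nn le_rfl (by gcongr)

theorem ms_R2 (u : A) (f : Bool → A) (hf : ∀ b, ms (f b) = 0) (w : List Bool) :
    ms (R2 u f w) = 0 := by
  induction w with
  | nil => simp [R2_nil]
  | cons b w ih => simp [R2_cons, hf, ih]

set_option maxHeartbeats 1000000 in
theorem base2 {q : ℝ} (hq0 : 0 ≤ q) (hq1 : q ≤ 1) {z : List Bool} {g : Bool → List Bool}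
    (hl : ∀ b, (g b).length = z.length) (hne : g false ≠ g true) {k r J a M : ℕ}
    {x α β μ ρ α' ω' : ℝ} (hr : r = 2 ^ k) (hα : 0 ≤ α) (hβ : 0 ≤ β) (hJ : 1 ≤ J)
    (hSl : Sl (Φ q z) μ) (h1 : ∀ b, D x (Φ q (g b) - Φ q z) (α • Φ q z))
    (h2 : D x (Φ q (g true) - Φ q z + (Φ q (g false) - Φ q z)) (β • Φ q z))
    (hρ : 0 < ρ) (hM : 0 < M) (hM' : μ * ρ ^ 2 ≤ M) (ha1 : k * M ≤ a)
    (ha3 : (r + 1) * J ^ 2 ≤ a) (hr1 : 2 * r * α ≤ 1)
    (hα' : 8 * r ^ 3 * α ^ 3 + 6 * r ^ 2 * α * β ≤ α') (hω' : 2 * r ^ 2 * α ^ 2 + r * β ≤ ω')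
    (hp1 : (2 * (r / ρ)) ^ k * 2 ≤ x * (α' / J)) (hp2 : (2 * (r / ρ)) ^ k * 2 ≤ x * ω') :
    ∃ z' y', z'.length = (a + r + a) * z.length ∧
      Inv q z' y' (r + 1) J (a + r + a) ((r + 4) * x) α' ω' μ := by
  obtain ⟨u, hud⟩ : ∃ u, u = Φ q z := ⟨_, rfl⟩
  obtain ⟨f, hfd⟩ : ∃ f : Bool → A, f = fun b => Φ q (g b) - u := ⟨_, rfl⟩
  obtain ⟨f', hfd'⟩ : ∃ f' : Bool → A, f' = fun b => f (!b) := ⟨_, rfl⟩
  obtain ⟨σ, hσ⟩ : ∃ σ, σ = f true + f false := ⟨_, rfl⟩
  obtain ⟨c₄, hc₄⟩ := Nat.exists_eq_add_of_le' ha3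
  obtain ⟨c₅, hc₅⟩ := Nat.exists_eq_add_of_le ha1
  obtain ⟨c₃, hc₃⟩ : ∃ c₃, a = 1 + c₃ := Nat.exists_eq_add_of_le (le_trans (by
    have : 1 ≤ J ^ 2 := Nat.one_le_pow _ _ hJ
    nlinarith) ha3)
  rw [← hud] at hSl h1 h2
  have hu : Pb u := hud ▸ Φ_pb hq0 hq1 z
  have hx := h2.1
  have hr0 : (0 : ℝ) ≤ r := Nat.cast_nonneg r
  have hJr : (1 : ℝ) ≤ J := by exact_mod_cast hJ
  have hf : ∀ b, D x (f b) (α • u) := fun b => hfd ▸ h1 b
  have hf' : ∀ b, D x (f' b) (α • u) := fun b => hfd' ▸ hf _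
  have hσD : D x σ (β • u) := by rw [hσ, hfd]; exact h2
  have hm : ∀ b, ms (f b) = 0 := fun b => by
    rw [hfd]; simp only [map_sub, (Φ_pb hq0 hq1 _).ms, hu.ms, sub_self]
  have hσ' : ∀ b, f' b = σ - f b := fun b => by cases b <;> simp [hfd', hσ]
  have gen : ∀ f : Bool → A, (∀ b, D x (f b) (α • u)) → ∀ w : List Bool, w.length ≤ r →
      D ((r + 1) * x) (R1 u f w) ((r * (α * 2)) • u ^ w.length) := fun f hf =>
    drec2 hu (by positivity) (by positivity) _ _ r (R1_nil u f) (R1_cons u f) fun b w hw =>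
      ((hf b).mul_c (comp_Pr hu hα (fun b => by simpa using hf b) hr1 w hw)).mono_x
        (le_of_eq (by ring))
  have gen2 : ∀ f : Bool → A, (∀ b, D x (f b) (α • u)) → ∀ w : List Bool, w.length ≤ r →
      D ((r + 2) * x) (R2 u f w) ((r * (α * (r * (α * 2)))) • u ^ w.length) := fun f hf =>
    drec2 hu (by positivity) (by positivity) _ _ r (R2_nil u f) (R2_cons u f) fun b w hw =>
      ((hf b).mul_c (gen f hf w hw)).mono_x (le_of_eq (by ring))
  have hLσ : ∀ w : List Bool, w.length ≤ r →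
      D x (Lin u (fun _ => σ) w) ((r * β) • u ^ w.length) :=
    drec2 hu hx hβ _ (fun _ w => σ * u ^ w.length) r rfl (fun _ _ => rfl) fun _ w _ =>
      hσD.rmul (hu.pow _).nn
  have l1 : ∀ w, Lin u f w + Lin u f' w = Lin u (fun _ => σ) w := fun w => by
    have := Lin_lin u f f' 1 1 w
    simp only [one_smul] at this
    rw [← this]; congr 1; funext b; rw [hσ']; abel
  have l2 : ∀ w, Lin u f w - Lin u f' w =
      Lin u (fun b => if b then f true - f false else -(f true - f false)) w := fun w => by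
    have := Lin_lin u f f' 1 (-1) w
    simp only [one_smul, neg_smul, ← sub_eq_add_neg] at this
    rw [← this]; congr 1; funext b; cases b <;> simp [hfd']
  have hS : ∀ w : List Bool, w.length ≤ r → D ((r + 2) * x) (R1 u f w + R1 u f' w)
      ((4 * r ^ 2 * α ^ 2 + r * β) • u ^ w.length) := fun w hw =>
    (((gen2 f hf w hw).add (gen2 f' hf' w hw)).add ((hLσ w hw).mono_x (by nlinarith))).congr
      (by rw [← l1, R2, R2]; abel) (by module)
  have hw : (ptm k).length = r := by rw [length_ptm, hr]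
  have hD := drec2 hu (x := (r + 3) * x) (c := α * (4 * r ^ 2 * α ^ 2 + r * β) + β * (r * (α * 2)))
    (by positivity) (by positivity) (fun w => R2 u f' w - R2 u f w)
    (fun b w => σ * R1 u f' w - f b * (R1 u f w + R1 u f' w)) r (by simp [R2_nil])
    (fun b w => by simp only [R2_cons, hσ']; noncomm_ring)
    (fun b w hw => (((hσD.mul_c (gen f' hf' w hw)).mono_x (by nlinarith)).sub
      (((hf b).mul_c (hS w hw)).mono_x (le_of_eq (by ring)))).congr rfl (by module)) _ hw.le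
  have e1 : Φ q (rep a z ++ (sub g (ptm k) ++ rep a z)) = u ^ a * Pr u f (ptm k) * u ^ a := by
    rw [Φ_append, Φ_append, Φ_rep, ← hud, mul_assoc, Φ_sub q _ u f]
    intro b; simp [hfd]
  have e2 : Φ q (rep a z ++ (sub (fun b => g (!b)) (ptm k) ++ rep a z)) =
      u ^ a * Pr u f' (ptm k) * u ^ a := by
    rw [Φ_append, Φ_append, Φ_rep, ← hud, mul_assoc, Φ_sub q _ u f']
    intro b; simp [hfd, hfd']
  have l3 := length_sub g z.length hl (ptm k)
  have l4 := length_sub (fun b => g (!b)) z.length (fun b => hl _) (ptm k)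
  have small : nr (u ^ a * (Lin u f (ptm k) - Lin u f' (ptm k)) * u ^ a) ≤
      (2 * (r / ρ)) ^ k * 2 := by
    have a4 := ptm_small hu (f true - f false) M (c := r / ρ) k fun j hj =>
      (hSl.bound hu hρ hM hM' _).trans (by rw [hr]; gcongr; exact one_le_two)
    have a5 : nr (f true - f false) ≤ 2 := by
      rw [hfd]
      simp only [sub_sub_sub_cancel_right]
      linarith [nr_sub_le (Φ q (g true)) (Φ q (g false)), (Φ_pb hq0 hq1 (g true)).nr,
        (Φ_pb hq0 hq1 (g false)).nr]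
    rw [← l2] at a4
    have e : u ^ a * (Lin u f (ptm k) - Lin u f' (ptm k)) * u ^ a =
        u ^ c₅ * (u ^ (k * M) * (Lin u f (ptm k) - Lin u f' (ptm k)) * u ^ (k * M)) * u ^ c₅ := by
      nth_rw 1 [hc₅, add_comm]
      nth_rw 1 [hc₅]
      simp only [pow_add, mul_assoc]
    rw [e]
    refine ((hu.pow _).nr_mul_le' _).trans (((hu.pow _).nr_mul_le _).trans (a4.trans ?_))
    gcongr
  rw [hw] at hD
  refine ⟨rep a z ++ (sub g (ptm k) ++ rep a z), rep a z ++ (sub (fun b => g (!b)) (ptm k) ++ rep a z),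
    by simp only [List.length_append, length_rep, l3, hw]; ring,
    by simp only [List.length_append, l3, l4], ?_, u, u ^ a * Pr u f (ptm k) * u ^ c₄, u ^ a,
    (R2 u f' (ptm k) - R2 u f (ptm k)) * u * u ^ c₃, a + r + c₄, a, c₃, hu, hSl, by omega, by omega,
    ?_, ?_, ?_, ?_, ?_, fun n _ => ?_⟩
  · obtain ⟨w, hw⟩ := ptm_head k
    simp only [hw, sub, List.map_cons, List.flatten_cons, List.append_assoc, Bool.not_true]
    exact ne_of_head (by rw [hl, hl]) hne
  · rw [e1, mul_assoc _ (u ^ c₄), ← pow_add, ← hc₄]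
  · have a2 := (((gen f hf _ hw.le).of_sub (hu.pow _).nn (by linarith)).lmul (hu.pow a).nn).rmul
      (hu.pow c₄).nn
    rw [← pow_add, ← pow_add, hw] at a2
    exact a2.mono_x (by nlinarith)
  · have a1 := ((((gen2 f hf _ hw.le).add (((hLσ _ hw.le).smul_c (c := 1 / 2)
      (by norm_num)).mono_x (by nlinarith))).congr rfl (add_smul _ _ _).symm).lmul
      (hu.pow a).nn).rmul (hu.pow a).nn
    rw [← pow_add, ← pow_add, hw] at a1
    refine ((a1.mono_c (hu.pow _).nn le_rfl (c' := ω') (by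
      nlinarith [mul_nonneg hr0 hβ])).approx hx ?_).mono_x (by nlinarith)
    have e : Φ q (rep a z ++ (sub g (ptm k) ++ rep a z)) - u ^ (a + r + a) -
        u ^ a * (R2 u f (ptm k) + (1 / 2 : ℝ) • Lin u (fun _ => σ) (ptm k)) * u ^ a =
        (1 / 2 : ℝ) • (u ^ a * (Lin u f (ptm k) - Lin u f' (ptm k)) * u ^ a) := by
      rw [e1, ← l1, R2, R1, hw, pow_add, pow_add]
      simp only [mul_add, add_mul, mul_sub, sub_mul, smul_add, mul_smul_comm, smul_mul_assoc]
      module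
    rw [e, nr_smul, (hu.pow _).ms_smul, abs_of_pos (by norm_num)]
    linarith [nr_nonneg (u ^ a * (Lin u f (ptm k) - Lin u f' (ptm k)) * u ^ a)]
  · simpa using (D.refl (hu.pow a).nn).mono_x (by positivity)
  · have a1 := hD.rmul hu.nn
    rw [← pow_succ] at a1
    have a2 := HT.of_D_mul a1 (hu.pow _) (by
      have : ∀ b, ms (f' b) = 0 := fun b => hfd' ▸ hm _
      simp [ms_R2 u f hm, ms_R2 u f' this]) (c' := 1) (F := u ^ c₃) (Q := u ^ c₃)
      (by simpa using D.refl (hu.pow c₃).nn)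
    exact a2.mono_c (hu.pow _).nn (by nlinarith) (by linarith)
  · have hα0 : 0 ≤ α' := le_trans (by positivity) hα'
    refine (D.of_nr (smul_nonneg (by positivity) (hu.pow _).nn) hx ?_).mono_x (by nlinarith)
    have e : u ^ n * (u ^ a * Pr u f' (ptm k) * u ^ a - u ^ a * Pr u f (ptm k) * u ^ a) -
        u ^ a * u ^ n * ((R2 u f' (ptm k) - R2 u f (ptm k)) * u * u ^ c₃) =
        -(u ^ n * (u ^ a * (Lin u f (ptm k) - Lin u f' (ptm k)) * u ^ a)) := by
      rw [mul_assoc _ u, ← pow_succ', add_comm c₃, ← hc₃, ((Commute.refl u).pow_pow a n).eq, R2, R2,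
        R1, R1]
      noncomm_ring
    rw [e1, e2, e, nr_neg, (hu.pow _).ms_smul]
    exact ((hu.pow _).nr_mul_le _).trans (small.trans hp1)

end Vale.Agent.P321.LB
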