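import Mathlib
import Vale.Agent.P321.LWall
import Vale.Agent.P321.LPin2

/-! Choice of parameters and iteration. -/

namespace Vale.Agent.P321.LB

/-- `x` is bounded by the `n`-th power of a large number `Y` -/
def Bd (Y x : ℝ) (n : ℤ) : Prop := 8192 ≤ Y ∧ 0 ≤ x ∧ x ≤ Y ^ n

namespace Bd

variable {Y x x' : ℝ} {a b : ℤ}

theorem le (h : Bd Y x a) (hab : a ≤ b) : x ≤ Y ^ b :=
  h.2.2.trans (zpow_le_zpow_right₀ (by linarith [h.1]) hab)

theorem len (h : Bd Y x a) {b : ℕ} (hab : a ≤ b) : x ≤ Y ^ b := by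
  simpa using h.le hab

theorem le1 (h : Bd Y x a) (ha : a ≤ 0) : x ≤ 1 := by simpa using h.le ha

theorem small (h : Bd Y x a) (ha : a ≤ -1) {c : ℝ} (hc : 1 / 8192 ≤ c) : x ≤ c :=
  (h.le ha).trans (le_trans (by
    rw [zpow_neg_one, ← one_div]; exact one_div_le_one_div_of_le (by norm_num) h.1) hc)

theorem mul (h : Bd Y x a) (h' : Bd Y x' b) : Bd Y (x * x') (a + b) :=
  ⟨h.1, mul_nonneg h.2.1 h'.2.1, by
    rw [zpow_add₀ (by linarith [h.1])]
    exact mul_le_mul h.2.2 h'.2.2 h'.2.1 (h.2.1.trans h.2.2)⟩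

theorem add (h : Bd Y x a) (h' : Bd Y x' b) : Bd Y (x + x') (max a b + 1) :=
  ⟨h.1, add_nonneg h.2.1 h'.2.1, by
    have h1 := h.1
    rw [zpow_add₀ (by linarith), zpow_one]
    have := zpow_pos (show 0 < Y by linarith) (max a b)
    nlinarith [h.le (le_max_left a b), h'.le (le_max_right a b)]⟩

theorem pow (h : Bd Y x a) (n : ℕ) : Bd Y (x ^ n) (a * n) :=
  ⟨h.1, pow_nonneg h.2.1 n, by
    rw [zpow_mul, zpow_natCast]; exact pow_le_pow_left₀ h.2.1 h.2.2 n⟩

theorem z (hY : 8192 ≤ Y) (n : ℤ) : Bd Y (Y ^ n) n := ⟨hY, by positivity, le_rfl⟩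
theorem n (hY : 8192 ≤ Y) (n : ℕ) : Bd Y (Y ^ n) n := ⟨hY, by positivity, by simp⟩
theorem self (hY : 8192 ≤ Y) : Bd Y Y 1 := ⟨hY, by positivity, by simp⟩
theorem one (hY : 8192 ≤ Y) : Bd Y 1 0 := ⟨hY, by positivity, by simp⟩
theorem of_le (hY : 8192 ≤ Y) (h0 : 0 ≤ x) (h : x ≤ Y) : Bd Y x 1 := ⟨hY, h0, by simpa using h⟩
theorem c (hY : 8192 ≤ Y) (c : ℝ) (h : 0 ≤ c ∧ c ≤ 8192) : Bd Y c 1 := of_le hY h.1 (h.2.trans hY)

end Bd

/-- `x` is at least the `n`-th power of a large number `Y` -/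
def Bl (Y x : ℝ) (n : ℤ) : Prop := 8192 ≤ Y ∧ Y ^ n ≤ x

namespace Bl

variable {Y x x' : ℝ} {a b : ℤ}

theorem pos (h : Bl Y x a) : 0 < x := (zpow_pos (by linarith [h.1]) a).trans_le h.2

theorem mul (h : Bl Y x a) (h' : Bl Y x' b) : Bl Y (x * x') (a + b) :=
  ⟨h.1, by
    rw [zpow_add₀ (by linarith [h.1])]
    exact mul_le_mul h.2 h'.2 (zpow_pos (by linarith [h.1]) b).le h.pos.le⟩

theorem pow (h : Bl Y x a) (n : ℕ) : Bl Y (x ^ n) (a * n) :=
  ⟨h.1, by
    rw [zpow_mul, zpow_natCast]; exact pow_le_pow_left₀ (zpow_pos (by linarith [h.1]) a).le h.2 n⟩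

theorem z (hY : 8192 ≤ Y) (n : ℤ) : Bl Y (Y ^ n) n := ⟨hY, le_rfl⟩
theorem n (hY : 8192 ≤ Y) (n : ℕ) : Bl Y (Y ^ n) n := ⟨hY, by simp⟩
theorem self (hY : 8192 ≤ Y) : Bl Y Y 1 := ⟨hY, by simp⟩
theorem c (hY : 8192 ≤ Y) (c : ℝ) (h : 1 ≤ c) : Bl Y c 0 := ⟨hY, by simpa using h⟩

theorem div (h : Bl Y x a) (h' : Bd Y x' b) (h0 : 0 < x') : Bl Y (x / x') (a - b) :=
  ⟨h.1, by
    rw [zpow_sub₀ (by linarith [h.1])]
    exact div_le_div₀ h.pos.le h.2 h0 h'.2.2⟩

end Bl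

theorem Bd.div {Y x x' : ℝ} {a b : ℤ} (h : Bd Y x a) (h' : Bl Y x' b) : Bd Y (x / x') (a - b) :=
  ⟨h.1, div_nonneg h.2.1 h'.pos.le, by
    rw [zpow_sub₀ (by linarith [h.1])]
    exact div_le_div₀ (h.2.1.trans h.2.2) h.2.2 (zpow_pos (by linarith [h.1]) b) h'.2⟩

theorem Bd.le' {Y x x' : ℝ} {a b : ℤ} (h : Bd Y x a) (h' : Bl Y x' b) (hab : a ≤ b) : x ≤ x' :=
  (h.le hab).trans h'.2

/-- the invariant with explicit parameters -/
def Lev (q : ℝ) (k u A : ℕ) : Prop := ∃ z w, z.length ≤ (2 ^ k) ^ (128 * u + 128) ∧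
  Inv q z w (2 ^ k + 1) ((2 ^ k) ^ (4 * u + 4))
    ((2 ^ k) ^ (64 * u + 62) + 2 ^ k + (2 ^ k) ^ (64 * u + 62))
    (((2 ^ k : ℕ) : ℝ) ^ (64 * u + 64 - k : ℤ)) (((2 ^ k : ℕ) : ℝ) ^ (-A : ℤ))
    (((2 ^ k : ℕ) : ℝ) ^ (-(64 * u + 64) : ℤ)) (((2 ^ k : ℕ) : ℝ) ^ (64 * u + 55 : ℤ))

theorem params {k y : ℕ} (hy : y = 2 ^ k) (hk : 13 ≤ k) :
    (8192 : ℝ) ≤ y ∧ Bd y ((1 / 2) ^ y) (-k) ∧ Bd y (Real.exp (-y)) (-k) ∧ Bd y k 1 ∧
      Bd y ((2 * (y / (y : ℝ) ^ 3)) ^ k * 2) (2 - 2 * k) := by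
  have h1 : (8192 : ℝ) ≤ y := by
    exact_mod_cast hy ▸ (Nat.pow_le_pow_right (by norm_num) hk : 2 ^ 13 ≤ 2 ^ k)
  have h2 : k * k ≤ 2 ^ k := by
    clear hy h1
    induction k, hk using Nat.le_induction with
    | base => norm_num
    | succ k hk ih => rw [pow_succ]; nlinarith
  have h3 : (1 / 2 : ℝ) ^ y ≤ (y : ℝ) ^ (-k : ℤ) := by
    rw [zpow_neg, zpow_natCast, one_div, inv_pow]
    refine inv_anti₀ (by positivity) ?_
    rw [hy]; push_cast
    rw [← pow_mul]; exact pow_le_pow_right₀ one_le_two h2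
  refine ⟨h1, ⟨h1, by positivity, h3⟩, ⟨h1, by positivity, le_trans ?_ h3⟩,
    Bd.of_le h1 (by positivity) (by exact_mod_cast hy ▸ Nat.lt_two_pow_self.le), ?_⟩
  · rw [← mul_neg_one, Real.exp_nat_mul]
    gcongr
    rw [Real.exp_neg, one_div]
    exact inv_anti₀ two_pos (by linarith [Real.add_one_le_exp 1])
  · have h4 : (2 : ℝ) ^ k = y := by rw [hy]; push_cast; rfl
    have := ((Bd.self h1).mul (((Bd.self h1).div (Bl.n h1 3)).pow k)).mul (Bd.c h1 2 (by norm_num))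
    rw [mul_pow, h4]
    exact ⟨h1, this.2.1, this.le (by push_cast; omega)⟩

theorem len_le {y n : ℕ} (hy : (8192 : ℝ) ≤ y) (hn : 1 ≤ n) : y ^ n + y + y ^ n ≤ y ^ (n + 2) := by
  have := (((Bd.n hy n).add (Bd.self hy)).add (Bd.n hy n)).len (b := n + 2) (by omega)
  exact_mod_cast this

set_option maxHeartbeats 1000000 in
theorem Lev.step {q : ℝ} (hq0 : 0 ≤ q) (hq1 : q ≤ 1) {k u A A' : ℕ} (H : Lev q k u A) (hu : 8 ≤ u)
    (hA : 124 * u + 131 ≤ A) (hk : 2 * A ≤ k) (hA' : A' + 4 ≤ 2 * A + 4 * u) :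
    Lev q k (2 * u + 1) A' := by
  obtain ⟨z, w, hz, H⟩ := H
  unfold Lev
  obtain ⟨y, hy⟩ : ∃ y, y = 2 ^ k := ⟨_, rfl⟩
  rw [← hy] at hz H ⊢
  obtain ⟨hY, p1, p2, p3, p4⟩ := params hy (by omega)
  have hY0 : (y : ℝ) ≠ 0 := by positivity
  have hy1 : 1 ≤ y := by exact_mod_cast (by linarith : (1 : ℝ) ≤ y)
  have N := Bd.n hY
  have Z := Bd.z hY
  have s := Bd.self hY
  have o := Bd.one hY
  have c2 := Bd.c hY 2 (by norm_num)
  have c4 := Bd.c hY 4 (by norm_num)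
  have c16 := Bd.c hY 16 (by norm_num)
  have hx := Z (64 * u + 64 - k)
  have hα := Z (-A)
  have hω := Z (-(64 * u + 64))
  have N' := Bl.n hY
  have Z' := Bl.z hY
  have s' := Bl.self hY
  have o' := Bl.c hY 1 le_rfl
  have hm : Bd y (16 * ((y : ℝ) ^ (128 * u + 118) + 1)) (1 + (128 * u + 118 : ℕ)) :=
    ⟨hY, by positivity, le_trans (by linarith [o.len (b := 128 * u + 118) (by omega)])
      ((Bd.c hY 32 (by norm_num)).mul (N (128 * u + 118))).2.2⟩
  have ex : Bd y (Real.exp ((y : ℝ) ^ (64 * u + 64 - k : ℤ)) - 1) (1 + (64 * u + 64 - k)) :=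
    ⟨hY, sub_nonneg.2 (Real.one_le_exp hx.2.1), le_trans (by
      have := Real.abs_exp_sub_one_le (x := (y : ℝ) ^ (64 * u + 64 - k : ℤ))
        (by rw [abs_of_nonneg hx.2.1]; exact hx.le1 (by omega))
      rw [abs_of_nonneg hx.2.1] at this
      exact (le_abs_self _).trans this) (c2.mul hx).2.2⟩
  obtain ⟨z', w', h1, h2⟩ := LB.step hq0 hq1 (T := y) (J' := y ^ (8 * u + 8))
    (a' := y ^ (128 * u + 126)) (b := y ^ (16 * u + 17)) (N := y ^ (16 * u + 19))
    (M₁ := y ^ (80 * u + 77)) (M₂ := y ^ (128 * u + 125)) (m := y ^ (128 * u + 118)) (s := y)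
    (ρ := y ^ 3) hy H hα.2.1 hω.2.1 (Nat.one_le_pow _ _ hy1)
    (by exact_mod_cast c2.len (b := 8 * u + 8) (by omega)) hy1 (by linarith) (p2.le (by omega))
    (by
      push_cast
      exact p1.le' ((Z' _).mul (o'.div ((N _).mul (N _)) (by positivity))) (by omega))
    (by exact_mod_cast (s.add o).len (b := 16 * u + 19) (by omega))
    (by exact_mod_cast (((s.add o).mul ((N (8 * u + 8)).pow 2)).add (N (16 * u + 17))).len
          (b := 16 * u + 19) (by omega))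
    (by
      push_cast
      exact ((c2.mul (N _)).mul hω).le' (o'.div ((N _).mul (N _)) (by positivity)) (by omega))
    (by positivity)
    (by
      push_cast
      exact ((Z _).mul (((c4.mul (s.add o)).mul ((N _).pow 2)).pow 2)).len (by omega))
    (by
      refine le_trans ?_ (Nat.mul_le_mul_right _ (Nat.le_add_left _ _))
      rw [← pow_add]
      exact_mod_cast (((N (80 * u + 77)).add ((c2.mul (s.add o)).mul ((N (4 * u + 4)).pow 2))).mul
        s).len (b := 64 * u + 62 + (16 * u + 17)) (by omega))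
    (by positivity) (by positivity)
    (by
      push_cast
      refine le_trans ?_ ((((Bd.c hY 48 (by norm_num)).mul (N (64 * u + 62))).mul
        (Z (64 * u + 55))).len (by omega))
      gcongr ?_ * _
      linarith [s.len (b := 64 * u + 62) (by omega)])
    (by push_cast; exact (((N _).add o).mul (hω.pow 2)).small (by omega) (by norm_num))
    (by push_cast; exact (((N _).add o).mul ((c2.mul hω).mul ex)).small (by omega) (by norm_num))
    (by positivity) (by positivity)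
    (by push_cast; exact (hm.mul ((N 3).pow 2)).len (by omega))
    (by exact_mod_cast (p3.mul (N (128 * u + 125))).len (b := 128 * u + 126) (by omega))
    (by exact_mod_cast (o.add (N (16 * u + 17))).len (b := 128 * u + 126) (by omega))
    (by exact_mod_cast ((s.add o).mul ((N (8 * u + 8)).pow 2)).len (b := 128 * u + 126) (by omega))
    (((c2.mul s).mul (hω.add (c2.mul hα))).le1 (by omega)) (((c16.mul s).mul hα).le1 (by omega))
    (by
      push_cast
      exact p4.le' ((Z' _).mul ((((((((Bl.c hY 8192 (by norm_num)).mul (N' 2)).mul s').mul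
        (N' 2)).mul ((Z' _).pow 2)).div (N _) (by positivity))).div (N _) (by positivity)))
        (by omega))
  rw [show 4 * (2 * u + 1) + 4 = 8 * u + 8 by ring, show 64 * (2 * u + 1) + 62 = 128 * u + 126 by
    ring]
  refine ⟨z', w', ?_, h2.mono ?_ ?_ ?_ ?_⟩
  · rw [h1, show 128 * (2 * u + 1) + 128 = 128 * u + 126 + 2 + (128 * u + 128) by ring,
      pow_add y (128 * u + 126 + 2)]
    exact Nat.mul_le_mul (len_le hY (by omega)) hz
  · push_cast
    exact ((((Bd.c hY 5 (by norm_num)).mul (N _)).add (Bd.c hY 40 (by norm_num))).mul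
      ((c2.mul (N _)).mul hx)).le (by omega)
  · push_cast
    exact ((((((Bd.c hY 8192 (by norm_num)).mul (N 2)).mul s).mul (N 2)).mul (hα.pow 2)).div
      (N' _)).le (by omega)
  · push_cast
    exact ((((((Bd.c hY 2048 (by norm_num)).mul s).mul s).mul (N 2)).mul hα).div
      (N' _)).le (by omega)
  · push_cast
    exact hm.le (by omega)

theorem rep_add (m n : ℕ) (z : List Bool) : rep (m + n) z = rep m z ++ rep n z := by
  rw [rep, rep, rep, List.replicate_add, List.flatten_append]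

theorem wall_close {q : ℝ} (q0 : 0 < q) (q1 : q ≤ 1) :
    |Φ q [true] - Φ q [false, true]| ≤ q⁻¹ • Φ q [false, true] := by
  have hB := Φ_pb q0.le q1 [false, true]
  have hC := Φ_pb q0.le q1 [true]
  have h1 : q • Φ q [true] ≤ Φ q [false, true] := by
    have := mul_le_mul_of_nonneg_right (le_add_of_nonneg_right (a := q • (1 : A))
      (smul_nonneg (sub_nonneg.2 q1) (Pb.lt false).nn)) hC.nn
    simpa [Φ] using this
  have h2 := smul_le_smul_of_nonneg_left h1 (inv_nonneg.2 q0.le)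
  rw [smul_smul, inv_mul_cancel₀ q0.ne', one_smul] at h2
  refine abs_le'.2 ⟨(sub_le_self _ hB.nn).trans h2, ?_⟩
  rw [neg_sub]
  refine (sub_le_self _ hC.nn).trans ?_
  simpa using smul_le_smul_of_nonneg_right ((one_le_inv₀ q0).2 q1) hB.nn

set_option maxHeartbeats 1000000 in
theorem Lev.base {q : ℝ} (q0 : 0 < q) (q1 : q < 1) : ∃ k₀ : ℕ, ∀ k u A : ℕ, k₀ ≤ k → 31 ≤ u →
    A ≤ k → 64 * u + 64 ≤ k → A ≤ 126 * u + 126 → Lev q k u A := by
  obtain ⟨d, K, hd, hSl⟩ := pin q0 q1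
  obtain ⟨k₀, hk₀⟩ := exists_nat_ge (max (max q⁻¹ K) d)
  refine ⟨k₀, fun k u A hk hu hA hk' hA' => ?_⟩
  unfold Lev
  obtain ⟨y, hy⟩ : ∃ y, y = 2 ^ k := ⟨_, rfl⟩
  rw [← hy]
  obtain ⟨hY, p1, p2, p3, p4⟩ := params hy (by omega)
  have hk1 : max (max q⁻¹ K) d ≤ (y : ℝ) :=
    hk₀.trans ((Nat.cast_le.2 hk).trans (by simpa using p3.2.2))
  simp only [max_le_iff] at hk1
  obtain ⟨⟨k1, k2⟩, k3⟩ := hk1
  have hY0 : (0 : ℝ) < y := by positivity
  have hy1 : 1 ≤ y := by exact_mod_cast (by linarith : (1 : ℝ) ≤ y)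
  have N := Bd.n hY
  have Z := Bd.z hY
  have s := Bd.self hY
  have o := Bd.one hY
  have N' := Bl.n hY
  have Z' := Bl.z hY
  have s' := Bl.self hY
  have o' := Bl.c hY 1 le_rfl
  have c2 := Bd.c hY 2 (by norm_num)
  have c6 := Bd.c hY 6 (by norm_num)
  have c8 := Bd.c hY 8 (by norm_num)
  have hB := Φ_pb q0.le q1.le [false, true]
  have hC := Φ_pb q0.le q1.le [true]
  have hβ : ((y : ℝ) ^ (-2 : ℤ)) • 1 ≤ Φ q [false, true] := by
    refine le_trans (smul_le_smul_of_nonneg_right ?_ zero_le_one) (Φ_01 q0.le q1.le)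
    rw [show (y : ℝ) ^ (-2 : ℤ) = (y : ℝ)⁻¹ ^ 2 by rw [inv_pow]; rfl]
    gcongr
    exact inv_le_of_inv_le₀ q0 k1
  have hβ1 := (Z (-2)).le1 (by omega)
  obtain ⟨V, V', hS⟩ := slip hB (sl_lazy hB (by positivity) hβ1 hβ) 1 ((y ^ (16 * u + 12)) ^ 2) y
    (y ^ (64 * u + 51)) (y ^ (64 * u + 53)) one_pos (by positivity) (by positivity)
    (by
      push_cast
      refine le_trans (le_of_eq (by ring)) ((((Bd.c hY 128 (by norm_num)).div (Z' (-2))).mul
        ((N (16 * u + 12)).pow 4)).len (by omega)))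
    (by exact_mod_cast (((N (64 * u + 51)).add ((c2.mul o).mul ((N (16 * u + 12)).pow 2))).mul
        s).len (b := 64 * u + 53) (by omega))
    (x := (y : ℝ) ^ (32 * u + 32 - k : ℤ) * (1 / ((y ^ (16 * u + 12) : ℕ) : ℝ) ^ 2))
    (by
      push_cast
      exact p1.le' ((Z' _).mul (o'.div ((N _).pow 2) (by positivity))) (by omega))
  rw [pow_one] at hS
  obtain ⟨m, hm⟩ : ∃ m, y ^ (64 * u + 54) = m + 1 :=
    ⟨_, (Nat.sub_add_cancel (Nat.one_le_pow _ _ hy1)).symm⟩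
  have hm1 : 3 * y ^ (64 * u + 53) + 1 ≤ m + 1 := by
    rw [← hm]
    have := ((Bd.c hY 4 (by norm_num)).mul (N (64 * u + 53))).len (b := 64 * u + 54) (by omega)
    exact_mod_cast (by linarith [o.len (b := 64 * u + 53) (by omega)] :
      3 * (y : ℝ) ^ (64 * u + 53) + 1 ≤ y ^ (64 * u + 54))
  obtain ⟨a, ha⟩ : ∃ a, d * (m + 1) = a + 1 :=
    ⟨_, (Nat.sub_add_cancel (Nat.mul_pos hd m.succ_pos)).symm⟩
  have hε := (((c6.mul s).mul s).mul (N 2)).div (N' (16 * u + 12))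
  have hδ := (c8.mul s).div ((Z' (-2)).mul ((N' (16 * u + 12)).pow 2))
  obtain ⟨w1, w2, w3⟩ := wall hB (Nat.one_le_pow _ _ hy1) (by positivity) (by linarith) hS
    (s := y) (by linarith) (p2.le (by omega)) hC hY0.le
    ((wall_close q0 q1.le).trans (smul_le_smul_of_nonneg_right k1 hB.nn)) (by positivity) hβ1 hβ
    (a := a) (by nlinarith) rfl rfl (by push_cast; exact hε.small (by omega) (by norm_num))
  push_cast at w1 w2 w3
  have hα := (c2.mul hδ).mul hε
  have hβ' := (c2.mul (hδ.pow 2)).mul hε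
  have hx := (((c2.mul (N (16 * u + 12))).add (Bd.c hY 16 (by norm_num))).mul
    (Z (32 * u + 32 - k))).le (b := 64 * u + 62 - k) (by omega)
  have hSl' := hSl m (by have := Nat.one_le_pow (64 * u + 53) _ hy1; omega)
  rw [ha] at hSl'
  obtain ⟨z', y', h1, h2⟩ := base2 q0.le q1.le
    (z := rep (a + 1) [false, true] ++ [true] ++ rep (a + 1) [false, true])
    (g := fun b => if b then rep (a + 2) [false, true] ++ [true] ++ rep a [false, true]
      else rep a [false, true] ++ [true] ++ rep (a + 2) [false, true])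
    (fun b => by cases b <;> simp [length_rep] <;> ring)
    (by simp [rep_add a 2, show rep 2 [false, true] = [false, true, false, true] from rfl]) (J := y ^ (4 * u + 4)) (a := y ^ (64 * u + 62))
    (M := y ^ (64 * u + 61)) (x := (y : ℝ) ^ (64 * u + 62 - k : ℤ)) (μ := y ^ (64 * u + 55 : ℤ))
    (ρ := y ^ 3) (α' := y ^ (-A : ℤ)) (ω' := y ^ (-(64 * u + 64) : ℤ)) hy hα.2.1 hβ'.2.1
    (Nat.one_le_pow _ _ hy1)
    (by
      simp only [Φ_append, Φ_rep]
      refine hSl'.mono (le_trans ?_ ((s.mul (N (64 * u + 54))).le (by omega)))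
      rw [show (y : ℝ) ^ (64 * u + 54) = m + 1 by exact_mod_cast hm]
      gcongr)
    (fun b => by
      cases b <;> simp only [Φ_append, Φ_rep, if_true, if_false, Bool.false_eq_true]
      exacts [w2.mono_x hx, w1.mono_x hx])
    (by
      simp only [Φ_append, Φ_rep, if_true, if_false, Bool.false_eq_true]
      exact w3.mono_x hx)
    (by positivity) (by positivity)
    (by push_cast; exact ((Z _).mul ((N 3).pow 2)).len (by omega))
    (by exact_mod_cast (p3.mul (N (64 * u + 61))).len (b := 64 * u + 62) (by omega))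
    (by exact_mod_cast ((s.add o).mul ((N (4 * u + 4)).pow 2)).len (b := 64 * u + 62) (by omega))
    (((c2.mul s).mul hα).le1 (by omega))
    ((((c8.mul (N 3)).mul (hα.pow 3)).add (((c6.mul (N 2)).mul hα).mul hβ')).le (by omega))
    ((((c2.mul (N 2)).mul (hα.pow 2)).add (s.mul hβ')).le (by omega))
    (by
      push_cast
      exact p4.le' ((Z' _).mul ((Z' _).div (N _) (by positivity))) (by omega))
    (p4.le' ((Z' _).mul (Z' _)) (by omega))
  refine ⟨z', y', ?_, h2.mono (((s.add (Bd.c hY 4 (by norm_num))).mul (Z _)).le (by omega))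
    le_rfl le_rfl le_rfl⟩
  rw [h1, show 128 * u + 128 = 64 * u + 62 + 2 + (64 * u + 64) by ring,
    pow_add y (64 * u + 62 + 2)]
  refine Nat.mul_le_mul (len_le hY (by omega)) ?_
  simp only [List.length_append, length_rep, List.length_cons, List.length_nil, ← ha, ← hm]
  have hd' := Bd.of_le hY (Nat.cast_nonneg d) k3
  have e := (hd'.mul (N (64 * u + 54))).mul c2
  exact_mod_cast ((e.add o).add e).len (b := 64 * u + 64) (by omega)

theorem levels {q : ℝ} (q0 : 0 < q) (q1 : q < 1) : ∃ k₀ : ℕ, ∀ k j u : ℕ, k₀ ≤ k →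
    u + 1 = 32 * 2 ^ j → 2 * ((126 + j) * (u + 1)) ≤ k → Lev q k u ((126 + j) * (u + 1)) := by
  obtain ⟨k₀, h⟩ := Lev.base q0 q1
  refine ⟨k₀, fun k j => ?_⟩
  induction j with
  | zero => intro u hk hu hA; exact h k u _ hk (by omega) (by omega) (by omega) (by omega)
  | succ j ih =>
    intro u hk hu hA
    obtain ⟨v, hv⟩ : ∃ v, 32 * 2 ^ j = v + 1 :=
      ⟨_, (Nat.sub_add_cancel (Nat.succ_le_of_lt (by positivity))).symm⟩
    have h1 : 1 ≤ 2 ^ j := Nat.one_le_two_pow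
    obtain rfl : u = 2 * v + 1 := by rw [pow_succ] at hu; omega
    have h2 : 2 * ((126 + j) * (v + 1)) ≤ k := by nlinarith
    exact (ih v hk hv.symm h2).step q0.le q1.le (by omega) (by nlinarith) h2 (by nlinarith)

end Vale.Agent.P321.LB
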