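import Mathlib
import Vale.Agent.P321.Defs
import Vale.Agent.P321.Obs

/-! From separation of single traces to an estimator. -/

namespace Vale.Agent.P321

theorem traceOf_length {n : ℕ} (x r : Fin n → Bool) : (traceOf x r).length ≤ n := by
  rw [traceOf, List.length_map]
  exact (List.length_filter_le _ _).trans (by simp)

theorem traceOf_cons {n : ℕ} (x : Fin (n + 1) → Bool) (c : Bool) (r : Fin n → Bool) :
    traceOf x (Fin.cons c r) =
      if c then x 0 :: traceOf (fun i => x i.succ) r else traceOf (fun i => x i.succ) r := by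
  simp only [traceOf, List.finRange_succ, List.filter_cons, Fin.cons_zero, List.filter_map]
  cases c <;> simp [Function.comp_def]

theorem Ex_eq_sum (q : ℝ) {n : ℕ} (x : Fin n → Bool) (f : List Bool → ℂ) :
    Ex q f (List.ofFn x) = ∑ r, (maskWeight q r : ℂ) * f (traceOf x r) := by
  induction n generalizing f with
  | zero => simp [Ex, maskWeight, traceOf]
  | succ n ih =>
    rw [List.ofFn_succ, Ex, ih, ih, ← (Fin.consEquiv fun _ => Bool).sum_comp,
      Fintype.sum_prod_type, Fintype.sum_bool, add_comm, Finset.mul_sum, Finset.mul_sum]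
    congr 1 <;> refine Finset.sum_congr rfl fun r _ => ?_ <;>
      simp [Fin.consEquiv, traceOf_cons, maskWeight, Fin.prod_univ_succ, mul_assoc]

theorem maskWeight_nonneg {q : ℝ} (h0 : 0 ≤ q) (h1 : q ≤ 1) {n : ℕ} (r : Fin n → Bool) :
    0 ≤ maskWeight q r :=
  Finset.prod_nonneg fun i _ => by split_ifs <;> linarith

theorem sum_maskWeight (q : ℝ) (n : ℕ) : ∑ r : Fin n → Bool, maskWeight q r = 1 := by
  have := Ex_eq_sum q (fun _ : Fin n => true) (fun _ => 1)
  rw [Ex_const] at this
  simp only [mul_one] at this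
  exact_mod_cast this.symm

theorem Ex_ind (q : ℝ) (y z : List Bool) (h : y.length ≤ z.length) :
    Ex q (fun t => if t = z then 1 else 0) y = if y = z then (1 - q : ℂ) ^ y.length else 0 := by
  induction y generalizing z with
  | nil => simp [Ex]
  | cons b y ih =>
    cases z with
    | nil => simp at h
    | cons c z =>
      simp only [List.length_cons, add_le_add_iff_right] at h
      have h1 : y ≠ c :: z := by rintro rfl; simp at h
      rw [Ex, ih _ (by simp; omega), if_neg h1]
      by_cases hbc : b = c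
      · subst hbc
        simp only [List.cons.injEq, true_and, ih z h, List.length_cons]
        split_ifs <;> ring
      · simp [hbc, Ex_const]

theorem reconstructible_of_sep {q : ℝ} (h0 : 0 ≤ q) (h1 : q ≤ 1) (n m : ℕ) (ε : ℝ) (hε : 0 < ε)
    (hε1 : ε ≤ 1) (hm : 64 * (n + 2) ≤ m * ε ^ 2)
    (hsep : ∀ x y : Fin n → Bool, x ≠ y → ∃ f : List Bool → ℂ,
      (∀ t : List Bool, t.length ≤ n → ‖f t‖ ≤ 1) ∧
        ε ≤ ‖Ex q f (List.ofFn x) - Ex q f (List.ofFn y)‖) :
    Reconstructible q n m := by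
  classical
  have hw := fun r : Fin n → Bool => maskWeight_nonneg h0 h1 r
  obtain ⟨E, hE⟩ : ∃ E : (Fin n → Bool) → (List Bool → ℝ) → ℝ,
    E = fun x g => ∑ r, maskWeight q r * g (traceOf x r) := ⟨_, rfl⟩
  have hEb : ∀ x g, (∀ t : List Bool, t.length ≤ n → |g t| ≤ 1) → |E x g| ≤ 1 := by
    intro x g hg
    rw [hE, ← sum_maskWeight q n]
    refine (Finset.abs_sum_le_sum_abs _ _).trans (Finset.sum_le_sum fun r _ => ?_)
    rw [abs_mul, abs_of_nonneg (hw r)]
    exact mul_le_of_le_one_right (hw r) (hg _ (traceOf_length x r))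
  have hElin : ∀ x (g g' : List Bool → ℝ) (a b c : ℝ),
      E x (fun t => a * g t + b * g' t + c) = a * E x g + b * E x g' + c := by
    intro x g g' a b c
    rw [hE]
    simp only [mul_add, Finset.sum_add_distrib, Finset.mul_sum, ← Finset.sum_mul,
      sum_maskWeight, one_mul, mul_left_comm]
  have hreal : ∀ x y : Fin n → Bool, ∃ g : List Bool → ℝ,
      (∀ t : List Bool, t.length ≤ n → |g t| ≤ 1) ∧ (x ≠ y → ε ≤ E x g - E y g) := by
    intro x y
    by_cases hxy : x = y
    · exact ⟨fun _ => 0, by simp, fun h => absurd hxy h⟩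
    obtain ⟨f, hf1, hf2⟩ := hsep x y hxy
    obtain ⟨u, hu1, hu2⟩ := Complex.exists_norm_eq_mul_self
      (Ex q f (List.ofFn x) - Ex q f (List.ofFn y))
    refine ⟨fun t => (u * f t).re, fun t ht => ?_, fun _ => hf2.trans (le_of_eq ?_)⟩
    · refine (Complex.abs_re_le_norm _).trans ?_
      rw [norm_mul, hu1, one_mul]; exact hf1 t ht
    · have := congrArg Complex.re hu2
      rw [Complex.ofReal_re] at this
      rw [this, Ex_eq_sum, Ex_eq_sum, hE, mul_sub, Finset.mul_sum, Finset.mul_sum, Complex.sub_re,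
        Complex.re_sum, Complex.re_sum]
      simp only [mul_left_comm u, Complex.re_ofReal_mul]
  choose g hg1 hg2 using hreal
  obtain ⟨D, hD⟩ : ∃ D : (Fin n → Bool) → (Fin n → Bool) → List Bool → ℝ, D = fun x y t =>
    1 / 2 * g x y t + -(1 / 2) * g y x t +
      -((E x (g x y) - E x (g y x) + E y (g x y) - E y (g y x)) / 4) := ⟨_, rfl⟩
  have hanti : ∀ x y t, D y x t = -D x y t := fun x y t => by rw [hD]; ring
  have hDb : ∀ x y (t : List Bool), t.length ≤ n → |D x y t| ≤ 2 := by
    intro x y t ht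
    have a1 := abs_le.1 (hg1 x y t ht)
    have a2 := abs_le.1 (hg1 y x t ht)
    have a3 := abs_le.1 (hEb x _ (hg1 x y))
    have a4 := abs_le.1 (hEb x _ (hg1 y x))
    have a5 := abs_le.1 (hEb y _ (hg1 x y))
    have a6 := abs_le.1 (hEb y _ (hg1 y x))
    rw [hD, abs_le]
    constructor <;> simp only <;> linarith
  have hDE : ∀ x y, x ≠ y → ε / 2 ≤ E x (D x y) := by
    intro x y hxy
    have a1 := hg2 x y hxy
    have a2 := hg2 y x hxy.symm
    rw [hD]
    simp only
    rw [hElin]
    linarith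
  have hmgf : ∀ x y, x ≠ y → ∑ r, maskWeight q r * Real.exp (-(ε / 16) * D x y (traceOf x r)) ≤
      Real.exp (-(ε ^ 2 / 64)) := by
    intro x y hxy
    have a1 := hElin x (D x y) (D x y) (-(ε / 16)) 0 (1 + ε ^ 2 / 64)
    have a2 := hDE x y hxy
    calc _ ≤ E x (fun t => -(ε / 16) * D x y t + 0 * D x y t + (1 + ε ^ 2 / 64)) := by
          rw [hE]
          refine Finset.sum_le_sum fun r _ => mul_le_mul_of_nonneg_left ?_ (hw r)
          have b1 := hDb x y _ (traceOf_length x r)
          obtain ⟨s, hs⟩ : ∃ s, s = D x y (traceOf x r) := ⟨_, rfl⟩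
          rw [← hs] at b1 ⊢
          have b2 : |-(ε / 16) * s| ≤ ε / 8 := by
            rw [abs_mul, abs_neg, abs_of_pos (by positivity)]; nlinarith
          have b3 := (abs_le.1 (Real.abs_exp_sub_one_sub_id_le (x := -(ε / 16) * s)
            (by linarith))).2
          have b4 : (-(ε / 16) * s) ^ 2 ≤ (ε / 8) ^ 2 := sq_le_sq' (abs_le.1 b2).1 (abs_le.1 b2).2
          nlinarith
      _ ≤ -(ε ^ 2 / 64) + 1 := by rw [a1]; nlinarith
      _ ≤ _ := Real.add_one_le_exp _
  refine ⟨fun t => PMF.pure (if h : ∃ x, ∀ y, y ≠ x → 0 < ∑ j, D x y (t j) then h.choose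
    else fun _ => true), fun x => ?_⟩
  have hpt : ∀ t : Fin m → List Bool,
      1 - ∑ y ∈ Finset.univ.erase x, ∏ j, Real.exp (-(ε / 16) * D x y (t j)) ≤
      ((PMF.pure (if h : ∃ x, ∀ y, y ≠ x → 0 < ∑ j, D x y (t j) then h.choose
        else fun _ => true) : PMF (Fin n → Bool)) x).toReal := by
    intro t
    by_cases hx : ∀ y, y ≠ x → 0 < ∑ j, D x y (t j)
    · have h : ∃ x, ∀ y, y ≠ x → 0 < ∑ j, D x y (t j) := ⟨x, hx⟩
      have h2 : h.choose = x := by
        by_contra h3
        have a1 := hx _ h3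
        have a2 := h.choose_spec x (Ne.symm h3)
        rw [Finset.sum_congr rfl fun j _ => hanti x h.choose (t j), Finset.sum_neg_distrib] at a2
        linarith
      rw [dif_pos h, h2, PMF.pure_apply_self, ENNReal.toReal_one]
      have : 0 ≤ ∑ y ∈ Finset.univ.erase x, ∏ j, Real.exp (-(ε / 16) * D x y (t j)) :=
        Finset.sum_nonneg fun _ _ => Finset.prod_nonneg fun _ _ => (Real.exp_pos _).le
      linarith
    · push Not at hx
      obtain ⟨y, hy1, hy2⟩ := hx
      refine le_trans ?_ ENNReal.toReal_nonneg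
      rw [sub_nonpos]
      refine le_trans ?_ (Finset.single_le_sum
        (f := fun y => ∏ j, Real.exp (-(ε / 16) * D x y (t j)))
        (fun _ _ => by positivity) (a := y) (by simp [hy1]))
      rw [← Real.exp_sum, ← Finset.mul_sum]
      exact Real.one_le_exp (by nlinarith)
  refine le_trans ?_ (Finset.sum_le_sum fun ω _ => mul_le_mul_of_nonneg_left (hpt _)
    (Finset.prod_nonneg fun j _ => hw (ω j)))
  simp only [mul_sub, Finset.sum_sub_distrib, mul_one, Finset.mul_sum]
  rw [Finset.sum_comm]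
  simp only [← Finset.prod_mul_distrib]
  have hprod : ∀ φ : (Fin n → Bool) → ℝ,
      ∑ ω : Fin m → Fin n → Bool, ∏ j, φ (ω j) = (∑ r, φ r) ^ m := fun φ => by
    rw [← Fintype.piFinset_univ, ← Finset.prod_univ_sum]; simp
  rw [hprod, sum_maskWeight, one_pow]
  have hb : ∀ y ∈ Finset.univ.erase x, ∑ ω : Fin m → Fin n → Bool,
      ∏ j, maskWeight q (ω j) * Real.exp (-(ε / 16) * D x y (traceOf x (ω j))) ≤
      Real.exp (-(n + 2)) := by
    intro y hy
    rw [hprod fun r => maskWeight q r * Real.exp (-(ε / 16) * D x y (traceOf x r))]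
    calc _ ≤ Real.exp (-(ε ^ 2 / 64)) ^ m := by
          gcongr
          · exact Finset.sum_nonneg fun r _ => mul_nonneg (hw r) (Real.exp_pos _).le
          · exact hmgf x y (Finset.ne_of_mem_erase hy).symm
      _ ≤ _ := by rw [← Real.exp_nat_mul, Real.exp_le_exp]; linarith
  have h3 := Finset.sum_le_card_nsmul _ _ _ hb
  have h4 : ((Finset.univ.erase x).card : ℝ) ≤ Real.exp 1 ^ n := by
    calc _ ≤ ((2 ^ n : ℕ) : ℝ) := by
          exact_mod_cast Finset.card_erase_le.trans (by simp)
      _ ≤ _ := by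
          push_cast; gcongr; linarith [Real.exp_one_gt_d9]
  have h5 : Real.exp 1 ^ n * Real.exp (-(n + 2)) ≤ 1 / 3 := by
    rw [← Real.exp_nat_mul, ← Real.exp_add, show n * 1 + -((n : ℝ) + 2) = -2 by ring, Real.exp_neg,
      inv_le_comm₀ (Real.exp_pos _) (by norm_num)]
    linarith [Real.add_one_le_exp 2]
  rw [nsmul_eq_mul] at h3
  have h6 := mul_le_mul_of_nonneg_right h4 (Real.exp_pos (-((n : ℝ) + 2))).le
  linarith

end Vale.Agent.P321
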