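import Mathlib
import Vale.Agent.P321.LHilb
import Vale.Agent.P321.Sample

/-! From closeness of trace laws to a sample complexity lower bound. -/

namespace Vale.Agent.P321.LB

open MonoidAlgebra Finset

theorem pair_Φ (q : ℝ) {n : ℕ} (x : Fin n → Bool) (φ : W → ℝ) :
    pair φ (Φ q (List.ofFn x)) = ∑ r, maskWeight q r * φ (FreeMonoid.ofList (traceOf x r)) := by
  induction n generalizing φ with
  | zero => simp [Φ, maskWeight, traceOf, one_def, pair_single]
  | succ n ih =>
    have e : Φ q (List.ofFn x) = (q • 1 + (1 - q) • lt (x 0)) * Φ q (List.ofFn fun i => x i.succ) := by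
      rw [List.ofFn_succ]; simp [Φ]
    rw [e, add_mul, smul_mul_assoc, smul_mul_assoc, one_mul, map_add, map_smul, map_smul,
      pair_lt_mul, ih, ih, ← (Fin.consEquiv fun _ => Bool).sum_comp,
      Fintype.sum_prod_type, Fintype.sum_bool, add_comm, smul_eq_mul, smul_eq_mul, mul_sum, mul_sum]
    congr 1 <;> refine sum_congr rfl fun r _ => ?_ <;>
      simp [Fin.consEquiv, traceOf_cons, maskWeight, Fin.prod_univ_succ, mul_assoc]

/-- expectation over `m` independent traces -/
noncomputable def Em (q : ℝ) {n : ℕ} (x : Fin n → Bool) (m : ℕ) (F : (Fin m → List Bool) → ℝ) : ℝ :=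
  ∑ ω : Fin m → Fin n → Bool, (∏ j, maskWeight q (ω j)) * F (fun j => traceOf x (ω j))

theorem Em_succ (q : ℝ) {n : ℕ} (x : Fin n → Bool) (m : ℕ) (F : (Fin (m + 1) → List Bool) → ℝ) :
    Em q x (m + 1) F =
      ∑ r, maskWeight q r * Em q x m (fun τ => F (Fin.cons (traceOf x r) τ)) := by
  simp only [Em, mul_sum]
  rw [← (Fin.consEquiv fun _ => Fin n → Bool).sum_comp, Fintype.sum_prod_type]
  refine sum_congr rfl fun r _ => sum_congr rfl fun ω _ => ?_
  simp only [Fin.consEquiv, Equiv.coe_fn_mk, Fin.prod_univ_succ, Fin.cons_zero, Fin.cons_succ,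
    mul_assoc]
  congr 3
  funext j
  refine Fin.cases ?_ (fun j => ?_) j <;> simp

section

variable {q : ℝ} (h0 : 0 ≤ q) (h1 : q ≤ 1) {n : ℕ}
include h0 h1

theorem avg_le {c : ℝ} (G : (Fin n → Bool) → ℝ) (h : ∀ r, |G r| ≤ c) :
    |∑ r, maskWeight q r * G r| ≤ c := by
  refine (abs_sum_le_sum_abs _ _).trans ?_
  rw [← one_mul c, ← sum_maskWeight q n, sum_mul]
  refine sum_le_sum fun r _ => ?_
  have := maskWeight_nonneg h0 h1 r
  rw [abs_mul, abs_of_nonneg this]
  exact mul_le_mul_of_nonneg_left (h r) this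

theorem Em_le (x : Fin n → Bool) (m : ℕ) (F : (Fin m → List Bool) → ℝ) (h : ∀ τ, |F τ| ≤ 1) :
    |Em q x m F| ≤ 1 := by
  induction m with
  | zero => simpa [Em] using h _
  | succ m ih => rw [Em_succ]; exact avg_le h0 h1 _ fun r => ih _ fun τ => h _

theorem Em_sub (x y : Fin n → Bool) (m : ℕ) (F : (Fin m → List Bool) → ℝ) (h : ∀ τ, |F τ| ≤ 1) :
    |Em q x m F - Em q y m F| ≤ m * nr (Φ q (List.ofFn x) - Φ q (List.ofFn y)) := by
  induction m with
  | zero => simpa [Em, sub_eq_zero] using congrArg F (Subsingleton.elim _ _)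
  | succ m ih =>
    have a1 := avg_le h0 h1 (n := n) _ fun r => ih (fun τ => F (Fin.cons (traceOf x r) τ))
      fun τ => h _
    have a2 := abs_pair_le (φ := fun t => Em q y m fun τ => F (Fin.cons (FreeMonoid.toList t) τ))
      (fun t => Em_le h0 h1 y m _ fun τ => h _) (Φ q (List.ofFn x) - Φ q (List.ofFn y))
    rw [map_sub, pair_Φ, pair_Φ] at a2
    simp only [mul_sub, sum_sub_distrib, FreeMonoid.toList_ofList] at a1 a2
    rw [Em_succ, Em_succ, Nat.cast_succ, add_mul, one_mul]
    exact (abs_sub_le _ _ _).trans (add_le_add a1 a2)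

theorem lower_of_close {x y : Fin n → Bool} (hne : x ≠ y) {m : ℕ} (hR : Reconstructible q n m) :
    1 / 3 ≤ m * nr (Φ q (List.ofFn x) - Φ q (List.ofFn y)) := by
  obtain ⟨est, h⟩ := hR
  have b1 : ∀ τ, (est τ x).toReal + (est τ y).toReal ≤ 1 := fun τ => by
    classical
    rw [← ENNReal.toReal_add (PMF.apply_ne_top _ _) (PMF.apply_ne_top _ _), ← sum_pair hne]
    exact ENNReal.toReal_le_of_le_ofReal zero_le_one (by
      rw [ENNReal.ofReal_one, ← (est τ).tsum_coe]; exact ENNReal.sum_le_tsum _)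
  have a1 := Em_sub h0 h1 x y m (fun τ => (est τ x).toReal) fun τ => by
    rw [abs_of_nonneg ENNReal.toReal_nonneg]
    linarith [b1 τ, ENNReal.toReal_nonneg (a := est τ y)]
  have a2 := Em_le h0 h1 y m (fun τ => (est τ x).toReal + (est τ y).toReal) fun τ => by
    rw [abs_of_nonneg (by positivity)]; exact b1 τ
  have a3 := h x
  have a4 := h y
  simp only [Em, successProb, mul_add, sum_add_distrib] at a1 a2 a3 a4
  linarith [(abs_le.1 a1).2, (abs_le.1 a2).2]

theorem lower_of_lists {z y : List Bool} (hl : z.length = y.length) (hne : z ≠ y)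
    (hn : z.length ≤ n) {m : ℕ} (hR : Reconstructible q n m) :
    1 / 3 ≤ m * nr (Φ q y - Φ q z) := by
  obtain ⟨k, rfl⟩ := Nat.exists_eq_add_of_le hn
  have key : ∀ l : List Bool, l.length = z.length → ∃ x : Fin (z.length + k) → Bool,
      List.ofFn x = l ++ List.replicate k true := fun l hl =>
    ⟨fun i => (l ++ List.replicate k true).get (i.cast (by simp [hl])), by
      apply List.ext_get <;> simp [hl]⟩
  obtain ⟨x, hx⟩ := key y hl.symm
  obtain ⟨x', hx'⟩ := key z rfl
  refine (lower_of_close h0 h1 (x := x) (y := x') (fun h => hne ?_) hR).trans ?_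
  · rw [h, hx'] at hx; exact List.append_cancel_right hx
  · rw [hx, hx', Φ_append, Φ_append, ← sub_mul]
    exact mul_le_mul_of_nonneg_left ((Φ_pb h0 h1 _).nr_mul_le' _) (Nat.cast_nonneg m)

end

end Vale.Agent.P321.LB
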