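import Mathlib
import Vale.Agent.P321.Iter
import Vale.Agent.P321.Sample

/-! The quasi-polynomial upper bound. -/

namespace Vale.Agent.P321

theorem exists_split (x y : List Bool) (h : x.length = y.length) (hne : x ≠ y) :
    ∃ u x' y' b b', b ≠ b' ∧ x = u ++ b :: x' ∧ y = u ++ b' :: y' := by
  induction x generalizing y with
  | nil => cases y with
    | nil => exact absurd rfl hne
    | cons _ _ => simp at h
  | cons b x ih => cases y with
    | nil => simp at h
    | cons c y =>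
      by_cases hbc : b = c
      · subst hbc
        obtain ⟨u, x', y', c, c', h1, h2, h3⟩ := ih y (by simpa using h) (by simpa using hne)
        exact ⟨b :: u, x', y', c, c', h1, by simp [h2], by simp [h3]⟩
      · exact ⟨[], x, y, b, c, hbc, rfl, rfl⟩

theorem sep (n : ℕ) (p L : ℝ) (hp0 : 0 < p) (hp1 : p ≤ 1) (hL : 64 ≤ L) (hn : (n : ℝ) = Real.exp L)
    (x y : List Bool) (hx : x.length = n) (hy : y.length = n) (hne : x ≠ y) :
    ∃ f : List Bool → ℂ, (∀ t : List Bool, t.length ≤ n → ‖f t‖ ≤ 1) ∧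
      Real.exp (-(L ^ 66 / p ^ 2)) ≤ ‖Ex (1 - p) f x - Ex (1 - p) f y‖ := by
  have hL66 : L ≤ L ^ 66 := le_self_pow₀ (by linarith) (by norm_num)
  have hsq : ∀ s : ℝ, 0 ≤ s → s ^ 2 / 2 ≤ Real.exp s := fun s hs => by
    linarith [Real.quadratic_le_exp_of_nonneg hs]
  rcases le_or_gt (1 / p) (Real.exp (L / 2)) with hp | hp
  · obtain ⟨u, x', y', b, b', hb, rfl, rfl⟩ := exists_split x y (hx.trans hy.symm) hne
    obtain ⟨J, hJ1, hJ2⟩ := exists_nat_pow_near (x := L / 64) (y := 2)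
      (by rw [le_div_iff₀ (by norm_num)]; linarith) (by norm_num)
    obtain ⟨M, hM⟩ : ∃ M : ℝ, M = 2 / p * 4 ^ J := ⟨_, rfl⟩
    have h2J : (0 : ℝ) < 2 ^ J := by positivity
    have h4J : (4 : ℝ) ^ J ≤ (L / 64) ^ 2 := by
      calc (4 : ℝ) ^ J = (2 ^ J) ^ 2 := by rw [← pow_mul, mul_comm, pow_mul]; norm_num
        _ ≤ _ := by gcongr
    have hM0 : 1 ≤ M := by
      rw [hM]
      refine one_le_mul_of_one_le_of_one_le ?_ (one_le_pow₀ (by norm_num))
      rw [le_div_iff₀ hp0]; linarith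
    have hM1 : Real.log M ≤ 3 * L / 4 := by
      rw [Real.log_le_iff_le_exp (by linarith), hM]
      have h1 := hsq (L / 4) (by linarith)
      calc 2 / p * 4 ^ J = 1 / p * (2 * 4 ^ J) := by ring
        _ ≤ Real.exp (L / 2) * Real.exp (L / 4) := by gcongr; nlinarith
        _ = _ := by rw [← Real.exp_add]; congr 1; ring
    have hM2 : 0 ≤ Real.log M := Real.log_nonneg hM0
    have hτ1 : 16 ≤ (L - Real.log M) / 2 ^ J := by rw [le_div_iff₀ h2J]; linarith
    have hτ2 : (L - Real.log M) / 2 ^ J ≤ 128 := by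
      rw [div_le_iff₀ h2J]; rw [pow_succ] at hJ2; linarith
    have hI := iterate u x' y' b b' hb n hx hy p ((L - Real.log M) / 2 ^ J) (2 * L) J hp0 hp1 hτ1
      (by linarith) (by
        rw [hn, two_mul, Real.exp_add]
        have := Real.add_one_le_exp L
        nlinarith)
      (by
        rw [← hM, div_mul_cancel₀ _ h2J.ne', neg_sub, Real.exp_sub, Real.exp_log (by linarith), hn]
        field_simp)
    obtain ⟨f, hf1, hf2⟩ := final _ _ n u.length (by simp at hx; omega) hx hy p _ hp0 hp1 (by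
      have h1 := hsq (L / 2) (by linarith)
      have h2 : (n : ℝ) = Real.exp (L / 2) * Real.exp (L / 2) := by
        rw [hn, ← Real.exp_add]; congr 1; ring
      rw [div_le_iff₀ hp0] at hp
      rw [h2]
      nlinarith) hI
    refine ⟨f, hf1, le_trans (Real.exp_le_exp.2 (neg_le_neg ?_)) hf2⟩
    have e1 : Real.exp ((L - Real.log M) / 2 ^ J) ≤ 3 ^ 128 := by
      calc _ ≤ Real.exp 1 ^ 128 := by
            rw [← Real.exp_nat_mul, Real.exp_le_exp]; push_cast; linarith
        _ ≤ _ := by gcongr; linarith [Real.exp_one_lt_d9]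
    have e2 : ((2 : ℝ) ^ 63) ^ J ≤ (L / 64) ^ 63 := by
      rw [← pow_mul, mul_comm, pow_mul]; gcongr
    calc _ ≤ 5 * ((L / 64) ^ 63 * (32 * (2 * L) * (2 / p * (L / 64) ^ 2) * 3 ^ 128)) / p := by
          gcongr
      _ = (640 * 3 ^ 128 / 64 ^ 65) * (L ^ 66 / p ^ 2) := by field_simp; norm_num
      _ ≤ _ := mul_le_of_le_one_left (by positivity) (by norm_num)
  · refine ⟨fun t => if t = x then 1 else 0, fun t _ => by by_cases h : t = x <;> simp [h], ?_⟩
    rw [Ex_ind _ _ _ le_rfl, Ex_ind _ _ _ (by omega), if_pos rfl, if_neg hne.symm, sub_zero, hx]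
    push_cast
    rw [sub_sub_cancel, norm_pow, Complex.norm_real, Real.norm_eq_abs, abs_of_pos hp0,
      ← Real.exp_log (pow_pos hp0 n), Real.exp_le_exp, Real.log_pow, neg_le, ← mul_neg,
      ← Real.log_inv, ← one_div]
    obtain ⟨r, hr⟩ : ∃ r, r = 1 / p := ⟨_, rfl⟩
    have hr1 : 1 ≤ r := by rw [hr, le_div_iff₀ hp0]; linarith
    have e : L ^ 66 / p ^ 2 = L ^ 66 * r ^ 2 := by rw [hr]; field_simp
    rw [e, ← hr]
    rw [← hr] at hp
    have h2 : (n : ℝ) ≤ r ^ 2 := by
      rw [hn, show L = (2 : ℕ) * (L / 2) by push_cast; ring, Real.exp_nat_mul]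
      gcongr
    rcases le_or_gt r n with h3 | h3
    · have : Real.log r ≤ L := by rw [Real.log_le_iff_le_exp (by linarith), ← hn]; exact h3
      have := Real.log_nonneg hr1
      rw [mul_comm]
      gcongr; linarith
    · have h4 : Real.log r ≤ r := by linarith [Real.log_le_sub_one_of_pos (by linarith : 0 < r)]
      have := Real.log_nonneg hr1
      calc _ ≤ r * r := by gcongr
        _ ≤ _ := by rw [← sq]; exact le_mul_of_one_le_left (by positivity) (by linarith)

theorem upper (n : ℕ) (hn : Real.exp 64 ≤ n) (q : ℝ) (h0 : 0 ≤ q) (h1 : q < 1) :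
    Reconstructible q n (T q n) ∧ (T q n : ℝ) ≤ Real.exp (Real.log n ^ 67 / (1 - q) ^ 2) := by
  obtain ⟨L, hL⟩ : ∃ L, L = Real.log n := ⟨_, rfl⟩
  obtain ⟨p, hp⟩ : ∃ p, p = 1 - q := ⟨_, rfl⟩
  have hn0 : (0 : ℝ) < n := lt_of_lt_of_le (Real.exp_pos _) hn
  have hL1 : 64 ≤ L := by rw [hL, Real.le_log_iff_exp_le hn0]; exact hn
  have hnL : (n : ℝ) = Real.exp L := by rw [hL, Real.exp_log hn0]
  have hp0 : 0 < p := by linarith
  have hp1 : p ≤ 1 := by linarith
  rw [← hL, ← hp]
  obtain ⟨R, hR⟩ : ∃ R, R = L ^ 66 / p ^ 2 := ⟨_, rfl⟩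
  have hRL : L ≤ R := by
    rw [hR, le_div_iff₀ (by positivity)]
    exact (mul_le_of_le_one_right (by linarith) (pow_le_one₀ hp0.le hp1)).trans
      (le_self_pow₀ (by linarith) (by norm_num))
  have hrec : Reconstructible q n ⌈64 * (n + 2) * Real.exp (2 * R)⌉₊ := by
    refine reconstructible_of_sep h0 h1.le n _ (Real.exp (-R)) (Real.exp_pos _)
      (Real.exp_le_one_iff.2 (by linarith)) ?_ fun x y hxy => ?_
    · refine le_trans (le_of_eq ?_) (mul_le_mul_of_nonneg_right (Nat.le_ceil _) (by positivity))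
      rw [mul_assoc _ (Real.exp _), ← Real.exp_nat_mul, ← Real.exp_add]
      simp
    · have := sep n p L hp0 hp1 hL1 hnL (List.ofFn x) (List.ofFn y) (by simp) (by simp)
        (fun h => hxy (List.ofFn_injective h))
      rwa [← hR, hp, sub_sub_cancel] at this
  refine ⟨Nat.sInf_mem (s := {m | Reconstructible q n m}) ⟨_, hrec⟩, ?_⟩
  have h2 : (T q n : ℝ) ≤ ⌈64 * (n + 2) * Real.exp (2 * R)⌉₊ := by
    exact_mod_cast Nat.sInf_le (s := {m | Reconstructible q n m}) hrec
  refine h2.trans ((Nat.ceil_lt_add_one (by positivity)).le.trans ?_)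
  have h3 : 1 ≤ Real.exp (2 * R) := Real.one_le_exp (by linarith)
  have h4 := Real.add_one_le_exp L
  calc 64 * ((n : ℝ) + 2) * Real.exp (2 * R) + 1 ≤ (65 * (n + 2)) * Real.exp (2 * R) := by nlinarith
    _ ≤ (Real.exp L * (Real.exp L * Real.exp L)) * Real.exp (2 * R) := by
        rw [hnL]; gcongr <;> nlinarith
    _ ≤ _ := by
        rw [← Real.exp_add, ← Real.exp_add, ← Real.exp_add, Real.exp_le_exp, pow_succ,
          mul_div_right_comm, ← hR]
        nlinarith

end Vale.Agent.P321
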