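import Mathlib
import Vale.Agent.P321.LIter
import Vale.Agent.P321.LRed
import Vale.Agent.P321.Upper

/-! The superpolynomial lower bound. -/

namespace Vale.Agent.P321.LB

theorem Lev.lower {q : ℝ} (q0 : 0 ≤ q) (q1 : q ≤ 1) {k u A n m : ℕ} (H : Lev q k u A)
    (hk : 64 * u + 65 ≤ k) (hn : (2 ^ k) ^ (128 * u + 128) ≤ n) (hR : Reconstructible q n m) :
    (2 : ℝ) ^ (k * A) ≤ 18 * m := by
  obtain ⟨z, w, hz, H⟩ := H
  obtain ⟨hY, -⟩ := params (rfl : 2 ^ k = _) (by omega)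
  have a1 := H.nr_le (Nat.one_le_pow _ _ (by positivity)) (by positivity) (by
    linarith [(Bd.z hY (64 * u + 64 - k)).small (c := 1 / 2) (by omega) (by norm_num)])
  have a2 := (lower_of_lists q0 q1 H.1 H.2.1 (hz.trans hn) hR).trans
    (mul_le_mul_of_nonneg_left a1 (Nat.cast_nonneg m))
  rw [zpow_neg, zpow_natCast, ← mul_assoc, ← div_eq_mul_inv, le_div_iff₀ (by positivity)] at a2
  push_cast at a2
  rw [pow_mul]; linarith

theorem lower {q : ℝ} (q0 : 0 < q) (q1 : q < 1) : ∃ n₀ : ℕ, ∀ n m : ℕ, n₀ ≤ n →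
    Reconstructible q n m → (n : ℝ) ^ (Real.log (Real.log n) / 768) ≤ m := by
  obtain ⟨k₀, h⟩ := levels q0 q1
  refine ⟨2 ^ 8 ^ (26 + k₀), fun n m hn hR => ?_⟩
  have hn0 : n ≠ 0 := by have : 0 < 2 ^ 8 ^ (26 + k₀) := by positivity
                         omega
  obtain ⟨N, hN⟩ : ∃ N, N = Nat.log 2 n := ⟨_, rfl⟩
  have b1 : 8 ^ (26 + k₀) ≤ N := hN ▸ Nat.le_log_of_pow_le (by norm_num) hn
  have b2 : 2 ^ N ≤ n := hN ▸ Nat.pow_log_le_self 2 hn0
  have b3 : n < 2 ^ (N + 1) := hN ▸ Nat.lt_pow_succ_log_self (by norm_num) n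
  have hN0 : N ≠ 0 := by have : 0 < 8 ^ (26 + k₀) := by positivity
                         omega
  obtain ⟨j, hj⟩ : ∃ j, j = Nat.log 8 N := ⟨_, rfl⟩
  have b4 : 26 + k₀ ≤ j := hj ▸ Nat.le_log_of_pow_le (by norm_num) b1
  have b5 : 8 ^ j ≤ N := hj ▸ Nat.pow_log_le_self 8 hN0
  have b6 : N < 8 ^ (j + 1) := hj ▸ Nat.lt_pow_succ_log_self (by norm_num) N
  have b7 : 2 ^ 18 * (126 + j) ≤ 2 ^ j := by
    have : 26 ≤ j := by omega
    clear b4 b5 b6 hj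
    induction j, this using Nat.le_induction with
    | base => norm_num
    | succ j _ ih => rw [pow_succ 2 j]; omega
  obtain ⟨u, hu⟩ : ∃ u, 32 * 2 ^ j = u + 1 := ⟨_, (Nat.sub_add_cancel (Nat.succ_le_of_lt (by positivity))).symm⟩
  obtain ⟨k, hk⟩ : ∃ k, k = N / (128 * (u + 1)) := ⟨_, rfl⟩
  have c1 : 2 * ((126 + j) * (u + 1)) ≤ k := by
    rw [hk, Nat.le_div_iff_mul_le (by positivity), ← hu]
    refine le_trans ?_ b5
    calc _ = 2 ^ 18 * (126 + j) * (2 ^ j * 2 ^ j) := by ring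
      _ ≤ 2 ^ j * (2 ^ j * 2 ^ j) := by gcongr
      _ = _ := by rw [← mul_pow, ← mul_pow]; norm_num
  have c2 : k * (128 * (u + 1)) ≤ N := hk ▸ Nat.div_mul_le_self _ _
  have c3 : N < 128 * (u + 1) * (k + 1) := hk ▸ Nat.lt_mul_div_succ _ (by positivity)
  have c4 : 1 ≤ k := by nlinarith
  have c5 := (h k j u (by nlinarith) hu.symm c1).lower q0.le q1.le (by nlinarith)
    (le_trans (by rw [← pow_mul]; exact Nat.pow_le_pow_right two_pos c2) b2) hR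
  have c6 : N + 1 ≤ 256 * (k * (u + 1)) := by nlinarith
  have d1 : (n : ℝ) ≤ 2 ^ (N + 1) := by exact_mod_cast b3.le
  have d0 : (1 : ℝ) ≤ n := by exact_mod_cast Nat.pos_of_ne_zero hn0
  have l2 := Real.log_two_lt_d9
  have d2 : Real.log (Real.log n) ≤ 3 * j := by
    rcases (Real.log_nonneg d0).eq_or_lt with e | e
    · rw [← e, Real.log_zero]; positivity
    have e1 : Real.log n ≤ 2 ^ (3 * (j + 1)) := by
      refine (Real.log_le_log (by linarith) d1).trans ?_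
      rw [Real.log_pow, pow_mul]
      have : ((N + 1 : ℕ) : ℝ) ≤ (2 ^ 3) ^ (j + 1) := by exact_mod_cast b6
      nlinarith [Nat.cast_nonneg (α := ℝ) (N + 1)]
    refine (Real.log_le_log e e1).trans ?_
    rw [Real.log_pow]
    have : (26 : ℝ) ≤ j := by exact_mod_cast (by omega : 26 ≤ j)
    push_cast; nlinarith
  have d3 : (n : ℝ) ≤ (2 ^ (k * (u + 1))) ^ 256 := by
    rw [← pow_mul, mul_comm]; exact d1.trans (pow_le_pow_right₀ one_le_two c6)
  have d4 : (n : ℝ) ^ (Real.log (Real.log n) / 768) ≤ (2 ^ (k * (u + 1))) ^ j := by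
    calc _ ≤ (n : ℝ) ^ ((j : ℝ) / 256) := Real.rpow_le_rpow_of_exponent_le d0 (by linarith)
      _ ≤ ((2 ^ (k * (u + 1))) ^ 256) ^ ((j : ℝ) / 256) := by gcongr
      _ = _ := by
        rw [← Real.rpow_natCast _ 256, ← Real.rpow_mul (by positivity), ← Real.rpow_natCast _ j]
        congr 1; push_cast; ring
  have d5 : (2 : ℝ) ^ 5 * (2 ^ (k * (u + 1))) ^ j ≤ 2 ^ (k * ((126 + j) * (u + 1))) := by
    rw [← pow_mul, ← pow_add]; exact pow_le_pow_right₀ one_le_two (by nlinarith)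
  have : (0 : ℝ) ≤ (2 ^ (k * (u + 1))) ^ j := by positivity
  linarith

theorem two_sided {q : ℝ} (q0 : 0 < q) (q1 : q < 1) : ∃ n₀ : ℕ, ∀ n : ℕ, n₀ ≤ n →
    Reconstructible q n (T q n) ∧ (n : ℝ) ^ (Real.log (Real.log n) / 768) ≤ T q n ∧
      (T q n : ℝ) ≤ Real.exp (Real.log n ^ 67 / (1 - q) ^ 2) := by
  obtain ⟨n₀, h⟩ := lower q0 q1
  refine ⟨max n₀ ⌈Real.exp 64⌉₊, fun n hn => ?_⟩
  obtain ⟨a1, a2⟩ := upper n (Nat.ceil_le.1 (le_of_max_le_right hn)) q q0.le q1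
  exact ⟨a1, h n _ (le_of_max_le_left hn) a1, a2⟩

theorem superpoly {q : ℝ} (q0 : 0 < q) (q1 : q < 1) (C : ℝ) (d : ℕ) :
    ∃ n₀ : ℕ, ∀ n : ℕ, n₀ ≤ n → C * (n : ℝ) ^ d < T q n := by
  obtain ⟨n₀, h⟩ := two_sided q0 q1
  have h1 := ((Real.tendsto_log_atTop.comp Real.tendsto_log_atTop).comp
    tendsto_natCast_atTop_atTop).eventually_ge_atTop (768 * (d + 1 : ℕ))
  have h2 := tendsto_natCast_atTop_atTop.eventually_gt_atTop (max C 1)
  obtain ⟨n₁, h3⟩ := Filter.eventually_atTop.1 (h1.and h2)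
  refine ⟨max n₀ n₁, fun n hn => lt_of_lt_of_le ?_ (h n (le_of_max_le_left hn)).2.1⟩
  obtain ⟨a1, a2⟩ := h3 n (le_of_max_le_right hn)
  rw [max_lt_iff] at a2
  have a3 : (0 : ℝ) < n := by linarith
  refine lt_of_lt_of_le ?_ (Real.rpow_le_rpow_of_exponent_le a2.2.le
    (show ((d + 1 : ℕ) : ℝ) ≤ _ by simp only [Function.comp] at a1; linarith))
  rw [Real.rpow_natCast, pow_succ']
  exact mul_lt_mul_of_pos_right a2.1 (by positivity)

end Vale.Agent.P321.LB
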